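import Claimed.Agent.R316.Pack028

/-!
# B8-BRIDGE: jointly smooth functions belong to the classes `C21`, `XB`, `YB`, `C2aB`, `Adm` on compact sub-cylinders

LEAF (proofs only).  For the consumers (B8M, B9, S3): their functions are `ContDiffOn ℝ ∞ (fun q : ℝ × E => u q.1 q.2) (Icc 0 T ×ˢ S)`, `S` open, `0 < T`.

Recipes.  `Q = Icc 0 T ×ˢ S` has unique derivatives (`(uniqueDiffOn_Icc hT).prod hS.uniqueDiffOn`).  `U q = u q.1 q.2`.
* slices: for `t ∈ Icc 0 T`, `u t = U ∘ (fun x => (t, x))` is `ContDiffOn ℝ ∞` on `S` (`ContDiffOn.comp` with `MapsTo`).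
  `fderiv ℝ (u t) x = (fderivWithin ℝ U Q (t,x)) ∘L ContinuousLinearMap.inr ℝ ℝ E` for `x ∈ S` (chain rule for `fderivWithin`, `fderivWithin_of_isOpen`), and
  `q ↦ fderivWithin ℝ U Q q` is again `ContDiffOn ℝ ∞` on `Q` (`ContDiffOn.fderivWithin`), so `(t,x) ↦ D1 u t x` is `ContDiffOn ℝ ∞` on `Q`: iterate (`smooth_D1`, `smooth_D2`).
* time derivative: `ut t x = fderivWithin ℝ U Q (t,x) (1,0)` by uniqueness of derivatives within `Icc 0 T` (`HasDerivWithinAt.derivWithin`/`UniqueDiffWithinAt.eq_deriv`).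
* bounds: `Icc 0 T ×ˢ closedBall x₀ r` is compact (`E` finite dimensional), continuous functions are bounded (`IsCompact.exists_bound_of_continuousOn`);
  Hölder seminorms from a bound of the next derivative on the convex ball (`lip_of_fderiv`, `HolB.of_lip`).
* `Adm_of_smooth`: `γ = 1`; `|P t x - P s x| ≤ L |t - s|` by the mean value inequality in `t` on `Icc 0 T` (convex) with `L` a bound of the derivative on the compact set.
-/

set_option autoImplicit false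
set_option maxSynthPendingDepth 3
set_option linter.unusedSectionVars false
set_option linter.unusedVariables false

open scoped Topology ContDiff
open Set Filter Metric

namespace Claimed.Agent.R316.B8

variable {E : Type*} [NormedAddCommGroup E] [NormedSpace ℝ E] [FiniteDimensional ℝ E]
variable {F : Type*} [NormedAddCommGroup F] [NormedSpace ℝ F]
variable {T : ℝ} {S : Set E} {u ut : ℝ → E → ℝ}

theorem uniqueDiffOn_cyl (hT : 0 < T) (hS : IsOpen S) : UniqueDiffOn ℝ (Icc (0 : ℝ) T ×ˢ S) :=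
  (uniqueDiffOn_Icc hT).prod hS.uniqueDiffOn

theorem smooth_fderivWithin_cyl (hT : 0 < T) (hS : IsOpen S) {G : ℝ × E → F}
    (hg : ContDiffOn ℝ ∞ G (Icc 0 T ×ˢ S)) :
    ContDiffOn ℝ ∞ (fderivWithin ℝ G (Icc 0 T ×ˢ S)) (Icc 0 T ×ˢ S) :=
  hg.fderivWithin (uniqueDiffOn_cyl hT hS) (by simp)

theorem fderiv_slice_eq (hT : 0 < T) (hS : IsOpen S) {g : ℝ → E → F}
    (hg : ContDiffOn ℝ ∞ (fun q : ℝ × E => g q.1 q.2) (Icc 0 T ×ˢ S)) {t : ℝ} {x : E}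
    (ht : t ∈ Icc 0 T) (hx : x ∈ S) :
    HasFDerivAt (g t) ((fderivWithin ℝ (fun q : ℝ × E => g q.1 q.2) (Icc 0 T ×ˢ S) (t, x)) ∘L
      ContinuousLinearMap.inr ℝ ℝ E) x := by
  have h1 : HasFDerivWithinAt (fun q : ℝ × E => g q.1 q.2)
      (fderivWithin ℝ (fun q : ℝ × E => g q.1 q.2) (Icc 0 T ×ˢ S) (t, x)) (Icc 0 T ×ˢ S) (t, x) :=
    ((hg.differentiableOn (by simp)) (t, x) ⟨ht, hx⟩).hasFDerivWithinAt
  have h2 : HasFDerivWithinAt (fun y : E => ((t, y) : ℝ × E)) (ContinuousLinearMap.inr ℝ ℝ E) S x :=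
    (hasFDerivAt_prodMk_right t x).hasFDerivWithinAt
  have h3 := h1.comp x h2 (fun y hy => ⟨ht, hy⟩)
  exact h3.hasFDerivAt (hS.mem_nhds hx)

/-- spatial derivative of a vector valued jointly smooth function is jointly smooth. -/
theorem smooth_fderiv_slice (hT : 0 < T) (hS : IsOpen S) {g : ℝ → E → F}
    (hg : ContDiffOn ℝ ∞ (fun q : ℝ × E => g q.1 q.2) (Icc 0 T ×ˢ S)) :
    ContDiffOn ℝ ∞ (fun q : ℝ × E => fderiv ℝ (g q.1) q.2) (Icc 0 T ×ˢ S) :=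
  ((smooth_fderivWithin_cyl hT hS hg).clm_comp contDiffOn_const).congr fun q hq =>
    (fderiv_slice_eq hT hS hg hq.1 hq.2).fderiv

theorem smooth_D1 (hT : 0 < T) (hS : IsOpen S)
    (hu : ContDiffOn ℝ ∞ (fun q : ℝ × E => u q.1 q.2) (Icc 0 T ×ˢ S)) :
    ContDiffOn ℝ ∞ (fun q : ℝ × E => D1 u q.1 q.2) (Icc 0 T ×ˢ S) :=
  smooth_fderiv_slice hT hS hu

theorem smooth_D2 (hT : 0 < T) (hS : IsOpen S)
    (hu : ContDiffOn ℝ ∞ (fun q : ℝ × E => u q.1 q.2) (Icc 0 T ×ˢ S)) :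
    ContDiffOn ℝ ∞ (fun q : ℝ × E => D2 u q.1 q.2) (Icc 0 T ×ˢ S) :=
  smooth_fderiv_slice (g := fun t => fderiv ℝ (u t)) hT hS (smooth_D1 hT hS hu)

theorem smooth_jet (hT : 0 < T) (hS : IsOpen S)
    (hu : ContDiffOn ℝ ∞ (fun q : ℝ × E => u q.1 q.2) (Icc 0 T ×ˢ S)) :
    ContDiffOn ℝ ∞ (fun q : ℝ × E => jet u q.1 q.2) (Icc 0 T ×ˢ S) :=
  hu.prodMk ((smooth_D1 hT hS hu).prodMk (smooth_D2 hT hS hu))

/-- existence of the time derivative, jointly smooth (vector valued). -/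
theorem exists_dt_of_smooth (hT : 0 < T) (hS : IsOpen S) {g : ℝ → E → F}
    (hg : ContDiffOn ℝ ∞ (fun q : ℝ × E => g q.1 q.2) (Icc 0 T ×ˢ S)) :
    ∃ gt : ℝ → E → F, ContDiffOn ℝ ∞ (fun q : ℝ × E => gt q.1 q.2) (Icc 0 T ×ˢ S) ∧
      ∀ t ∈ Icc 0 T, ∀ x ∈ S, HasDerivWithinAt (fun s => g s x) (gt t x) (Icc 0 T) t := by
  refine ⟨fun t x => fderivWithin ℝ (fun q : ℝ × E => g q.1 q.2) (Icc 0 T ×ˢ S) (t, x) (1, 0),
    (smooth_fderivWithin_cyl hT hS hg).clm_apply contDiffOn_const, fun t ht x hx => ?_⟩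
  have h1 : HasFDerivWithinAt (fun q : ℝ × E => g q.1 q.2)
      (fderivWithin ℝ (fun q : ℝ × E => g q.1 q.2) (Icc 0 T ×ˢ S) (t, x)) (Icc 0 T ×ˢ S) (t, x) :=
    ((hg.differentiableOn (by simp)) (t, x) ⟨ht, hx⟩).hasFDerivWithinAt
  have h2 : HasDerivWithinAt (fun s : ℝ => ((s, x) : ℝ × E)) ((1, 0) : ℝ × E) (Icc 0 T) t :=
    ((hasDerivAt_id t).prodMk (hasDerivAt_const t x)).hasDerivWithinAt
  have hm : MapsTo (fun s : ℝ => ((s, x) : ℝ × E)) (Icc 0 T) (Icc 0 T ×ˢ S) := fun s hs => ⟨hs, hx⟩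
  exact h1.comp_hasDerivWithinAt t h2 hm

/-- any time derivative of a jointly smooth function is jointly smooth. -/
theorem smooth_dt (hT : 0 < T) (hS : IsOpen S) {g gt : ℝ → E → F}
    (hg : ContDiffOn ℝ ∞ (fun q : ℝ × E => g q.1 q.2) (Icc 0 T ×ˢ S))
    (hgt : ∀ t ∈ Icc 0 T, ∀ x ∈ S, HasDerivWithinAt (fun s => g s x) (gt t x) (Icc 0 T) t) :
    ContDiffOn ℝ ∞ (fun q : ℝ × E => gt q.1 q.2) (Icc 0 T ×ˢ S) := by
  obtain ⟨gt', h1, h2⟩ := exists_dt_of_smooth hT hS hg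
  exact h1.congr fun q hq =>
    (uniqueDiffOn_Icc hT q.1 hq.1).eq_deriv _ (hgt q.1 hq.1 q.2 hq.2) (h2 q.1 hq.1 q.2 hq.2)

theorem smooth_slice {g : ℝ → E → F}
    (hg : ContDiffOn ℝ ∞ (fun q : ℝ × E => g q.1 q.2) (Icc 0 T ×ˢ S)) {t : ℝ} (ht : t ∈ Icc 0 T) :
    ContDiffOn ℝ ∞ (g t) S :=
  hg.comp (f := fun y : E => ((t, y) : ℝ × E)) (contDiff_const.prodMk contDiff_id).contDiffOn
    (fun y hy => ⟨ht, hy⟩)

theorem C21_of_smooth (hT : 0 < T) (hS : IsOpen S)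
    (hu : ContDiffOn ℝ ∞ (fun q : ℝ × E => u q.1 q.2) (Icc 0 T ×ˢ S))
    (hut : ∀ t ∈ Icc 0 T, ∀ x ∈ S, HasDerivWithinAt (fun s => u s x) (ut t x) (Icc 0 T) t) :
    C21 (Icc 0 T) S u ut :=
  ⟨fun t ht => (smooth_slice hu ht).of_le (by norm_cast), hut, hu.continuousOn,
    (smooth_D1 hT hS hu).continuousOn, (smooth_D2 hT hS hu).continuousOn,
    (smooth_dt hT hS hu hut).continuousOn⟩

theorem exists_bound_cyl {G : Type*} [NormedAddCommGroup G] {r : ℝ} {x₀ : E}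
    (hr : closedBall x₀ r ⊆ S) {f : ℝ × E → G} (hf : ContinuousOn f (Icc 0 T ×ˢ S)) :
    ∃ C, 0 ≤ C ∧ ∀ t ∈ Icc 0 T, ∀ x ∈ closedBall x₀ r, ‖f (t, x)‖ ≤ C := by
  have hK : IsCompact (Icc (0 : ℝ) T ×ˢ closedBall x₀ r) :=
    isCompact_Icc.prod (isCompact_closedBall x₀ r)
  obtain ⟨C, hC⟩ := hK.exists_bound_of_continuousOn (hf.mono (prod_mono subset_rfl hr))
  exact ⟨max C 0, le_max_right _ _, fun t ht x hx => (hC (t, x) ⟨ht, hx⟩).trans (le_max_left _ _)⟩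

theorem YB_of_smooth {α r : ℝ} {x₀ : E} (hα0 : 0 < α) (hα1 : α ≤ 1) (hT : 0 < T) (hS : IsOpen S)
    (hr : closedBall x₀ r ⊆ S) {g : ℝ → E → F}
    (hg : ContDiffOn ℝ ∞ (fun q : ℝ × E => g q.1 q.2) (Icc 0 T ×ˢ S)) :
    ∃ K, 0 ≤ K ∧ YB α (Icc 0 T) (ball x₀ r) g K := by
  obtain ⟨K0, hK0, h0⟩ := exists_bound_cyl hr hg.continuousOn
  obtain ⟨K1, hK1, h1⟩ := exists_bound_cyl hr (smooth_fderiv_slice hT hS hg).continuousOn
  have hbS : ball x₀ r ⊆ S := ball_subset_closedBall.trans hr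
  refine ⟨2 * K0 + K1, by positivity, hg.continuousOn.mono (prod_mono subset_rfl hbS),
    fun t ht x hx => (h0 t ht x (ball_subset_closedBall hx)).trans (by linarith), fun t ht => ?_⟩
  refine HolB.of_lip hα0 hα1 (fun x hx => h0 t ht x (ball_subset_closedBall hx))
    (lip_of_fderiv isOpen_ball (convex_ball _ _)
      (((smooth_slice hg ht).differentiableOn (by simp)).mono hbS)
      (fun x hx => h1 t ht x (ball_subset_closedBall hx))) hK1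

theorem XB_of_smooth {α r : ℝ} {x₀ : E} (hα0 : 0 < α) (hα1 : α ≤ 1) (hT : 0 < T) (hS : IsOpen S)
    (hr : closedBall x₀ r ⊆ S)
    (hu : ContDiffOn ℝ ∞ (fun q : ℝ × E => u q.1 q.2) (Icc 0 T ×ˢ S))
    (hut : ∀ t ∈ Icc 0 T, ∀ x ∈ S, HasDerivWithinAt (fun s => u s x) (ut t x) (Icc 0 T) t) :
    ∃ K, 0 ≤ K ∧ XB α (Icc 0 T) (ball x₀ r) u ut K := by
  obtain ⟨K0, hK0, h0⟩ := YB_of_smooth hα0 hα1 hT hS hr hu
  obtain ⟨K1, hK1, h1⟩ := YB_of_smooth hα0 hα1 hT hS hr (smooth_D1 hT hS hu)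
  obtain ⟨K2, hK2, h2⟩ := YB_of_smooth hα0 hα1 hT hS hr (smooth_D2 hT hS hu)
  obtain ⟨K3, hK3, h3⟩ := YB_of_smooth hα0 hα1 hT hS hr (smooth_dt hT hS hu hut)
  exact ⟨K0 + K1 + K2 + K3, by positivity,
    fun t ht => (h0.sup t ht).mono (by linarith), fun t ht => (h1.sup t ht).mono (by linarith),
    fun t ht => (h2.sup t ht).mono (by linarith), fun t ht => (h3.sup t ht).mono (by linarith),
    fun t ht => (h2.hol t ht).mono (by linarith), fun t ht => (h3.hol t ht).mono (by linarith)⟩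

theorem C2aB_of_smooth {α r : ℝ} {x₀ : E} (hα0 : 0 < α) (hα1 : α ≤ 1) (hS : IsOpen S)
    (hr : closedBall x₀ r ⊆ S) {g : E → ℝ} (hg : ContDiffOn ℝ ∞ g S) :
    ∃ K, 0 ≤ K ∧ C2aB α (ball x₀ r) g K := by
  have h1 : ContDiffOn ℝ ∞ (fun q : ℝ × E => (fun _ : ℝ => g) q.1 q.2) (Icc 0 1 ×ˢ S) :=
    hg.comp contDiff_snd.contDiffOn (fun q hq => hq.2)
  have h2 : ∀ t ∈ Icc (0 : ℝ) 1, ∀ x ∈ S, HasDerivWithinAt (fun s => (fun _ : ℝ => g) s x)
      ((fun _ _ => (0 : ℝ)) t x) (Icc 0 1) t := fun t _ x _ => hasDerivWithinAt_const _ _ _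
  obtain ⟨K, hK, h3⟩ := XB_of_smooth hα0 hα1 one_pos hS hr h1 h2
  exact ⟨K, hK, h3.slice ((C21_of_smooth one_pos hS h1 h2).subset subset_rfl
    (ball_subset_closedBall.trans hr)) (left_mem_Icc.mpr zero_le_one)⟩

/-- a jointly smooth, pointwise `lam`-elliptic coefficient field is admissible on compact sub-cylinders (`γ = 1`). -/
theorem Adm_of_smooth {α lam r : ℝ} {x₀ : E} (hα0 : 0 < α) (hα1 : α ≤ 1) (hT : 0 < T) (hS : IsOpen S)
    (hr : closedBall x₀ r ⊆ S) {P : Op E}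
    (hP : ContDiffOn ℝ ∞ (fun q : ℝ × E => P q.1 q.2) (Icc 0 T ×ˢ S))
    (hell : ∀ t ∈ Icc 0 T, ∀ x ∈ ball x₀ r, ∀ ξ : E →L[ℝ] ℝ, lam * ‖ξ‖ ^ 2 ≤ P t x (topJ (sqB ξ))) :
    ∃ M, 0 ≤ M ∧ Adm P α 1 lam M (Icc 0 T) (ball x₀ r) := by
  obtain ⟨M1, hM1, h1⟩ := YB_of_smooth hα0 hα1 hT hS hr hP
  obtain ⟨Pt, hPt, hdt⟩ := exists_dt_of_smooth hT hS hP
  obtain ⟨L, hL, h2⟩ := exists_bound_cyl hr hPt.continuousOn
  refine ⟨M1 + L, by positivity, hell, h1.mono (by linarith), fun t ht s hs x hx B => ?_⟩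
  have hxS : x ∈ S := hr (ball_subset_closedBall hx)
  have h3 := (convex_Icc (0 : ℝ) T).norm_image_sub_le_of_norm_hasDerivWithin_le
    (f := fun s => P s x) (f' := fun s => Pt s x) (C := L) (fun s hs => hdt s hs x hxS)
    (fun s hs => h2 s hs x (ball_subset_closedBall hx)) hs ht
  rw [Real.rpow_one, ← _root_.sub_apply, ← Real.norm_eq_abs, ← Real.norm_eq_abs (t - s)]
  calc ‖(P t x - P s x) (topJ B)‖ ≤ ‖P t x - P s x‖ * ‖topJ B‖ := ContinuousLinearMap.le_opNorm _ _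
    _ ≤ (L * ‖t - s‖) * ‖B‖ := by rw [norm_topJ]; gcongr
    _ ≤ (M1 + L) * ‖t - s‖ * ‖B‖ := by
        have : 0 ≤ ‖t - s‖ * ‖B‖ := by positivity
        nlinarith

theorem sqB_smul (c : ℝ) (ξ : E →L[ℝ] ℝ) : sqB (c • ξ) = (c ^ 2) • sqB ξ := by
  ext v w
  simp only [sqB, ContinuousLinearMap.smulRight_apply, _root_.smul_apply, smul_eq_mul]
  ring

theorem continuous_topJ_sqB : Continuous (fun ξ : E →L[ℝ] ℝ => topJ (sqB ξ)) := by
  have h1 : Continuous (fun ξ : E →L[ℝ] ℝ => sqB ξ) := by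
    have : (fun ξ : E →L[ℝ] ℝ => sqB ξ)
        = fun ξ => ContinuousLinearMap.smulRightL ℝ E (E →L[ℝ] ℝ) ξ ξ := by
      funext ξ; rfl
    rw [this]
    exact ((ContinuousLinearMap.smulRightL ℝ E (E →L[ℝ] ℝ)).continuous.clm_apply continuous_id)
  exact continuous_const.prodMk (continuous_const.prodMk h1)

/-- positivity on a compact cylinder gives a uniform ellipticity constant. -/
theorem exists_lam_of_pos {r : ℝ} {x₀ : E} (hS : IsOpen S) (hr : closedBall x₀ r ⊆ S) {P : Op E}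
    (hP : ContinuousOn (fun q : ℝ × E => P q.1 q.2) (Icc 0 T ×ˢ S))
    (hpos : ∀ t ∈ Icc 0 T, ∀ x ∈ S, ∀ ξ : E →L[ℝ] ℝ, ξ ≠ 0 → 0 < P t x (topJ (sqB ξ))) :
    ∃ lam, 0 < lam ∧ ∀ t ∈ Icc 0 T, ∀ x ∈ closedBall x₀ r, ∀ ξ : E →L[ℝ] ℝ,
      lam * ‖ξ‖ ^ 2 ≤ P t x (topJ (sqB ξ)) := by
  set K3 : Set ((ℝ × E) × (E →L[ℝ] ℝ)) :=
    (Icc (0 : ℝ) T ×ˢ closedBall x₀ r) ×ˢ sphere (0 : E →L[ℝ] ℝ) 1 with hK3
  have hK : IsCompact K3 :=
    (isCompact_Icc.prod (isCompact_closedBall x₀ r)).prod (isCompact_sphere _ _)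
  have hc : ContinuousOn (fun p : (ℝ × E) × (E →L[ℝ] ℝ) => P p.1.1 p.1.2 (topJ (sqB p.2))) K3 := by
    have h1 : ContinuousOn (fun p : (ℝ × E) × (E →L[ℝ] ℝ) => P p.1.1 p.1.2) K3 :=
      hP.comp continuous_fst.continuousOn (fun p hp => ⟨hp.1.1, hr hp.1.2⟩)
    exact h1.clm_apply (continuous_topJ_sqB.comp continuous_snd).continuousOn
  -- reduction to the unit sphere
  have key : ∀ lam : ℝ, (∀ p ∈ K3, lam ≤ P p.1.1 p.1.2 (topJ (sqB p.2))) →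
      ∀ t ∈ Icc 0 T, ∀ x ∈ closedBall x₀ r, ∀ ξ : E →L[ℝ] ℝ,
      lam * ‖ξ‖ ^ 2 ≤ P t x (topJ (sqB ξ)) := by
    intro lam hl t ht x hx ξ
    by_cases hξ : ξ = 0
    · have : topJ (sqB (0 : E →L[ℝ] ℝ)) = 0 := by
        have h0 : sqB (0 : E →L[ℝ] ℝ) = 0 := by
          ext v w; simp [sqB]
        rw [h0]; rfl
      rw [hξ, this, map_zero, norm_zero]; simp
    · have hn : 0 < ‖ξ‖ := norm_pos_iff.mpr hξ
      have h1 := hl ((t, x), ‖ξ‖⁻¹ • ξ) ⟨⟨ht, hx⟩, by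
        rw [mem_sphere_zero_iff_norm, norm_smul, norm_inv, norm_norm, inv_mul_cancel₀ hn.ne']⟩
      have e1 : ξ = ‖ξ‖ • (‖ξ‖⁻¹ • ξ) := by rw [smul_smul, mul_inv_cancel₀ hn.ne', one_smul]
      have e2 : topJ (sqB ξ) = (‖ξ‖ ^ 2) • topJ (sqB (‖ξ‖⁻¹ • ξ)) := by
        conv_lhs => rw [e1, sqB_smul]
        simp [topJ]
      rw [e2, map_smul, smul_eq_mul, mul_comm]
      exact mul_le_mul_of_nonneg_left h1 (by positivity)
  by_cases hne : K3.Nonempty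
  · obtain ⟨p, hp, hmin⟩ := hK.exists_isMinOn hne hc
    refine ⟨_, hpos p.1.1 hp.1.1 p.1.2 (hr hp.1.2) p.2 ?_, key _ (fun p' hp' => hmin hp')⟩
    intro h0
    have := hp.2
    rw [h0, mem_sphere_zero_iff_norm, norm_zero] at this
    exact zero_ne_one this
  · exact ⟨1, one_pos, key 1 (fun p hp => absurd ⟨p, hp⟩ hne)⟩

/-- joint differentiability from partial derivatives (the spatial one continuous). -/
theorem hasFDerivWithinAt_of_partial {I : Set ℝ} (hS : IsOpen S) {g gt : ℝ → E → F}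
    (hdx : ∀ t ∈ I, DifferentiableOn ℝ (g t) S)
    (hc : ContinuousOn (fun q : ℝ × E => fderiv ℝ (g q.1) q.2) (I ×ˢ S)) {t : ℝ} {x : E}
    (ht : t ∈ I) (hx : x ∈ S) (hdt : HasDerivWithinAt (fun s => g s x) (gt t x) I t) :
    HasFDerivWithinAt (fun q : ℝ × E => g q.1 q.2)
      ((ContinuousLinearMap.fst ℝ ℝ E).smulRight (gt t x)
        + (fderiv ℝ (g t) x) ∘L ContinuousLinearMap.snd ℝ ℝ E) (I ×ˢ S) (t, x) := by
  set D₀ := fderiv ℝ (g t) x with hD₀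
  have h2 : HasFDerivWithinAt (fun q : ℝ × E => g q.1 x)
      ((ContinuousLinearMap.fst ℝ ℝ E).smulRight (gt t x)) (I ×ˢ S) (t, x) := by
    have h3 := hdt.hasFDerivWithinAt.comp (t, x) (f := fun q : ℝ × E => q.1) (s := I ×ˢ S)
      (hasFDerivAt_fst.hasFDerivWithinAt) (fun q hq => hq.1)
    refine h3.congr_fderiv ?_
    ext q <;> simp
  have h1 : HasFDerivWithinAt (fun q : ℝ × E => g q.1 q.2 - g q.1 x)
      (D₀ ∘L ContinuousLinearMap.snd ℝ ℝ E) (I ×ˢ S) (t, x) := by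
    rw [hasFDerivWithinAt_iff_isLittleO, Asymptotics.isLittleO_iff]
    intro ε hε
    obtain ⟨δ₁, hδ₁, hb⟩ := Metric.continuousWithinAt_iff.mp (hc (t, x) ⟨ht, hx⟩) ε hε
    obtain ⟨δ₂, hδ₂, hball⟩ := Metric.isOpen_iff.mp hS x hx
    set δ := min δ₁ δ₂ with hδ
    have hδ0 : 0 < δ := lt_min hδ₁ hδ₂
    have hmem : ball ((t, x) : ℝ × E) δ ∈ 𝓝 ((t, x) : ℝ × E) := ball_mem_nhds _ hδ0
    filter_upwards [self_mem_nhdsWithin, mem_nhdsWithin_of_mem_nhds hmem] with q hq hqδ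
    obtain ⟨t', x'⟩ := q
    have hq1 : dist t' t < δ := lt_of_le_of_lt (le_max_left _ _) (by simpa [Prod.dist_eq] using hqδ)
    have hq2 : dist x' x < δ := lt_of_le_of_lt (le_max_right _ _) (by simpa [Prod.dist_eq] using hqδ)
    have ht' : t' ∈ I := hq.1
    have hsub : ball x δ ⊆ S := (ball_subset_ball (min_le_right _ _)).trans hball
    have hmv := (convex_ball x δ).norm_image_sub_le_of_norm_hasFDerivWithin_le
      (f := fun y => g t' y - D₀ y) (f' := fun y => fderiv ℝ (g t') y - D₀) (C := ε)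
      (fun y hy => (((hdx t' ht' y (hsub hy)).differentiableAt
        (hS.mem_nhds (hsub hy))).hasFDerivAt.sub D₀.hasFDerivAt).hasFDerivWithinAt)
      (fun y hy => by
        have h5 := hb (x := ((t', y) : ℝ × E)) ⟨ht', hsub hy⟩ (by
          rw [Prod.dist_eq]
          exact max_lt (hq1.trans_le (min_le_left _ _)) (lt_of_lt_of_le hy (min_le_left _ _)))
        rw [dist_eq_norm] at h5
        exact h5.le)
      (mem_ball_self hδ0) hq2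
    simp only [sub_self, sub_zero, ContinuousLinearMap.comp_apply]
    have e0 : (ContinuousLinearMap.snd ℝ ℝ E) ((t', x') - (t, x)) = x' - x := rfl
    have e1 : g t' x' - g t' x - D₀ (x' - x) = g t' x' - D₀ x' - (g t' x - D₀ x) := by
      rw [map_sub]; abel
    rw [e0, e1]
    refine hmv.trans (mul_le_mul_of_nonneg_left ?_ hε.le)
    exact norm_snd_le ((t', x') - (t, x) : ℝ × E)
  have h3 := h2.add h1
  refine h3.congr_of_eventuallyEq ?_ ?_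
  · exact Eventually.of_forall fun q => by simp
  · simp

/-- `C^n` partial derivatives give a `C^{n+1}` function on `Icc 0 T ×ˢ S`. -/
theorem contDiffOn_succ_of_partial (hT : 0 < T) (hS : IsOpen S) {n : ℕ} {g gt : ℝ → E → F}
    (hdt : ∀ t ∈ Icc 0 T, ∀ x ∈ S, HasDerivWithinAt (fun s => g s x) (gt t x) (Icc 0 T) t)
    (hgt : ContDiffOn ℝ n (fun q : ℝ × E => gt q.1 q.2) (Icc 0 T ×ˢ S))
    (hdx : ∀ t ∈ Icc 0 T, DifferentiableOn ℝ (g t) S)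
    (hDe : ∀ e : E, ContDiffOn ℝ n (fun q : ℝ × E => De e g q.1 q.2) (Icc 0 T ×ˢ S)) :
    ContDiffOn ℝ (n + 1 : ℕ) (fun q : ℝ × E => g q.1 q.2) (Icc 0 T ×ˢ S) := by
  have hQ : UniqueDiffOn ℝ (Icc (0 : ℝ) T ×ˢ S) := (uniqueDiffOn_Icc hT).prod hS.uniqueDiffOn
  have hDG : ContDiffOn ℝ n (fun q : ℝ × E => fderiv ℝ (g q.1) q.2) (Icc 0 T ×ˢ S) :=
    contDiffOn_clm_apply.mpr hDe
  have hd : ∀ q ∈ Icc (0 : ℝ) T ×ˢ S, HasFDerivWithinAt (fun q : ℝ × E => g q.1 q.2)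
      ((ContinuousLinearMap.fst ℝ ℝ E).smulRight (gt q.1 q.2)
        + (fderiv ℝ (g q.1) q.2) ∘L ContinuousLinearMap.snd ℝ ℝ E) (Icc 0 T ×ˢ S) q := fun q hq =>
    hasFDerivWithinAt_of_partial hS hdx hDG.continuousOn hq.1 hq.2 (hdt q.1 hq.1 q.2 hq.2)
  push_cast
  rw [contDiffOn_succ_iff_fderivWithin hQ]
  refine ⟨fun q hq => (hd q hq).differentiableWithinAt, by simp, ?_⟩
  have h1 : ContDiffOn ℝ n (fun q : ℝ × E => (ContinuousLinearMap.fst ℝ ℝ E).smulRight (gt q.1 q.2)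
        + (fderiv ℝ (g q.1) q.2) ∘L ContinuousLinearMap.snd ℝ ℝ E) (Icc 0 T ×ˢ S) :=
    (contDiffOn_const.smulRight hgt).add (hDG.clm_comp contDiffOn_const)
  exact h1.congr fun q hq => (hd q hq).fderivWithin (hQ q hq)

end Claimed.Agent.R316.B8
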