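import Claimed.Agent.R316.Pack001

/-!
# B8-COMPLETE: series of `C21` functions, completeness of `X`

LEAF (proofs only).

Recipe for `C21_tsum`.  `u t x = ∑' k, w k t x`, `ut t x = ∑' k, wt k t x`; `S` open and convex (a ball or `univ`).  Fix `t ∈ I = Icc 0 T`.
* space: `hasFDerivAt_tsum_of_isPreconnected` (`Mathlib.Analysis.Calculus.SmoothSeries`) on `S` twice: `D(∑ w k t) = ∑ D1 (w k) t`, `D(∑ D1 (w k) t) = ∑ D2 (w k) t`
  (bounds `‖D1 (w k) t x‖, ‖D2 (w k) t x‖ ≤ a k` for `x ∈ S` from `norm_jet_le_iff`).  This gives `HasSum (jet (w k) t x) (jet u t x)` (componentwise, `HasSum.prodMk`;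
  note `fderiv` of `u t` near `x` is needed for `D2`: the first identity holds on the whole open set `S`, use `Filter.EventuallyEq.fderiv_eq`),
  and `ContDiffOn ℝ 2 (u t) S` (`contDiffOn_succ_iff_fderiv_of_isOpen` twice with continuity of `x ↦ ∑ D2 (w k) t x`, `continuousOn_tsum`).
* joint continuity on `I ×ˢ S`: `continuousOn_tsum` with the summable bound `a k`.
* time derivative: for each `k`, `w k t x - w k 0 x = ∫_0^t wt k s x ds` (FTC on `[0,t]` for a `C¹` function on the closed interval: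
  `intervalIntegral.integral_eq_sub_of_hasDeriv_right` or `…_of_hasDerivAt_of_le` after passing to `Ioo`); sum over `k`
  (`intervalIntegral.hasSum_integral_of_summable_norm` / dominated convergence): `u t x - u 0 x = ∫_0^t ut s x ds`; `s ↦ ut s x` is continuous on `I`; FTC-1
  (`intervalIntegral.integral_hasDerivWithinAt_right`, or extend `ut · x` continuously by clamping and use `integral_hasDerivAt_right`).
  ALTERNATIVE: `hasDerivWithinAt` of the series by hand from the mean value inequality.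
`X_complete`: `a k = A (1/2)^k`, `∑ a k = 2A`; `SupB`/`HolB` bounds pass to sums: `‖∑' g k‖ ≤ ∑' ‖g k‖` (`tsum_of_norm_bounded`).
-/

set_option autoImplicit false
set_option maxSynthPendingDepth 3
set_option linter.unusedSectionVars false
set_option linter.unusedVariables false

open scoped Topology ContDiff
open Set Filter Metric

namespace Claimed.Agent.R316.B8

variable {E : Type*} [NormedAddCommGroup E] [NormedSpace ℝ E] [FiniteDimensional ℝ E]

/-- a function with continuous second derivative on an open set is `C²` there. -/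
theorem contDiffOn_two_of_hasFDerivAt {S : Set E} (hS : IsOpen S) {g : E → ℝ} {g1 : E → E →L[ℝ] ℝ}
    {g2 : E → Bil E} (h1 : ∀ x ∈ S, HasFDerivAt g (g1 x) x) (h2 : ∀ x ∈ S, HasFDerivAt g1 (g2 x) x)
    (hc : ContinuousOn g2 S) : ContDiffOn ℝ 2 g S := by
  have e : (2 : WithTop ℕ∞) = 1 + 1 := by norm_num
  rw [e, contDiffOn_succ_iff_fderiv_of_isOpen hS]
  refine ⟨fun x hx => (h1 x hx).differentiableAt.differentiableWithinAt, by simp, ?_⟩
  have h3 : ContDiffOn ℝ 1 g1 S := by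
    have e' : (1 : WithTop ℕ∞) = 0 + 1 := by norm_num
    rw [e', contDiffOn_succ_iff_fderiv_of_isOpen hS]
    refine ⟨fun x hx => (h2 x hx).differentiableAt.differentiableWithinAt, by simp, ?_⟩
    rw [contDiffOn_zero]
    exact hc.congr fun x hx => (h2 x hx).fderiv
  exact h3.congr fun x hx => (h1 x hx).fderiv

/-- a series of `C21` functions whose jets and time derivatives are dominated by a summable sequence. -/
theorem C21_tsum {T : ℝ} (hT : 0 < T) {S : Set E} (hS : IsOpen S) (hc : Convex ℝ S)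
    {w wt : ℕ → ℝ → E → ℝ} {a : ℕ → ℝ} (ha : Summable a)
    (hw : ∀ k, C21 (Icc 0 T) S (w k) (wt k))
    (hj : ∀ k, ∀ t ∈ Icc 0 T, ∀ x ∈ S, ‖jet (w k) t x‖ ≤ a k)
    (ht : ∀ k, ∀ t ∈ Icc 0 T, ∀ x ∈ S, |wt k t x| ≤ a k) :
    C21 (Icc 0 T) S (fun t x => ∑' k, w k t x) (fun t x => ∑' k, wt k t x) ∧
      (∀ t ∈ Icc 0 T, ∀ x ∈ S,
        HasSum (fun k => jet (w k) t x) (jet (fun t x => ∑' k, w k t x) t x)) ∧
      (∀ t ∈ Icc 0 T, ∀ x ∈ S, HasSum (fun k => wt k t x) (∑' k, wt k t x)) := by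
  set I := Icc (0 : ℝ) T with hI
  have b0 : ∀ k, ∀ t ∈ I, ∀ x ∈ S, ‖w k t x‖ ≤ a k := fun k t ht' x hx =>
    (norm_jet_le_iff.mp (hj k t ht' x hx)).1
  have b1 : ∀ k, ∀ t ∈ I, ∀ x ∈ S, ‖D1 (w k) t x‖ ≤ a k := fun k t ht' x hx =>
    (norm_jet_le_iff.mp (hj k t ht' x hx)).2.1
  have b2 : ∀ k, ∀ t ∈ I, ∀ x ∈ S, ‖D2 (w k) t x‖ ≤ a k := fun k t ht' x hx =>
    (norm_jet_le_iff.mp (hj k t ht' x hx)).2.2
  have s0 : ∀ t ∈ I, ∀ x ∈ S, Summable (fun k => w k t x) := fun t ht' x hx =>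
    Summable.of_norm_bounded ha (fun k => b0 k t ht' x hx)
  have s1 : ∀ t ∈ I, ∀ x ∈ S, Summable (fun k => D1 (w k) t x) := fun t ht' x hx =>
    Summable.of_norm_bounded ha (fun k => b1 k t ht' x hx)
  have s2 : ∀ t ∈ I, ∀ x ∈ S, Summable (fun k => D2 (w k) t x) := fun t ht' x hx =>
    Summable.of_norm_bounded ha (fun k => b2 k t ht' x hx)
  have st : ∀ t ∈ I, ∀ x ∈ S, Summable (fun k => wt k t x) := fun t ht' x hx =>
    Summable.of_norm_bounded ha (fun k => ht k t ht' x hx)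
  have d1 : ∀ t ∈ I, ∀ x ∈ S,
      HasFDerivAt (fun y => ∑' k, w k t y) (∑' k, D1 (w k) t x) x := fun t ht' x hx =>
    hasFDerivAt_tsum_of_isPreconnected ha hS hc.isPreconnected
      (fun k y hy => (cd2_differentiableAt hS hy ((hw k).c2 t ht')).hasFDerivAt)
      (fun k y hy => b1 k t ht' y hy) hx (s0 t ht' x hx) hx
  have d2 : ∀ t ∈ I, ∀ x ∈ S,
      HasFDerivAt (fun y => ∑' k, D1 (w k) t y) (∑' k, D2 (w k) t x) x := fun t ht' x hx =>
    hasFDerivAt_tsum_of_isPreconnected ha hS hc.isPreconnected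
      (fun k y hy => (cd2_fderiv_differentiableAt hS hy ((hw k).c2 t ht')).hasFDerivAt)
      (fun k y hy => b2 k t ht' y hy) hx (s1 t ht' x hx) hx
  have e1 : ∀ t ∈ I, ∀ x ∈ S, D1 (fun t x => ∑' k, w k t x) t x = ∑' k, D1 (w k) t x :=
    fun t ht' x hx => (d1 t ht' x hx).fderiv
  have e2 : ∀ t ∈ I, ∀ x ∈ S, D2 (fun t x => ∑' k, w k t x) t x = ∑' k, D2 (w k) t x := by
    intro t ht' x hx
    have h1 : fderiv ℝ (fun y => ∑' k, w k t y) =ᶠ[𝓝 x] fun y => ∑' k, D1 (w k) t y := by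
      filter_upwards [hS.mem_nhds hx] with y hy using e1 t ht' y hy
    exact h1.fderiv_eq.trans (d2 t ht' x hx).fderiv
  have c0 : ContinuousOn (fun q : ℝ × E => ∑' k, w k q.1 q.2) (I ×ˢ S) :=
    continuousOn_tsum (fun k => (hw k).cont0) ha (fun k q hq => b0 k q.1 hq.1 q.2 hq.2)
  have c1 : ContinuousOn (fun q : ℝ × E => ∑' k, D1 (w k) q.1 q.2) (I ×ˢ S) :=
    continuousOn_tsum (fun k => (hw k).cont1) ha (fun k q hq => b1 k q.1 hq.1 q.2 hq.2)
  have c2 : ContinuousOn (fun q : ℝ × E => ∑' k, D2 (w k) q.1 q.2) (I ×ˢ S) :=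
    continuousOn_tsum (fun k => (hw k).cont2) ha (fun k q hq => b2 k q.1 hq.1 q.2 hq.2)
  have ct : ContinuousOn (fun q : ℝ × E => ∑' k, wt k q.1 q.2) (I ×ˢ S) :=
    continuousOn_tsum (fun k => (hw k).contt) ha (fun k q hq => ht k q.1 hq.1 q.2 hq.2)
  refine ⟨⟨fun t ht' => ?_, fun t ht' x hx => ?_, c0, c1.congr fun q hq => e1 _ hq.1 _ hq.2,
    c2.congr fun q hq => e2 _ hq.1 _ hq.2, ct⟩, fun t ht' x hx => ?_, fun t ht' x hx =>
    (st t ht' x hx).hasSum⟩
  · refine contDiffOn_two_of_hasFDerivAt hS (d1 t ht') (d2 t ht') ?_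
    have hm : Continuous (fun x : E => ((t, x) : ℝ × E)) := by fun_prop
    exact c2.comp hm.continuousOn (fun x hx => ⟨ht', hx⟩)
  · rw [hasDerivWithinAt_iff_tendsto_slope]
    have h1 : ∀ k, Tendsto (slope (fun s => w k s x) t) (𝓝[I \ {t}] t) (𝓝 (wt k t x)) := fun k =>
      hasDerivWithinAt_iff_tendsto_slope.mp ((hw k).dt t ht' x hx)
    have h2 := tendsto_tsum_of_dominated_convergence
      (f := fun s k => slope (fun s => w k s x) t s) ha h1 (by
        filter_upwards [self_mem_nhdsWithin] with s hs k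
        have hsI : s ∈ I := hs.1
        have hne : s ≠ t := hs.2
        have h3 := (convex_Icc 0 T).norm_image_sub_le_of_norm_hasDerivWithin_le
          (f := fun r => w k r x) (fun r hr => (hw k).dt r hr x hx) (fun r hr => ht k r hr x hx)
          ht' hsI
        rw [slope_def_field, norm_div, div_le_iff₀ (norm_pos_iff.mpr (sub_ne_zero.mpr hne))]
        exact h3)
    refine h2.congr' ?_
    filter_upwards [self_mem_nhdsWithin] with s hs
    have hsI : s ∈ I := hs.1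
    simp only [slope_def_field]
    rw [tsum_div_const, (s0 s hsI x hx).tsum_sub (s0 t ht' x hx)]
  · have h0 := (s0 t ht' x hx).hasSum
    have h1 := (s1 t ht' x hx).hasSum
    have h2 := (s2 t ht' x hx).hasSum
    rw [← e1 t ht' x hx] at h1
    rw [← e2 t ht' x hx] at h2
    exact h0.prodMk (h1.prodMk h2)

/-- a series in `X` with geometrically decaying norms converges in `X`. -/
theorem X_complete {α T A : ℝ} (hT : 0 < T) {w wt : ℕ → ℝ → E → ℝ}
    (hw : ∀ k, C21 (Icc 0 T) univ (w k) (wt k))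
    (hX : ∀ k, XB α (Icc 0 T) univ (w k) (wt k) (A * (1 / 2) ^ k)) :
    ∃ u ut : ℝ → E → ℝ, C21 (Icc 0 T) univ u ut ∧ XB α (Icc 0 T) univ u ut (2 * A) ∧
      (∀ t ∈ Icc 0 T, ∀ x, HasSum (fun k => jet (w k) t x) (jet u t x)) ∧
      (∀ t ∈ Icc 0 T, ∀ x, HasSum (fun k => wt k t x) (ut t x)) := by
  have hg : HasSum (fun k : ℕ => A * (1 / 2 : ℝ) ^ k) (2 * A) := by
    have := hasSum_geometric_two.mul_left A
    rwa [mul_comm A 2] at this
  obtain ⟨h1, h2, h3⟩ := C21_tsum hT isOpen_univ convex_univ hg.summable hw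
    (fun k t ht x hx => (hX k).jet_sup t ht x hx) (fun k t ht x hx => (hX k).bt t ht x hx)
  refine ⟨_, _, h1, ?_, fun t ht x => h2 t ht x (mem_univ _), fun t ht x => h3 t ht x (mem_univ _)⟩
  have p0 : ∀ t ∈ Icc 0 T, ∀ x, HasSum (fun k => w k t x) (∑' k, w k t x) := fun t ht x =>
    (ContinuousLinearMap.fst ℝ ℝ ((E →L[ℝ] ℝ) × Bil E)).hasSum (h2 t ht x (mem_univ _))
  have p1 : ∀ t ∈ Icc 0 T, ∀ x, HasSum (fun k => D1 (w k) t x)
      (D1 (fun t x => ∑' k, w k t x) t x) := fun t ht x =>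
    ((ContinuousLinearMap.fst ℝ (E →L[ℝ] ℝ) (Bil E)).comp
      (ContinuousLinearMap.snd ℝ ℝ ((E →L[ℝ] ℝ) × Bil E))).hasSum (h2 t ht x (mem_univ _))
  have p2 : ∀ t ∈ Icc 0 T, ∀ x, HasSum (fun k => D2 (w k) t x)
      (D2 (fun t x => ∑' k, w k t x) t x) := fun t ht x =>
    ((ContinuousLinearMap.snd ℝ (E →L[ℝ] ℝ) (Bil E)).comp
      (ContinuousLinearMap.snd ℝ ℝ ((E →L[ℝ] ℝ) × Bil E))).hasSum (h2 t ht x (mem_univ _))
  refine ⟨fun t ht x hx => ?_, fun t ht x hx => ?_, fun t ht x hx => ?_, fun t ht x hx => ?_,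
    fun t ht x hx y hy => ?_, fun t ht x hx y hy => ?_⟩
  · exact (p0 t ht x).norm_le_of_bounded hg (fun k => (hX k).b0 t ht x hx)
  · exact (p1 t ht x).norm_le_of_bounded hg (fun k => (hX k).b1 t ht x hx)
  · exact (p2 t ht x).norm_le_of_bounded hg (fun k => (hX k).b2 t ht x hx)
  · exact (h3 t ht x hx).norm_le_of_bounded hg (fun k => (hX k).bt t ht x hx)
  · exact ((p2 t ht x).sub (p2 t ht y)).norm_le_of_bounded (hg.mul_right _)
      (fun k => (hX k).h2 t ht x hx y hy)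
  · exact ((h3 t ht x hx).sub (h3 t ht y hy)).norm_le_of_bounded (hg.mul_right _)
      (fun k => (hX k).ht t ht x hx y hy)

/-- consequence: `L` commutes with the sum. -/
theorem X_complete_Lop {w wt : ℕ → ℝ → E → ℝ} {u ut : ℝ → E → ℝ} (P : Op E) {t : ℝ} {x : E}
    (hj : HasSum (fun k => jet (w k) t x) (jet u t x)) (ht : HasSum (fun k => wt k t x) (ut t x)) :
    HasSum (fun k => Lop P (w k) (wt k) t x) (Lop P u ut t x) :=
  ht.sub ((P t x).hasSum hj)

end Claimed.Agent.R316.B8
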