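import Claimed.Agent.R316.Pack028
import Claimed.Agent.R316.B8.Complete

/-!
# B8-SM-DQ: difference quotients and the limit lemma `dq_limit` (part of export E6; also for B9)

LEAF (proofs only).  `dq h e φ t x = h⁻¹ • (φ t (x + h e) - φ t x)`.

Recipes.
* `dq_YB`: mean value inequality along `s ↦ φ t (x + s h e)`, `s ∈ [0,1]` (derivative `h • De e φ t (x + s h e)`): `‖φ(x+he) - φ(x)‖ ≤ |h| K`; and along
  `s ↦ φ t (x + s h e) - φ t (y + s h e)`: `≤ |h| K ‖x-y‖^α`.  (`Convex.norm_image_sub_le_of_norm_hasDerivWithin_le` on `Icc 0 1`, or `…_fderiv_le` on the ball applied to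
  `z ↦ φ t z - φ t (z + (y - x))`.)  All points stay in `ball x₀ (r + |h| ‖e‖)`.
* `jet_translate`: `fderiv_comp_add_right`.
* `dq_half`: `dq h e φ t x = (1/2) • (dq (h/2) e φ t (x + (h/2) e) + dq (h/2) e φ t x)` (algebra).
* `dq_limit`.  `h_k = h₀ / 2^k`, `U_k = dq h_k e u`, `B' = ball x₀ (r + h₀‖e‖)`, `B = ball x₀ r`.  By `dq_half` (for `u`, `ut` and, via `jet_dq`/`jet_translate`, for jets), for `x ∈ B`:
  `jet U_k (x) - jet U_{k+1} (x) = (1/2)(jet U_{k+1} (x + h_{k+1} e) - jet U_{k+1} (x))`, whose norm is `≤ (1/2) 3C (h_{k+1}‖e‖)^α` by `XB.jet_hol` on the convex ball `B'`;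
  the same for the time derivatives with `XB.ht`.  So `w_0 = U_0`, `w_{k+1} = U_{k+1} - U_k` satisfy the hypotheses of `C21_tsum` on `B` with
  `a_0 = C`, `a_{k+1} = 2C (h₀‖e‖)^α (2^{-α})^{k+1}` (summable geometric).  Partial sums telescope: `∑_{i ≤ k} w_i = U_k`.  Hence `U_k → W := ∑' w_k` with jets and time derivatives.
  `W = De e u` on `I × B` by `dq_tendsto` (`u t` is differentiable); use `C21.congr`, `jet_congr`.  The `XB` bound passes to the limit (`SupB.of_tendsto`, `HolB.of_tendsto`).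
-/

set_option autoImplicit false
set_option maxSynthPendingDepth 3
set_option linter.unusedSectionVars false
set_option linter.unusedVariables false

open scoped Topology ContDiff
open Set Filter Metric

namespace Claimed.Agent.R316.B8

variable {E : Type*} [NormedAddCommGroup E] [NormedSpace ℝ E] [FiniteDimensional ℝ E]
variable {F : Type*} [NormedAddCommGroup F] [NormedSpace ℝ F]
variable {α T : ℝ} {I : Set ℝ}

/-- mean value inequality in one direction. -/
theorem mv_dir {ψ : E → F} {x e : E} {h C : ℝ}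
    (hd : ∀ s ∈ Icc (0 : ℝ) 1, DifferentiableAt ℝ ψ (x + s • (h • e)))
    (hb : ∀ s ∈ Icc (0 : ℝ) 1, ‖fderiv ℝ ψ (x + s • (h • e)) e‖ ≤ C) :
    ‖ψ (x + h • e) - ψ x‖ ≤ |h| * C := by
  have h1 : ∀ s ∈ Icc (0 : ℝ) 1, HasDerivWithinAt (fun s : ℝ => ψ (x + s • (h • e)))
      (h • fderiv ℝ ψ (x + s • (h • e)) e) (Icc 0 1) s := by
    intro s hs
    have h2 : HasDerivAt (fun s : ℝ => x + s • (h • e)) (h • e) s := by
      simpa using ((hasDerivAt_id s).smul_const (h • e)).const_add x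
    have h3 := (hd s hs).hasFDerivAt.comp_hasDerivAt s h2
    rw [map_smul] at h3
    exact h3.hasDerivWithinAt
  have h4 := (convex_Icc (0 : ℝ) 1).norm_image_sub_le_of_norm_hasDerivWithin_le (C := |h| * C) h1
    (fun s hs => by
      rw [norm_smul, Real.norm_eq_abs]
      exact mul_le_mul_of_nonneg_left (hb s hs) (abs_nonneg _))
    (left_mem_Icc.mpr zero_le_one) (right_mem_Icc.mpr zero_le_one)
  simpa using h4

theorem seg_mem_ball {x₀ x e : E} {r h s : ℝ} (hx : x ∈ ball x₀ r) (hs : s ∈ Icc (0 : ℝ) 1) :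
    x + s • (h • e) ∈ ball x₀ (r + |h| * ‖e‖) := by
  rw [mem_ball] at hx ⊢
  have h1 : dist (x + s • (h • e)) x ≤ |h| * ‖e‖ := by
    rw [dist_eq_norm, add_sub_cancel_left, norm_smul, norm_smul, Real.norm_eq_abs, Real.norm_eq_abs,
      abs_of_nonneg hs.1]
    have : 0 ≤ |h| * ‖e‖ := by positivity
    nlinarith [hs.2]
  linarith [dist_triangle (x + s • (h • e)) x x₀]

theorem shift_mem_ball {x₀ x e : E} {r h : ℝ} (hx : x ∈ ball x₀ r) :
    x + h • e ∈ ball x₀ (r + |h| * ‖e‖) := by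
  simpa using seg_mem_ball (h := h) (e := e) hx (right_mem_Icc.mpr zero_le_one)

theorem self_mem_ball' {x₀ x e : E} {r h : ℝ} (hx : x ∈ ball x₀ r) :
    x ∈ ball x₀ (r + |h| * ‖e‖) := by
  simpa using seg_mem_ball (h := h) (e := e) hx (left_mem_Icc.mpr zero_le_one)

/-- difference quotients are bounded in `Y` by the directional derivative. -/
theorem dq_YB {φ : ℝ → E → F} {x₀ e : E} {r h K : ℝ} (hh : h ≠ 0)
    (hc : ContinuousOn (fun q : ℝ × E => φ q.1 q.2) (I ×ˢ ball x₀ (r + |h| * ‖e‖)))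
    (hd : ∀ t ∈ I, DifferentiableOn ℝ (φ t) (ball x₀ (r + |h| * ‖e‖)))
    (hK : YB α I (ball x₀ (r + |h| * ‖e‖)) (De e φ) K) : YB α I (ball x₀ r) (dq h e φ) K := by
  have hh' : 0 < |h| := abs_pos.mpr hh
  have hda : ∀ t ∈ I, ∀ z ∈ ball x₀ (r + |h| * ‖e‖), DifferentiableAt ℝ (φ t) z :=
    fun t ht z hz => (hd t ht z hz).differentiableAt (isOpen_ball.mem_nhds hz)
  refine ⟨?_, fun t ht x hx => ?_, fun t ht x hx y hy => ?_⟩
  · have h1 : ContinuousOn (fun q : ℝ × E => φ q.1 (q.2 + h • e)) (I ×ˢ ball x₀ r) := by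
      refine hc.comp (f := fun q : ℝ × E => ((q.1, q.2 + h • e) : ℝ × E)) (by fun_prop) ?_
      intro q hq
      exact ⟨hq.1, shift_mem_ball hq.2⟩
    have h2 : ContinuousOn (fun q : ℝ × E => φ q.1 q.2) (I ×ˢ ball x₀ r) :=
      hc.mono (prod_mono subset_rfl fun z hz => self_mem_ball' hz)
    exact (h1.sub h2).const_smul h⁻¹
  · have h1 := mv_dir (ψ := φ t) (x := x) (e := e) (h := h) (C := K)
      (fun s hs => hda t ht _ (seg_mem_ball hx hs)) (fun s hs => hK.sup t ht _ (seg_mem_ball hx hs))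
    simp only [dq]
    rw [norm_smul, norm_inv, Real.norm_eq_abs, inv_mul_le_iff₀ hh']
    exact h1
  · have hr : 0 ≤ ‖x - y‖ ^ α := Real.rpow_nonneg (norm_nonneg _) _
    have h1 := mv_dir (ψ := fun z => φ t z - φ t (z + (y - x))) (x := x) (e := e) (h := h)
      (C := K * ‖x - y‖ ^ α)
      (fun s hs => by
        refine (hda t ht _ (seg_mem_ball hx hs)).sub ?_
        have e1 : x + s • (h • e) + (y - x) = y + s • (h • e) := by abel
        have h2 := hda t ht _ (seg_mem_ball (h := h) (e := e) hy hs)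
        rw [← e1] at h2
        exact (differentiableAt_comp_add_right (y - x)).mpr h2)
      (fun s hs => by
        have e1 : x + s • (h • e) + (y - x) = y + s • (h • e) := by abel
        have h2 := hda t ht _ (seg_mem_ball (h := h) (e := e) hy hs)
        rw [← e1] at h2
        have h3 : DifferentiableAt ℝ (fun z => φ t (z + (y - x))) (x + s • (h • e)) :=
          (differentiableAt_comp_add_right (y - x)).mpr h2
        rw [fderiv_fun_sub (hda t ht _ (seg_mem_ball hx hs)) h3, fderiv_comp_add_right,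
          _root_.sub_apply, e1]
        have h4 := hK.hol t ht _ (seg_mem_ball (h := h) (e := e) hx hs) _
          (seg_mem_ball (h := h) (e := e) hy hs)
        have e2 : x + s • (h • e) - (y + s • (h • e)) = x - y := by abel
        rw [e2] at h4
        exact h4)
    simp only [dq]
    rw [← smul_sub, norm_smul, norm_inv, Real.norm_eq_abs, inv_mul_le_iff₀ hh']
    have e3 : φ t (x + h • e) - φ t x - (φ t (y + h • e) - φ t y)
        = φ t (x + h • e) - φ t (x + h • e + (y - x)) - (φ t x - φ t (x + (y - x))) := by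
      have e4 : x + h • e + (y - x) = y + h • e := by abel
      have e5 : x + (y - x) = y := by abel
      rw [e4, e5]; abel
    rw [e3]
    exact h1

/-- rate of convergence: `|dq h e φ - De e φ| ≤ K (|h| ‖e‖)^α`. -/
theorem dq_sub_De_le {φ : ℝ → E → F} {x₀ e : E} {r h K : ℝ} (hα : 0 ≤ α) (hh : h ≠ 0)
    (hd : ∀ t ∈ I, DifferentiableOn ℝ (φ t) (ball x₀ (r + |h| * ‖e‖)))
    (hK : ∀ t ∈ I, HolB α (ball x₀ (r + |h| * ‖e‖)) (De e φ t) K) :
    ∀ t ∈ I, ∀ x ∈ ball x₀ r, ‖dq h e φ t x - De e φ t x‖ ≤ K * (|h| * ‖e‖) ^ α := by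
  intro t ht x hx
  have hh' : 0 < |h| := abs_pos.mpr hh
  have hda : ∀ z ∈ ball x₀ (r + |h| * ‖e‖), DifferentiableAt ℝ (φ t) z :=
    fun z hz => (hd t ht z hz).differentiableAt (isOpen_ball.mem_nhds hz)
  have hK0 : 0 ≤ K ∨ ∀ z ∈ ball x₀ (r + |h| * ‖e‖), ∀ z' ∈ ball x₀ (r + |h| * ‖e‖), z = z' := by
    by_contra hcon
    rw [not_or] at hcon
    obtain ⟨h1, h2⟩ := hcon
    simp only [not_forall] at h2
    obtain ⟨z, hz, z', hz', hne⟩ := h2
    have h3 := hK t ht z hz z' hz'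
    have h4 : 0 < ‖z - z'‖ ^ α := Real.rpow_pos_of_pos (norm_pos_iff.mpr (sub_ne_zero.mpr hne)) _
    have h5 := norm_nonneg (De e φ t z - De e φ t z')
    rw [not_le] at h1
    nlinarith
  have h1 := mv_dir (ψ := fun z => φ t z - fderiv ℝ (φ t) x z) (x := x) (e := e) (h := h)
    (C := K * (|h| * ‖e‖) ^ α)
    (fun s hs => (hda _ (seg_mem_ball hx hs)).sub (fderiv ℝ (φ t) x).differentiableAt)
    (fun s hs => by
      rw [fderiv_fun_sub (hda _ (seg_mem_ball hx hs)) (fderiv ℝ (φ t) x).differentiableAt,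
        ContinuousLinearMap.fderiv, _root_.sub_apply]
      have h4 := hK t ht _ (seg_mem_ball (h := h) (e := e) hx hs) _ (self_mem_ball' hx)
      refine h4.trans ?_
      rw [add_sub_cancel_left]
      rcases hK0 with hK0 | hK0
      · refine mul_le_mul_of_nonneg_left (Real.rpow_le_rpow (norm_nonneg _) ?_ hα) hK0
        rw [norm_smul, norm_smul, Real.norm_eq_abs, Real.norm_eq_abs, abs_of_nonneg hs.1]
        have : 0 ≤ |h| * ‖e‖ := by positivity
        nlinarith [hs.2]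
      · have h5 := hK0 _ (shift_mem_ball (h := h) (e := e) hx) _ (self_mem_ball' (h := h) (e := e) hx)
        have h6 : h • e = 0 := by simpa using h5
        have h7 : |h| * ‖e‖ = 0 := by
          rw [← Real.norm_eq_abs, ← norm_smul, h6, norm_zero]
        rw [h6, smul_zero, norm_zero, h7])
  simp only [dq, De]
  have e1 : h⁻¹ • (φ t (x + h • e) - φ t x) - fderiv ℝ (φ t) x e
      = h⁻¹ • (φ t (x + h • e) - fderiv ℝ (φ t) x (x + h • e) - (φ t x - fderiv ℝ (φ t) x x)) := by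
    rw [map_add, map_smul]
    have : fderiv ℝ (φ t) x e = h⁻¹ • (h • fderiv ℝ (φ t) x e) := by
      rw [smul_smul, inv_mul_cancel₀ hh, one_smul]
    generalize fderiv ℝ (φ t) x e = w at this ⊢
    nth_rewrite 1 [this]
    rw [← smul_sub]
    congr 1; abel
  rw [e1, norm_smul, norm_inv, Real.norm_eq_abs, inv_mul_le_iff₀ hh']
  exact h1

theorem dq_tendsto {φ : ℝ → E → F} {e x : E} {t h₀ : ℝ} (hh₀ : 0 < h₀)
    (hd : DifferentiableAt ℝ (φ t) x) :
    Tendsto (fun k : ℕ => dq (h₀ / 2 ^ k) e φ t x) atTop (𝓝 (De e φ t x)) := by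
  have h2 : HasDerivAt (fun s : ℝ => x + s • e) e 0 := by
    simpa using ((hasDerivAt_id (0 : ℝ)).smul_const e).const_add x
  have hd' : DifferentiableAt ℝ (φ t) (x + (0 : ℝ) • e) := by simpa using hd
  have h3 := hd'.hasFDerivAt.comp_hasDerivAt (0 : ℝ) h2
  rw [hasDerivAt_iff_tendsto_slope_zero] at h3
  have h4 : Tendsto (fun k : ℕ => h₀ / 2 ^ k) atTop (𝓝[≠] 0) := by
    rw [tendsto_nhdsWithin_iff]
    refine ⟨?_, Eventually.of_forall fun k => (by positivity : h₀ / 2 ^ k ≠ 0)⟩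
    have := (tendsto_pow_atTop_nhds_zero_of_lt_one (r := (1 / 2 : ℝ)) (by norm_num) (by norm_num)).const_mul h₀
    simp only [mul_zero] at this
    refine this.congr fun k => ?_
    rw [one_div, inv_pow]; rfl
  have h5 := h3.comp h4
  simp only [zero_smul, add_zero, zero_add] at h5
  refine h5.congr fun k => ?_
  simp [dq]

theorem dq_half (φ : ℝ → E → F) (e x : E) (t : ℝ) {h : ℝ} (hh : h ≠ 0) :
    dq h e φ t x = (1 / 2 : ℝ) • (dq (h / 2) e φ t (x + (h / 2) • e) + dq (h / 2) e φ t x) := by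
  simp only [dq]
  have e1 : x + (h / 2) • e + (h / 2) • e = x + h • e := by
    rw [add_assoc, ← add_smul]; congr 2; ring
  rw [e1, ← smul_add, smul_smul]
  congr 1
  · field_simp
  · abel

theorem jet_translate (u : ℝ → E → ℝ) (a : E) (t : ℝ) (x : E) :
    jet (fun t x => u t (x + a)) t x = jet u t (x + a) := by
  have h1 : ∀ z, fderiv ℝ (fun x => u t (x + a)) z = fderiv ℝ (u t) (z + a) := fun z =>
    fderiv_comp_add_right _
  have h2 : fderiv ℝ (fun x => u t (x + a)) = fun z => fderiv ℝ (u t) (z + a) := funext h1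
  simp only [jet, D1, D2]
  rw [h2, fderiv_comp_add_right]


theorem D1_translate (u : ℝ → E → ℝ) (a : E) (t : ℝ) (x : E) :
    D1 (fun t x => u t (x + a)) t x = D1 u t (x + a) :=
  congrArg (fun J : Jet E => J.2.1) (jet_translate u a t x)

theorem D2_translate (u : ℝ → E → ℝ) (a : E) (t : ℝ) (x : E) :
    D2 (fun t x => u t (x + a)) t x = D2 u t (x + a) :=
  congrArg (fun J : Jet E => J.2.2) (jet_translate u a t x)

theorem C21.translate {S : Set E} {u ut : ℝ → E → ℝ} (a : E) (hu : C21 I S u ut) :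
    C21 I {x | x + a ∈ S} (fun t x => u t (x + a)) (fun t x => ut t (x + a)) := by
  have hc : ContinuousOn (fun q : ℝ × E => ((q.1, q.2 + a) : ℝ × E)) (I ×ˢ {x | x + a ∈ S}) := by
    fun_prop
  have hm : MapsTo (fun q : ℝ × E => ((q.1, q.2 + a) : ℝ × E)) (I ×ˢ {x | x + a ∈ S}) (I ×ˢ S) :=
    fun q hq => ⟨hq.1, hq.2⟩
  refine ⟨fun t ht => ?_, fun t ht x hx => hu.dt t ht _ hx, hu.cont0.comp hc hm, ?_, ?_,
    hu.contt.comp hc hm⟩
  · exact (hu.c2 t ht).comp (contDiff_id.add contDiff_const).contDiffOn (fun x hx => hx)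
  · exact (hu.cont1.comp hc hm).congr fun q _ => D1_translate u a q.1 q.2
  · exact (hu.cont2.comp hc hm).congr fun q _ => D2_translate u a q.1 q.2

theorem XB.translate {S : Set E} {u ut : ℝ → E → ℝ} {K : ℝ} (a : E) (h : XB α I S u ut K) :
    XB α I {x | x + a ∈ S} (fun t x => u t (x + a)) (fun t x => ut t (x + a)) K := by
  have e : ∀ x y : E, x + a - (y + a) = x - y := fun x y => by abel
  refine ⟨fun t ht x hx => h.b0 t ht _ hx, fun t ht x hx => ?_, fun t ht x hx => ?_,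
    fun t ht x hx => h.bt t ht _ hx, fun t ht x hx y hy => ?_, fun t ht x hx y hy => ?_⟩
  · rw [D1_translate]; exact h.b1 t ht _ hx
  · rw [D2_translate]; exact h.b2 t ht _ hx
  · rw [D2_translate, D2_translate, ← e x y]; exact h.h2 t ht _ hx _ hy
  · rw [← e x y]; exact h.ht t ht _ hx _ hy

theorem dq_eq_lin (h : ℝ) (e : E) (u : ℝ → E → ℝ) :
    dq h e u = fun t x => h⁻¹ * u t (x + h • e) + (-h⁻¹) * u t x := by
  funext t x
  simp only [dq, smul_eq_mul]; ring

theorem jet_dq {S : Set E} (hS : IsOpen S) {u : ℝ → E → ℝ} {e x : E} {t h : ℝ}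
    (hu : ContDiffOn ℝ 2 (u t) S) (hx : x ∈ S) (hx' : x + h • e ∈ S) :
    jet (dq h e u) t x = h⁻¹ • (jet u t (x + h • e) - jet u t x) := by
  have hS' : IsOpen (S ∩ {x | x + h • e ∈ S}) :=
    hS.inter (hS.preimage (continuous_id.add continuous_const))
  have h1 : ContDiffOn ℝ 2 (fun x => u t (x + h • e)) (S ∩ {x | x + h • e ∈ S}) :=
    hu.comp (contDiff_id.add contDiff_const).contDiffOn (fun x hx => hx.2)
  rw [dq_eq_lin, jet_lin (u := fun t x => u t (x + h • e)) (v := u) h⁻¹ (-h⁻¹) hS' ⟨hx, hx'⟩ h1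
    (hu.mono inter_subset_left), jet_translate, smul_sub, neg_smul, sub_eq_add_neg]

theorem ball_sub_shift {x₀ e : E} {r h : ℝ} :
    ball x₀ r ⊆ {x | x + h • e ∈ ball x₀ (r + |h| * ‖e‖)} := fun _ hx => shift_mem_ball hx

theorem ball_sub_self' {x₀ e : E} {r h : ℝ} :
    ball x₀ r ⊆ ball x₀ (r + |h| * ‖e‖) := fun _ hx => self_mem_ball' hx

theorem C21.dq {u ut : ℝ → E → ℝ} {x₀ e : E} {r h : ℝ}
    (hu : C21 I (ball x₀ (r + |h| * ‖e‖)) u ut) : C21 I (ball x₀ r) (dq h e u) (dq h e ut) := by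
  rw [dq_eq_lin, dq_eq_lin]
  exact C21.lin h⁻¹ (-h⁻¹) isOpen_ball ((hu.translate (h • e)).subset subset_rfl ball_sub_shift)
    (hu.subset subset_rfl ball_sub_self')

theorem XB.dq_finite {u ut : ℝ → E → ℝ} {x₀ e : E} {r h K : ℝ}
    (hu : C21 I (ball x₀ (r + |h| * ‖e‖)) u ut) (hK : XB α I (ball x₀ (r + |h| * ‖e‖)) u ut K) :
    XB α I (ball x₀ r) (dq h e u) (dq h e ut) (2 * K / |h|) := by
  rw [dq_eq_lin, dq_eq_lin]
  refine (XB.lin h⁻¹ (-h⁻¹) isOpen_ball ((hu.translate (h • e)).subset subset_rfl ball_sub_shift)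
    (hu.subset subset_rfl ball_sub_self') ((hK.translate (h • e)).subset subset_rfl ball_sub_shift)
    (hK.subset subset_rfl ball_sub_self')).mono (le_of_eq ?_)
  rw [abs_neg, abs_inv]; ring

/-- the equation satisfied by a difference quotient. -/
theorem Lop_dq {S : Set E} (hS : IsOpen S) (P : Op E) {u ut : ℝ → E → ℝ} {e x : E} {t h : ℝ}
    (hu : ContDiffOn ℝ 2 (u t) S) (hx : x ∈ S) (hx' : x + h • e ∈ S) :
    Lop P (dq h e u) (dq h e ut) t x
      = dq h e (Lop P u ut) t x + dq h e P t x (jet u t (x + h • e)) := by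
  simp only [Lop]
  rw [jet_dq hS hu hx hx']
  simp only [dq, Lop, map_smul, map_sub, smul_eq_mul, _root_.smul_apply, _root_.sub_apply]
  ring


/-- **limit lemma**: uniform `X` bounds for the difference quotients give `De e u ∈ X`. -/
theorem dq_limit {u ut : ℝ → E → ℝ} {x₀ e : E} {r h₀ C : ℝ} (hα0 : 0 < α) (hα1 : α ≤ 1) (hT : 0 < T)
    (hh₀ : 0 < h₀) (hu : C21 (Icc 0 T) (ball x₀ (r + 2 * h₀ * ‖e‖)) u ut)
    (hX : ∀ h, 0 < h → h ≤ h₀ →
      XB α (Icc 0 T) (ball x₀ (r + h₀ * ‖e‖)) (dq h e u) (dq h e ut) C) :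
    ∃ Wt : ℝ → E → ℝ, C21 (Icc 0 T) (ball x₀ r) (De e u) Wt ∧
      XB α (Icc 0 T) (ball x₀ r) (De e u) Wt C ∧
      (∀ t ∈ Icc 0 T, ∀ x ∈ ball x₀ r,
        Tendsto (fun k : ℕ => jet (dq (h₀ / 2 ^ k) e u) t x) atTop (𝓝 (jet (De e u) t x))) ∧
      (∀ t ∈ Icc 0 T, ∀ x ∈ ball x₀ r,
        Tendsto (fun k : ℕ => dq (h₀ / 2 ^ k) e ut t x) atTop (𝓝 (Wt t x))) := by
  set I := Icc (0 : ℝ) T with hI
  set B := ball x₀ r with hB
  set B' := ball x₀ (r + h₀ * ‖e‖) with hB'
  have he0 : 0 ≤ ‖e‖ := norm_nonneg e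
  set hk : ℕ → ℝ := fun k => h₀ / 2 ^ k with hhk
  have hk0 : ∀ k, 0 < hk k := fun k => by simp only [hhk]; positivity
  have hkle : ∀ k, hk k ≤ h₀ := fun k => div_le_self hh₀.le (one_le_pow₀ (by norm_num))
  have hk2 : ∀ k, hk k / 2 = hk (k + 1) := fun k => by simp only [hhk, pow_succ]; field_simp
  set U : ℕ → ℝ → E → ℝ := fun k => dq (hk k) e u with hU
  set V : ℕ → ℝ → E → ℝ := fun k => dq (hk k) e ut with hV
  have hBB' : B ⊆ B' := ball_subset_ball (by nlinarith)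
  have hUV : ∀ k, C21 I B' (U k) (V k) := fun k => by
    refine C21.dq (hu.subset subset_rfl (ball_subset_ball ?_))
    rw [abs_of_pos (hk0 k)]
    nlinarith [hkle k]
  have hXk : ∀ k, XB α I B' (U k) (V k) C := fun k => hX (hk k) (hk0 k) (hkle k)
  have hsh : ∀ k, ∀ x ∈ B, x + hk k • e ∈ B' := fun k x hx => by
    have h1 := shift_mem_ball (h := hk k) (e := e) hx
    refine ball_subset_ball ?_ h1
    rw [abs_of_pos (hk0 k)]
    nlinarith [hkle k]
  -- halving
  have hUhalf : ∀ k, U k = fun t y => (1 / 2 : ℝ) * U (k + 1) t (y + hk (k + 1) • e)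
      + (1 / 2 : ℝ) * U (k + 1) t y := fun k => by
    funext t y
    simp only [hU]
    rw [dq_half u e y t (hk0 k).ne', hk2 k, smul_eq_mul]; ring
  have hVhalf : ∀ k t y, V k t y = (1 / 2 : ℝ) * V (k + 1) t (y + hk (k + 1) • e)
      + (1 / 2 : ℝ) * V (k + 1) t y := fun k t y => by
    simp only [hV]
    rw [dq_half ut e y t (hk0 k).ne', hk2 k, smul_eq_mul]; ring
  have hjhalf : ∀ k, ∀ t ∈ I, ∀ x ∈ B, jet (U k) t x
      = (1 / 2 : ℝ) • jet (U (k + 1)) t (x + hk (k + 1) • e) + (1 / 2 : ℝ) • jet (U (k + 1)) t x := by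
    intro k t ht x hx
    have h1 : ContDiffOn ℝ 2 (fun y => U (k + 1) t (y + hk (k + 1) • e)) B :=
      ((hUV (k + 1)).c2 t ht).comp (contDiff_id.add contDiff_const).contDiffOn
        (fun y hy => hsh (k + 1) y hy)
    conv_lhs => rw [hUhalf k]
    rw [jet_lin (u := fun t y => U (k + 1) t (y + hk (k + 1) • e)) (v := U (k + 1)) (1 / 2) (1 / 2)
      isOpen_ball hx h1 (((hUV (k + 1)).c2 t ht).mono hBB'), jet_translate]
  set w : ℕ → ℝ → E → ℝ := fun k t x => U (k + 1) t x - U k t x with hw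
  set wt : ℕ → ℝ → E → ℝ := fun k t x => V (k + 1) t x - V k t x with hwt
  have hwC : ∀ k, C21 I B (w k) (wt k) := fun k =>
    C21.sub isOpen_ball ((hUV (k + 1)).subset subset_rfl hBB') ((hUV k).subset subset_rfl hBB')
  have hjw : ∀ k, ∀ t ∈ I, ∀ x ∈ B, jet (w k) t x = jet (U (k + 1)) t x - jet (U k) t x :=
    fun k t ht x hx => jet_sub isOpen_ball hx (((hUV (k + 1)).c2 t ht).mono hBB')
      (((hUV k).c2 t ht).mono hBB')
  set θ : ℝ := (1 / 2 : ℝ) ^ α with hθ
  have hθ0 : 0 ≤ θ := by positivity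
  have hθ1 : θ < 1 := Real.rpow_lt_one (by norm_num) (by norm_num) hα0
  set A : ℝ := 3 / 2 * C * (h₀ * ‖e‖) ^ α with hA
  have hpow : ∀ k, ‖hk k • e‖ ^ α = (h₀ * ‖e‖) ^ α * θ ^ k := fun k => by
    rw [norm_smul, Real.norm_of_nonneg (hk0 k).le, hθ, ← Real.rpow_natCast, ← Real.rpow_mul (by norm_num),
      mul_comm α, Real.rpow_mul (by norm_num), Real.rpow_natCast,
      ← Real.mul_rpow (by positivity) (by positivity)]
    congr 1
    simp only [hhk]
    rw [one_div, inv_pow]; ring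
  have hsum : Summable (fun k : ℕ => A * θ ^ (k + 1)) :=
    ((summable_nat_add_iff 1).mpr (summable_geometric_of_lt_one hθ0 hθ1)).mul_left A
  have hnorm : ∀ (k : ℕ) (x : E), ‖x - (x + hk k • e)‖ = ‖hk k • e‖ := fun k x => by
    rw [sub_add_cancel_left, norm_neg]
  have bj : ∀ k, ∀ t ∈ I, ∀ x ∈ B, ‖jet (w k) t x‖ ≤ A * θ ^ (k + 1) := by
    intro k t ht x hx
    have e1 : jet (w k) t x
        = (1 / 2 : ℝ) • (jet (U (k + 1)) t x - jet (U (k + 1)) t (x + hk (k + 1) • e)) := by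
      rw [hjw k t ht x hx, hjhalf k t ht x hx]
      module
    have h1 := (hXk (k + 1)).jet_hol hα0 hα1 isOpen_ball (convex_ball _ _) (hUV (k + 1)) t ht
      x (hBB' hx) _ (hsh (k + 1) x hx)
    rw [hnorm, hpow] at h1
    rw [e1, norm_smul, Real.norm_of_nonneg (by norm_num)]
    calc (1 / 2 : ℝ) * ‖jet (U (k + 1)) t x - jet (U (k + 1)) t (x + hk (k + 1) • e)‖
        ≤ 1 / 2 * (3 * C * ((h₀ * ‖e‖) ^ α * θ ^ (k + 1))) := by gcongr
      _ = A * θ ^ (k + 1) := by rw [hA]; ring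
  have bt : ∀ k, ∀ t ∈ I, ∀ x ∈ B, |wt k t x| ≤ A * θ ^ (k + 1) := by
    intro k t ht x hx
    have hC0 : 0 ≤ C := (norm_nonneg _).trans ((hXk 0).b0 t ht x (hBB' hx))
    have e1 : wt k t x = (1 / 2 : ℝ) * (V (k + 1) t x - V (k + 1) t (x + hk (k + 1) • e)) := by
      simp only [hwt]
      rw [hVhalf k t x]; ring
    have h1 := (hXk (k + 1)).ht t ht x (hBB' hx) _ (hsh (k + 1) x hx)
    rw [hnorm, hpow, Real.norm_eq_abs] at h1
    rw [e1, abs_mul, abs_of_nonneg (by norm_num : (0 : ℝ) ≤ 1 / 2)]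
    have h2 : 0 ≤ C * ((h₀ * ‖e‖) ^ α * θ ^ (k + 1)) := by positivity
    calc (1 / 2 : ℝ) * |V (k + 1) t x - V (k + 1) t (x + hk (k + 1) • e)|
        ≤ 1 / 2 * (C * ((h₀ * ‖e‖) ^ α * θ ^ (k + 1))) := by gcongr
      _ ≤ 3 / 2 * (C * ((h₀ * ‖e‖) ^ α * θ ^ (k + 1))) := by linarith
      _ = A * θ ^ (k + 1) := by rw [hA]; ring
  obtain ⟨s1, s2, s3⟩ := C21_tsum hT isOpen_ball (convex_ball _ _) hsum hwC bj bt
  set W : ℝ → E → ℝ := fun t x => U 0 t x + ∑' k, w k t x with hW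
  set Wt : ℝ → E → ℝ := fun t x => V 0 t x + ∑' k, wt k t x with hWt
  have hWC : C21 I B W Wt := C21.add isOpen_ball ((hUV 0).subset subset_rfl hBB') s1
  have Tj : ∀ t ∈ I, ∀ x ∈ B, Tendsto (fun n => jet (U n) t x) atTop (𝓝 (jet W t x)) := by
    intro t ht x hx
    have e1 : jet W t x = jet (U 0) t x + jet (fun t x => ∑' k, w k t x) t x :=
      jet_add isOpen_ball hx (((hUV 0).c2 t ht).mono hBB') (s1.c2 t ht)
    rw [e1]
    have h1 := ((s2 t ht x hx).tendsto_sum_nat).const_add (jet (U 0) t x)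
    refine h1.congr fun n => ?_
    have e2 : ∀ i ∈ Finset.range n, jet (w i) t x = jet (U (i + 1)) t x - jet (U i) t x :=
      fun i _ => hjw i t ht x hx
    rw [Finset.sum_congr rfl e2, Finset.sum_range_sub (fun i => jet (U i) t x)]
    abel
  have Tt : ∀ t ∈ I, ∀ x ∈ B, Tendsto (fun n => V n t x) atTop (𝓝 (Wt t x)) := by
    intro t ht x hx
    have h1 := ((s3 t ht x hx).tendsto_sum_nat).const_add (V 0 t x)
    refine h1.congr fun n => ?_
    simp only [hwt]
    rw [Finset.sum_range_sub (fun i => V i t x)]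
    abel
  have T0 : ∀ t ∈ I, ∀ x ∈ B, Tendsto (fun n => U n t x) atTop (𝓝 (W t x)) := fun t ht x hx =>
    (continuous_fst.tendsto _).comp (Tj t ht x hx)
  have T1 : ∀ t ∈ I, ∀ x ∈ B, Tendsto (fun n => D1 (U n) t x) atTop (𝓝 (D1 W t x)) :=
    fun t ht x hx => ((continuous_fst.comp continuous_snd).tendsto _).comp (Tj t ht x hx)
  have T2 : ∀ t ∈ I, ∀ x ∈ B, Tendsto (fun n => D2 (U n) t x) atTop (𝓝 (D2 W t x)) :=
    fun t ht x hx => ((continuous_snd.comp continuous_snd).tendsto _).comp (Tj t ht x hx)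
  have hWX : XB α I B W Wt C := by
    refine ⟨fun t ht => ?_, fun t ht => ?_, fun t ht => ?_, fun t ht => ?_, fun t ht => ?_,
      fun t ht => ?_⟩
    · exact SupB.of_tendsto (gs := fun n => U n t)
        (Eventually.of_forall fun n => ((hXk n).b0 t ht).subset hBB') (T0 t ht)
    · exact SupB.of_tendsto (gs := fun n => D1 (U n) t)
        (Eventually.of_forall fun n => ((hXk n).b1 t ht).subset hBB') (T1 t ht)
    · exact SupB.of_tendsto (gs := fun n => D2 (U n) t)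
        (Eventually.of_forall fun n => ((hXk n).b2 t ht).subset hBB') (T2 t ht)
    · exact SupB.of_tendsto (gs := fun n => V n t)
        (Eventually.of_forall fun n => ((hXk n).bt t ht).subset hBB') (Tt t ht)
    · exact HolB.of_tendsto (gs := fun n => D2 (U n) t)
        (Eventually.of_forall fun n => ((hXk n).h2 t ht).subset hBB') (T2 t ht)
    · exact HolB.of_tendsto (gs := fun n => V n t)
        (Eventually.of_forall fun n => ((hXk n).ht t ht).subset hBB') (Tt t ht)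
  have hDe : ∀ t ∈ I, ∀ x ∈ B, De e u t x = W t x := by
    intro t ht x hx
    have hx2 : x ∈ ball x₀ (r + 2 * h₀ * ‖e‖) := ball_subset_ball (by nlinarith) hx
    have h1 := dq_tendsto (φ := u) (e := e) (t := t) hh₀
      (cd2_differentiableAt isOpen_ball hx2 (hu.c2 t ht))
    exact tendsto_nhds_unique h1 (T0 t ht x hx)
  refine ⟨Wt, hWC.congr isOpen_ball hDe (fun _ _ _ _ => rfl),
    hWX.congr isOpen_ball hDe (fun _ _ _ _ => rfl), fun t ht x hx => ?_, Tt⟩
  rw [jet_congr isOpen_ball hx (hDe t ht)]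
  exact Tj t ht x hx

/-- directional derivatives commute with jets. -/
theorem De_jet {S : Set E} {w : ℝ → E → ℝ} (hS : IsOpen S) {t : ℝ} (hw : ContDiffOn ℝ 3 (w t) S) (e : E) {x : E} (hx : x ∈ S) :
    De e (jet w) t x = jet (De e w) t x := by
  set g := w t with hgdef
  have hg : ∀ y ∈ S, ContDiffAt ℝ 3 g y := fun y hy => hw.contDiffAt (hS.mem_nhds hy)
  have d0 : ∀ y ∈ S, DifferentiableAt ℝ g y := fun y hy => (hg y hy).differentiableAt (by norm_num)
  have hg1 : ∀ y ∈ S, ContDiffAt ℝ 2 (fderiv ℝ g) y := fun y hy =>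
    (hg y hy).fderiv_right (m := 2) (by norm_num)
  have d1 : ∀ y ∈ S, DifferentiableAt ℝ (fderiv ℝ g) y := fun y hy =>
    (hg1 y hy).differentiableAt (by norm_num)
  have hg2 : ∀ y ∈ S, ContDiffAt ℝ 1 (fderiv ℝ (fderiv ℝ g)) y := fun y hy =>
    (hg1 y hy).fderiv_right (m := 1) (by norm_num)
  have d2 : ∀ y ∈ S, DifferentiableAt ℝ (fderiv ℝ (fderiv ℝ g)) y := fun y hy =>
    (hg2 y hy).differentiableAt (by norm_num)
  have sym1 : ∀ y ∈ S, ∀ v v', fderiv ℝ (fderiv ℝ g) y v v' = fderiv ℝ (fderiv ℝ g) y v' v :=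
    fun y hy => (hg y hy).isSymmSndFDerivAt (by simp; norm_num)
  have sym2 : ∀ v v', fderiv ℝ (fderiv ℝ (fderiv ℝ g)) x v v'
      = fderiv ℝ (fderiv ℝ (fderiv ℝ g)) x v' v :=
    (hg1 x hx).isSymmSndFDerivAt (by simp)
  have e1 : ∀ y ∈ S, fderiv ℝ (fun z => fderiv ℝ g z e) y = fderiv ℝ (fderiv ℝ g) y e := by
    intro y hy
    have h1 := ((d1 y hy).hasFDerivAt.clm_apply (hasFDerivAt_const e y)).fderiv
    rw [h1]
    ext v
    simp only [_root_.add_apply, ContinuousLinearMap.comp_apply, ContinuousLinearMap.flip_apply,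
      _root_.zero_apply, map_zero, zero_add]
    exact sym1 y hy v e
  have e2 : fderiv ℝ (fderiv ℝ (fun z => fderiv ℝ g z e)) x
      = fderiv ℝ (fderiv ℝ (fderiv ℝ g)) x e := by
    have h0 : fderiv ℝ (fun z => fderiv ℝ g z e) =ᶠ[𝓝 x] fun y => fderiv ℝ (fderiv ℝ g) y e := by
      filter_upwards [hS.mem_nhds hx] with y hy using e1 y hy
    rw [h0.fderiv_eq]
    have h1 := ((d2 x hx).hasFDerivAt.clm_apply (hasFDerivAt_const e x)).fderiv
    rw [h1]
    ext v v'
    simp only [_root_.add_apply, ContinuousLinearMap.comp_apply, ContinuousLinearMap.flip_apply,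
      _root_.zero_apply, map_zero, zero_add]
    rw [sym2 v e]
  have h3 : HasFDerivAt (jet w t) ((fderiv ℝ g x).prod ((fderiv ℝ (fderiv ℝ g) x).prod
      (fderiv ℝ (fderiv ℝ (fderiv ℝ g)) x))) x :=
    (d0 x hx).hasFDerivAt.prodMk ((d1 x hx).hasFDerivAt.prodMk (d2 x hx).hasFDerivAt)
  simp only [De]
  rw [h3.fderiv]
  have e3 : De e w t = fun z => fderiv ℝ g z e := rfl
  simp only [jet, D1, D2, ContinuousLinearMap.prod_apply]
  rw [e3, e1 x hx, e2]

end Claimed.Agent.R316.B8
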