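import Claimed.Agent.R316.B8.LocalExt

/-!
# B8-LOCAL-STEP (THIS FILE: `local_step`), part of export E4: local Schauder estimate on `[0,T] × ball x₀ R → [0,T] × ball x₀ (R/2)`, up to `t = 0`

THREE LEAVES: `extend_adm` (`LocalExt.lean`), `local_step` (`LocalStep.lean`), `schauder_local` (`Local.lean`).
All imported files may be used sorried.  `0 < R ≤ 1`.

**`extend_adm`.**  `η` with `Cut η x₀ (3R/4) (R/8) Cc` (`exists_cutoff`), `P' t x = η x • P t x + (1 - η x) • ofTop trB`.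
`ell`: convex combination (`trB_sqB`, `ofTop_topJ`); outside `ball x₀ (7R/8)` it is the heat operator.  `coef`: `|P'| ≤ M + m`; `[η P]_α ≤ M + Z M` (`HolB.cutoff_smul`, `S' = ball x₀ (7R/8)`),
`[(1-η) tr]_α ≤ Z m`, `Z = 2Cc/(R/8)^α`; continuity on `I ×ˢ univ`: cover by `ball x₀ R` and `(closedBall x₀ (7R/8))ᶜ`.  `time`: factor `η ≤ 1`.
**`local_step`.**  `M'`, `P'` from `extend_adm`; `Cg` from `schauder_global` for `(α, γ, min 1 lam, M', Tm)`; `Cc` from `exists_cutoff`.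
Given `R/2 ≤ r < s ≤ 3R/4`, `ρ = (s - r)/3` (`ρ ≤ r`, `ρ ≤ 1`), `ζ` with `Cut ζ x₀ r ρ Cc`, `v = ζ u`, `vt = ζ ut` (`C21.cutoff_extend`, `Kc = closedBall x₀ (r+ρ) ⊆ ball x₀ R`).
 * `Lop P' v vt t x = ζ x * f t x - P' t x (commJ ζ u t x)` for ALL `x` (inside `ball x₀ (3R/4)`: `Lop_cutoff` and `P' = P`; outside `closedBall x₀ (r+ρ)`: both sides vanish,
   `jet_cutoff_eq_zero`, `Cut.deriv_eq_zero`).
 * `|ζ f|_Y ≤ (1 + 2Cc/ρ^α) F0` (`YB.cutoff_mul`), `|P' (commJ)|_Y ≤ 2 M' 40 Cc ρ^{-2-α} N'` (`YB.clm_apply`, `commJ_YB`), `|ζ u(0)|_{2+α} ≤ 40 Cc ρ^{-2-α} G0` (`C2aB.cutoff_mul`).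
 * `N' = 18 U0/ρ'² + 4 K ρ'^α` bounds `jet u` on `ball x₀ (r+ρ)` for every `ρ' ≤ ρ` (`interp_jet_ball`, `r + ρ + 2ρ' ≤ s`).
 * `schauder_global` (finite norm by `XB.cutoff_mul`), `XB.of_cutoff`: `XB (ball x₀ r) u (Cg [(1 + 2Cc/ρ^α) F0 + 80 M' Cc ρ^{-2-α} N' + 40 Cc ρ^{-2-α} G0])`.
 * choose `ρ'^α = ρ^{2+α} / D`, `D = 640 Cg M' Cc + 1`: the `K` term is `≤ K/2`, and `1/ρ'² = (D/ρ^{2+α})^{2/α}`.  `κ = (2+α)(1+2/α)`; `ρ ≤ 1` so every negative power of `ρ` is `≤ ρ^{-κ} = 3^κ (s-r)^{-κ}`.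
**`schauder_local`.**  `iter_lemma` with `Q r K = XB α (Icc 0 T) (ball x₀ r) u ut K`, `r0 = R/2`, `r1 = 3R/4`, `A = C (F0+G0+U0)` (`XB.mono`, `XB.of_forall_pos`, `XB.subset`).
-/

set_option autoImplicit false
set_option maxSynthPendingDepth 3
set_option linter.unusedSectionVars false
set_option linter.unusedVariables false

open scoped Topology ContDiff
open Set Filter Metric Module

namespace Claimed.Agent.R316.B8

variable {E : Type*} [NormedAddCommGroup E] [InnerProductSpace ℝ E] [FiniteDimensional ℝ E]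

theorem step_arith {α Cg M' Cc : ℝ} (hα0 : 0 < α) (hCg : 0 ≤ Cg) (hM' : 0 ≤ M') (hCc : 1 ≤ Cc) :
    ∃ C0 : ℝ, 0 ≤ C0 ∧ ∀ ρ F0 G0 U0 K : ℝ, 0 < ρ → ρ ≤ 1 → 0 ≤ F0 → 0 ≤ G0 → 0 ≤ U0 → 0 ≤ K →
      ∃ ρ' : ℝ, 0 < ρ' ∧ ρ' ≤ ρ ∧
        Cg * (((1 + 2 * Cc / ρ ^ α) * F0 + 2 * M' * (40 * Cc / ρ ^ (2 + α) *
          (18 * U0 / ρ' ^ 2 + 4 * K * ρ' ^ α))) + 40 * Cc / ρ ^ (2 + α) * G0)
          ≤ K / 2 + C0 * (F0 + G0 + U0) / ρ ^ ((2 + α) * (1 + 2 / α)) := by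
  set D : ℝ := 640 * Cg * M' * Cc + 1 with hD
  have hCc0 : 0 ≤ Cc := by linarith
  have hD1 : 1 ≤ D := by
    have : 0 ≤ 640 * Cg * M' * Cc := by positivity
    linarith
  have hD0 : 0 < D := by linarith
  set E2 : ℝ := D ^ (2 / α) with hE2
  have hE20 : 0 < E2 := Real.rpow_pos_of_pos hD0 _
  refine ⟨Cg * Cc * (40 + 1440 * M' * E2), by positivity, ?_⟩
  intro ρ F0 G0 U0 K hρ hρ1 hF0 hG0 hU0 hK
  set a : ℝ := ρ ^ α with ha
  set b : ℝ := ρ ^ (2 + α) with hb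
  set p : ℝ := ρ ^ ((2 + α) * (1 + 2 / α)) with hp
  have ha0 : 0 < a := Real.rpow_pos_of_pos hρ _
  have hb0 : 0 < b := Real.rpow_pos_of_pos hρ _
  have hp0 : 0 < p := Real.rpow_pos_of_pos hρ _
  have h2α : 0 < 2 / α := by positivity
  have hba : b ≤ a := Real.rpow_le_rpow_of_exponent_ge hρ hρ1 (by linarith)
  have hpb : p ≤ b := Real.rpow_le_rpow_of_exponent_ge hρ hρ1 (by nlinarith)
  have hp1 : p ≤ 1 := Real.rpow_le_one hρ.le hρ1 (by positivity)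
  have hbD0 : 0 < b / D := by positivity
  set b2 : ℝ := b ^ (2 / α) with hb2
  have hb20 : 0 < b2 := Real.rpow_pos_of_pos hb0 _
  have hbb2 : b * b2 = p := by
    rw [hb2, hb, ← Real.rpow_mul hρ.le, ← Real.rpow_add hρ, hp]
    congr 1; ring
  refine ⟨(b / D) ^ (1 / α), Real.rpow_pos_of_pos hbD0 _, ?_, ?_⟩
  · have h1 : b / D ≤ a := (div_le_self hb0.le hD1).trans hba
    calc (b / D) ^ (1 / α) ≤ a ^ (1 / α) := Real.rpow_le_rpow hbD0.le h1 (by positivity)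
      _ = ρ := by
        rw [ha, ← Real.rpow_mul hρ.le, mul_one_div_cancel hα0.ne', Real.rpow_one]
  · have e1 : ((b / D) ^ (1 / α)) ^ α = b / D := by
      rw [← Real.rpow_mul hbD0.le, one_div_mul_cancel hα0.ne', Real.rpow_one]
    have e2 : ((b / D) ^ (1 / α)) ^ 2 = b2 / E2 := by
      rw [← Real.rpow_natCast, ← Real.rpow_mul hbD0.le, Real.div_rpow hb0.le hD0.le]
      congr 2 <;> (push_cast; ring)
    rw [e1, e2]
    set ip : ℝ := 1 / p with hip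
    have hip0 : 0 < ip := by positivity
    have hip1 : 1 ≤ ip := by rw [hip, le_div_iff₀ hp0]; linarith
    have ia : 1 / a ≤ ip := one_div_le_one_div_of_le hp0 (hpb.trans hba)
    have ib : 1 / b ≤ ip := one_div_le_one_div_of_le hp0 hpb
    have h1 : (1 + 2 * Cc / a) * F0 ≤ 3 * Cc * ip * F0 := by
      refine mul_le_mul_of_nonneg_right ?_ hF0
      have : 2 * Cc / a = 2 * Cc * (1 / a) := by ring
      rw [this]
      nlinarith
    have h2 : 40 * Cc / b * (18 * U0 / (b2 / E2)) = 720 * Cc * E2 * U0 * ip := by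
      rw [hip, ← hbb2]; field_simp; ring
    have h3 : 40 * Cc / b * (4 * K * (b / D)) = 160 * Cc * K / D := by
      field_simp; ring
    have h4 : 40 * Cc / b * G0 ≤ 40 * Cc * ip * G0 := by
      refine mul_le_mul_of_nonneg_right ?_ hG0
      have : 40 * Cc / b = 40 * Cc * (1 / b) := by ring
      rw [this]
      nlinarith
    have h5 : Cg * (2 * M' * (160 * Cc * K / D)) ≤ K / 2 := by
      have : Cg * (2 * M' * (160 * Cc * K / D)) = (320 * Cg * M' * Cc * K) / D := by ring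
      rw [this, div_le_iff₀ hD0, hD]
      nlinarith
    have e3 : 40 * Cc / b * (18 * U0 / (b2 / E2) + 4 * K * (b / D))
        = 720 * Cc * E2 * U0 * ip + 160 * Cc * K / D := by
      rw [mul_add, h2, h3]
    rw [e3]
    have e4 : Cg * Cc * (40 + 1440 * M' * E2) * (F0 + G0 + U0) / p
        = Cg * Cc * (40 + 1440 * M' * E2) * (F0 + G0 + U0) * ip := by rw [hip]; ring
    rw [e4]
    have h6 : Cg * ((1 + 2 * Cc / a) * F0) ≤ Cg * (3 * Cc * ip * F0) := mul_le_mul_of_nonneg_left h1 hCg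
    have h7 : Cg * (40 * Cc / b * G0) ≤ Cg * (40 * Cc * ip * G0) := mul_le_mul_of_nonneg_left h4 hCg
    have h8 : 0 ≤ Cg * Cc * ip * (37 * F0 + 40 * U0 + 1440 * M' * E2 * (F0 + G0)) := by positivity
    have e5 : Cg * Cc * (40 + 1440 * M' * E2) * (F0 + G0 + U0) * ip
        = Cg * (3 * Cc * ip * F0) + 1440 * Cg * M' * Cc * E2 * U0 * ip + Cg * (40 * Cc * ip * G0)
          + Cg * Cc * ip * (37 * F0 + 40 * U0 + 1440 * M' * E2 * (F0 + G0)) := by ring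
    have e6 : Cg * ((1 + 2 * Cc / a) * F0 + 2 * M' * (720 * Cc * E2 * U0 * ip + 160 * Cc * K / D)
          + 40 * Cc / b * G0)
        = Cg * ((1 + 2 * Cc / a) * F0) + 1440 * Cg * M' * Cc * E2 * U0 * ip
          + Cg * (2 * M' * (160 * Cc * K / D)) + Cg * (40 * Cc / b * G0) := by ring
    rw [e5, e6]
    linarith

/-- one step of the iteration: from `ball x₀ s` to `ball x₀ r`. -/
theorem local_step {α γ lam M Tm R : ℝ} (hα0 : 0 < α) (hα1 : α < 1) (hγ : 0 < γ) (hlam : 0 < lam)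
    (hM : 0 ≤ M) (hTm : 0 < Tm) (hR : 0 < R) (hR1 : R ≤ 1) :
    ∃ C κ : ℝ, 0 ≤ C ∧ 0 < κ ∧ ∀ (T : ℝ) (x₀ : E) (P : Op E) (u ut : ℝ → E → ℝ) (F0 G0 U0 : ℝ),
      0 < T → T ≤ Tm → Adm P α γ lam M (Icc 0 T) (ball x₀ R) → C21 (Icc 0 T) (ball x₀ R) u ut →
      YB α (Icc 0 T) (ball x₀ R) (Lop P u ut) F0 → C2aB α (ball x₀ R) (u 0) G0 →
      (∀ t ∈ Icc 0 T, SupB (ball x₀ R) (u t) U0) →
      ∀ r s K : ℝ, R / 2 ≤ r → r < s → s ≤ 3 * R / 4 → XB α (Icc 0 T) (ball x₀ s) u ut K →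
        XB α (Icc 0 T) (ball x₀ r) u ut (K / 2 + C * (F0 + G0 + U0) / (s - r) ^ κ) := by
  obtain ⟨M', hM', hext⟩ := extend_adm (E := E) (γ := γ) (lam := lam) hα0 hα1 hM hR
  obtain ⟨Cg, hCg, hglob⟩ := schauder_global (E := E) hα0 hα1 hγ (lt_min one_pos hlam) hM' hTm
  obtain ⟨Cc, hCc, hcut⟩ := exists_cutoff (E := E)
  obtain ⟨C0, hC0, har⟩ := step_arith hα0 hCg hM' hCc
  set κ : ℝ := (2 + α) * (1 + 2 / α) with hκ
  have hκ0 : 0 < κ := by positivity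
  refine ⟨C0 * 3 ^ κ, κ, by positivity, hκ0, ?_⟩
  intro T x₀ P u ut F0 G0 U0 hT hTT hP hu hf hg hU r s K hr hrs hs hK
  have h0T : (0 : ℝ) ∈ Icc 0 T := ⟨le_rfl, hT.le⟩
  have hx₀ : x₀ ∈ ball x₀ R := mem_ball_self hR
  have hF0 : 0 ≤ F0 := (norm_nonneg _).trans (hf.sup 0 h0T x₀ hx₀)
  have hG0 : 0 ≤ G0 := (norm_nonneg _).trans (hg.b0 x₀ hx₀)
  have hU0 : 0 ≤ U0 := (norm_nonneg _).trans (hU 0 h0T x₀ hx₀)
  have hs0 : 0 < s := by linarith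
  have hK0 : 0 ≤ K := hK.nonneg ⟨0, h0T⟩ ⟨x₀, mem_ball_self hs0⟩
  set ρ : ℝ := (s - r) / 3 with hρd
  have hρ : 0 < ρ := by rw [hρd]; linarith
  have hρr : ρ ≤ r := by rw [hρd]; linarith
  have hρ1 : ρ ≤ 1 := by rw [hρd]; linarith
  obtain ⟨ρ', hρ'0, hρ'ρ, hfinal⟩ := har ρ F0 G0 U0 K hρ hρ1 hF0 hG0 hU0 hK0
  obtain ⟨ζ, hζ⟩ := hcut x₀ r ρ hρ hρr
  obtain ⟨P', hP', hPP⟩ := hext (Icc 0 T) x₀ P hP
  have hsR : s < R := by linarith
  have hrρs : r + ρ < s := by rw [hρd]; linarith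
  have hsub : closedBall x₀ (r + ρ) ⊆ ball x₀ R := closedBall_subset_ball (by linarith)
  have hzero : ∀ y, y ∉ closedBall x₀ (r + ρ) → ζ y = 0 :=
    fun y hy => hζ.eq_zero y (fun h => hy (ball_subset_closedBall h))
  have hv := hu.cutoff_extend hζ.smooth isOpen_ball isClosed_closedBall hsub hzero
  -- the equation of `ζ u`
  have hLop : ∀ t ∈ Icc 0 T, ∀ x ∈ (univ : Set E),
      Lop P' (fun t x => ζ x * u t x) (fun t x => ζ x * ut t x) t x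
        = ζ x • Lop P u ut t x - P' t x (commJ ζ u t x) := by
    intro t ht x _
    simp only [Lop]
    rw [jet_cutoff_all hζ isOpen_ball hsub (hu.c2 t ht) x, map_add, map_smul, smul_eq_mul, smul_eq_mul]
    by_cases hx : x ∈ ball x₀ (3 * R / 4)
    · rw [hPP t x hx]; ring
    · have : ζ x = 0 := hζ.eq_zero x (fun h => hx (ball_subset_ball (by linarith) h))
      rw [this]; ring
  -- interpolation
  set N' : ℝ := 18 * U0 / ρ' ^ 2 + 4 * K * ρ' ^ α with hN'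
  have hN'0 : 0 ≤ N' := by positivity
  have hsub2 : ball x₀ (r + ρ + 2 * ρ') ⊆ ball x₀ s := ball_subset_ball (by rw [hρd] at hρ'ρ ⊢; linarith)
  have hsub3 : ball x₀ s ⊆ ball x₀ R := ball_subset_ball hsR.le
  have hN : ∀ t ∈ Icc 0 T, SupB (ball x₀ (r + ρ)) (jet u t) N' := by
    intro t ht
    exact interp_jet_ball (g := u t) hα0 ((hu.c2 t ht).mono (hsub2.trans hsub3)) hρ'0
      (hρ'ρ.trans hρ1) ((hU t ht).subset (hsub2.trans hsub3)) ((hK.h2 t ht).subset hsub2) hK0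
  have y1 := YB.cutoff_mul hζ hCc hρ hα0 hα1.le isOpen_ball hsub hf hF0
  have y2 := commJ_YB hζ hCc hρ hρ1 hα0 hα1.le isOpen_ball hsub hu hN hN'0
  have hΛ0 : 0 ≤ 40 * Cc / ρ ^ (2 + α) * N' := by positivity
  have y3 := YB.clm_apply hP'.coef y2 hM' hΛ0
  have y4 := (y1.sub y3).congr hLop
  have g1 := C2aB.cutoff_mul hζ hCc hρ hρ1 hα0 hα1.le isOpen_ball hsub hg.c2
    (hg.subset (ball_sub_of_closedBall_sub hsub)) hG0
  have x1 := XB.cutoff_mul hζ hCc hρ hρ1 hα0 hα1.le isOpen_ball hsub hu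
    (hK.subset subset_rfl (ball_subset_ball hrρs.le)) hK0
  have x2 := hglob T P' _ _ _ _ _ hT hTT hP' hv x1 y4 g1
  have x3 := XB.of_cutoff hζ x2
  refine x3.mono (hfinal.trans (le_of_eq ?_))
  have e : (s - r) ^ κ = 3 ^ κ * ρ ^ κ := by
    rw [← Real.mul_rpow (by norm_num) hρ.le, hρd]
    congr 1; ring
  rw [e]
  have h3 : (0 : ℝ) < 3 ^ κ := by positivity
  have hρκ : 0 < ρ ^ κ := Real.rpow_pos_of_pos hρ _
  field_simp

end Claimed.Agent.R316.B8
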