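import Claimed.Agent.R316.B8.Cutoff

/-!
# B8-CUTPROD: quantitative bounds for products with cutoffs

LEAF (proofs only).  `ζ` is a cutoff `Cut ζ x₀ r ρ Cc` (`1 ≤ Cc`, `0 < ρ ≤ 1`), `u` is `C21` on an OPEN set `S ⊇ closedBall x₀ (r+ρ)`, and
bounds of `u` are only known on `Bρ = ball x₀ (r+ρ)` (convex).  All products are extended by zero and estimated on `univ`.

Recipes.
* `HolB.cutoff_clm`: three cases as in `HolB.cutoff_smul` (`x,y ∈ S'`; exactly one in `S'`; none).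
* on the convex open ball: `[u]_α ≤ 3N`, `[Du]_α ≤ 3N` if `|jet u| ≤ N` (`lip_of_fderiv`, `HolB.of_lip`).
* `ζ, Dζ, D²ζ` vanish outside `Bρ` (`Cut.eq_zero`; for the derivatives: they vanish on the open complement of `closedBall x₀ (r+ρ)` and, by
  continuity, on its closure, which contains the sphere; or: a point outside `Bρ` is a minimum of `ζ ≥ 0`, so `Dζ = 0`, etc. — simplest is
  closure/continuity, `Cut.fderiv_eq_zero`).
  Global bounds: `|Dζ| ≤ Cc/ρ`, `[Dζ]_α ≤ 2Cc/ρ^{1+α}`, `|D²ζ| ≤ Cc/ρ²`, `[D²ζ]_α ≤ 2Cc/ρ^{2+α}`, `[ζ]_α ≤ 2Cc/ρ^α`; for `ρ ≤ 1` all are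
  `≤ 2Cc/ρ^{2+α}`.
* counting terms gives constants `≤ 18`; the stated `40` is generous.
* continuity on `I ×ˢ univ`: `univ = S ∪ (closedBall x₀ (r+ρ))ᶜ`, both open; on the second set the function is `0`.
-/

set_option autoImplicit false
set_option maxSynthPendingDepth 3
set_option linter.unusedSectionVars false
set_option linter.unusedVariables false

open scoped Topology ContDiff
open Set Filter Metric

namespace Claimed.Agent.R316.B8

variable {E : Type*} [NormedAddCommGroup E] [NormedSpace ℝ E]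
variable {F : Type*} [NormedAddCommGroup F] [NormedSpace ℝ F]
variable {G : Type*} [NormedAddCommGroup G] [NormedSpace ℝ G]

/-- product rule when the operator valued factor vanishes outside `S'`. -/
theorem HolB.cutoff_clm {α : ℝ} {S' : Set E} {A : E → F →L[ℝ] G} {v : E → F} {a0 a1 v0 v1 : ℝ}
    (hA : ∀ x, x ∉ S' → A x = 0) (hA0 : SupB univ A a0) (hA1 : HolB α univ A a1)
    (hv0 : SupB S' v v0) (hv1 : HolB α S' v v1) (ha0 : 0 ≤ a0) (ha1 : 0 ≤ a1) (h0 : 0 ≤ v0)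
    (h1 : 0 ≤ v1) : HolB α univ (fun x => A x (v x)) (a0 * v1 + a1 * v0) := by
  intro x _ y _
  have hr : 0 ≤ ‖x - y‖ ^ α := Real.rpow_nonneg (norm_nonneg _) _
  simp only
  by_cases hx : x ∈ S' <;> by_cases hy : y ∈ S'
  · exact HolB.clm_apply (S := S') (hA0.subset (subset_univ _)) (hA1.subset (subset_univ _)) hv0 hv1
      x hx y hy
  · rw [hA y hy, _root_.zero_apply, sub_zero]
    have h2 := hA1 x (mem_univ _) y (mem_univ _)
    rw [hA y hy, sub_zero] at h2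
    calc ‖A x (v x)‖ ≤ ‖A x‖ * ‖v x‖ := (A x).le_opNorm _
      _ ≤ (a1 * ‖x - y‖ ^ α) * v0 := mul_le_mul h2 (hv0 x hx) (norm_nonneg _) (by positivity)
      _ ≤ (a0 * v1 + a1 * v0) * ‖x - y‖ ^ α := by nlinarith [mul_nonneg (mul_nonneg ha0 h1) hr]
  · rw [hA x hx, _root_.zero_apply, zero_sub, norm_neg]
    have h2 := hA1 x (mem_univ _) y (mem_univ _)
    rw [hA x hx, zero_sub, norm_neg] at h2
    calc ‖A y (v y)‖ ≤ ‖A y‖ * ‖v y‖ := (A y).le_opNorm _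
      _ ≤ (a1 * ‖x - y‖ ^ α) * v0 := mul_le_mul h2 (hv0 y hy) (norm_nonneg _) (by positivity)
      _ ≤ (a0 * v1 + a1 * v0) * ‖x - y‖ ^ α := by nlinarith [mul_nonneg (mul_nonneg ha0 h1) hr]
  · rw [hA x hx, hA y hy, _root_.zero_apply, _root_.zero_apply, sub_zero, norm_zero]
    positivity

theorem SupB.cutoff_clm {S' : Set E} {A : E → F →L[ℝ] G} {v : E → F} {a0 v0 : ℝ}
    (hA : ∀ x, x ∉ S' → A x = 0) (hA0 : SupB univ A a0) (hv0 : SupB S' v v0) (ha0 : 0 ≤ a0)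
    (h0 : 0 ≤ v0) : SupB univ (fun x => A x (v x)) (a0 * v0) := by
  intro x _
  simp only
  by_cases hx : x ∈ S'
  · exact ((A x).le_opNorm _).trans (mul_le_mul (hA0 x (mem_univ _)) (hv0 x hx) (norm_nonneg _) ha0)
  · rw [hA x hx, _root_.zero_apply, norm_zero]; positivity

/-- bilinear version. -/
theorem cutoff_bil {G₁ G₂ G₃ : Type*} [NormedAddCommGroup G₁] [NormedSpace ℝ G₁]
    [NormedAddCommGroup G₂] [NormedSpace ℝ G₂] [NormedAddCommGroup G₃] [NormedSpace ℝ G₃]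
    (Φ : G₁ →L[ℝ] G₂ →L[ℝ] G₃) (hΦ : ∀ a b, ‖Φ a b‖ ≤ ‖a‖ * ‖b‖) {α : ℝ} {S' : Set E} {z : E → G₁}
    {v : E → G₂} {a0 a1 v0 v1 : ℝ} (hz : ∀ x, x ∉ S' → z x = 0) (hz0 : SupB univ z a0)
    (hz1 : HolB α univ z a1) (hv0 : SupB S' v v0) (hv1 : HolB α S' v v1) (ha0 : 0 ≤ a0)
    (ha1 : 0 ≤ a1) (h0 : 0 ≤ v0) (h1 : 0 ≤ v1) :
    SupB univ (fun x => Φ (z x) (v x)) (a0 * v0) ∧
      HolB α univ (fun x => Φ (z x) (v x)) (a0 * v1 + a1 * v0) := by
  have hn : ∀ a, ‖Φ a‖ ≤ ‖a‖ := fun a => ContinuousLinearMap.opNorm_le_bound _ (norm_nonneg _) (hΦ a)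
  have hA : ∀ x, x ∉ S' → Φ (z x) = 0 := fun x hx => by rw [hz x hx, map_zero]
  have hA0 : SupB univ (fun x => Φ (z x)) a0 := fun x hx => (hn _).trans (hz0 x hx)
  have hA1 : HolB α univ (fun x => Φ (z x)) a1 := fun x hx y hy => by
    simp only
    rw [← map_sub]
    exact (hn _).trans (hz1 x hx y hy)
  exact ⟨SupB.cutoff_clm hA hA0 hv0 ha0 h0, HolB.cutoff_clm hA hA0 hA1 hv0 hv1 ha0 ha1 h0 h1⟩

variable {ζ : E → ℝ} {x₀ : E} {r ρ Cc α : ℝ} {I : Set ℝ} {S : Set E} {u ut : ℝ → E → ℝ}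

/-- all derivatives of a cutoff vanish outside the open ball. -/
theorem Cut.deriv_eq_zero (h : Cut ζ x₀ r ρ Cc) {x : E} (hx : x ∉ ball x₀ (r + ρ)) :
    fderiv ℝ ζ x = 0 ∧ fderiv ℝ (fderiv ℝ ζ) x = 0 := by
  rcases le_or_gt (r + ρ) 0 with hR | hR
  · have h0 : ζ = fun _ => 0 := by
      funext y
      exact h.eq_zero y (by rw [ball_eq_empty.mpr hR]; exact notMem_empty y)
    have h1 : fderiv ℝ ζ = fun _ => 0 := by
      rw [h0]; funext y; simp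
    rw [h1]
    simp
  · rw [mem_ball_iff_norm, not_lt] at hx
    set γ : ℝ → E := fun s => x₀ + s • (x - x₀) with hγ
    have hγc : Continuous γ := by fun_prop
    have hγ1 : γ 1 = x := by simp [hγ]
    have hout : ∀ s : ℝ, 1 < s → γ s ∉ closedBall x₀ (r + ρ) := by
      intro s hs
      rw [mem_closedBall_iff_norm, not_le]
      simp only [hγ, add_sub_cancel_left]
      rw [norm_smul, Real.norm_of_nonneg (by linarith)]
      nlinarith
    have aux : ∀ {G' : Type _} [NormedAddCommGroup G'] (g : E → G'), Continuous g →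
        (∀ y, y ∉ closedBall x₀ (r + ρ) → g y = 0) → g x = 0 := by
      intro G' _ g hg hg0
      have h1 : Tendsto (fun s => g (γ s)) (𝓝[>] 1) (𝓝 (g (γ 1))) :=
        ((hg.comp hγc).tendsto 1).mono_left nhdsWithin_le_nhds
      have h2 : Tendsto (fun s => g (γ s)) (𝓝[>] 1) (𝓝 0) := by
        refine tendsto_const_nhds.congr' ?_
        filter_upwards [self_mem_nhdsWithin] with s hs
        exact (hg0 _ (hout s hs)).symm
      rw [← hγ1]
      exact tendsto_nhds_unique h1 h2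
    exact ⟨aux _ h.smooth1.continuous (fun y hy => (h.fderiv_eq_zero (Or.inr hy)).1),
      aux _ h.smooth2.continuous (fun y hy => (h.fderiv_eq_zero (Or.inr hy)).2)⟩



theorem SupB.prodMk' {S' : Set E} {g₁ : E → F} {g₂ : E → G} {K : ℝ} (h₁ : SupB S' g₁ K)
    (h₂ : SupB S' g₂ K) : SupB S' (fun x => (g₁ x, g₂ x)) K :=
  fun x hx => max_le (h₁ x hx) (h₂ x hx)

theorem HolB.prodMk' {S' : Set E} {g₁ : E → F} {g₂ : E → G} {K : ℝ} (h₁ : HolB α S' g₁ K)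
    (h₂ : HolB α S' g₂ K) : HolB α S' (fun x => (g₁ x, g₂ x)) K :=
  fun x hx y hy => max_le (h₁ x hx y hy) (h₂ x hx y hy)

theorem cut_const_le (hCc : 1 ≤ Cc) (hρ : 0 < ρ) (hρ1 : ρ ≤ 1) {β : ℝ} (hβ : β ≤ 2 + α) :
    Cc / ρ ^ β ≤ Cc / ρ ^ (2 + α) :=
  div_le_div_of_nonneg_left (by linarith) (Real.rpow_pos_of_pos hρ _)
    (Real.rpow_le_rpow_of_exponent_ge hρ hρ1 hβ)

theorem commJ_eq_zero (hζ : Cut ζ x₀ r ρ Cc) {t : ℝ} {x : E} (hx : x ∉ ball x₀ (r + ρ)) :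
    commJ ζ u t x = 0 := by
  obtain ⟨h1, h2⟩ := hζ.deriv_eq_zero hx
  simp only [commJ, h1, h2, smul_zero, ContinuousLinearMap.smulRight_zero,
    ContinuousLinearMap.zero_smulRight, add_zero]
  rfl

/-- sharp form of the commutator bounds. -/
theorem commJ_bounds (hζ : Cut ζ x₀ r ρ Cc) (hCc : 1 ≤ Cc) (hρ : 0 < ρ) (hρ1 : ρ ≤ 1) (hα0 : 0 < α)
    (hα1 : α ≤ 1) {t : ℝ} (hu : ContDiffOn ℝ 2 (u t) (ball x₀ (r + ρ))) {N : ℝ}
    (hN : SupB (ball x₀ (r + ρ)) (jet u t) N) (hN0 : 0 ≤ N) :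
    SupB univ (commJ ζ u t) (3 * (Cc / ρ ^ (2 + α)) * N) ∧
      HolB α univ (commJ ζ u t) (15 * (Cc / ρ ^ (2 + α)) * N) := by
  set B := ball x₀ (r + ρ) with hB
  set Λ := Cc / ρ ^ (2 + α) with hΛ
  have hΛ0 : 0 ≤ Λ := div_nonneg (by linarith) (Real.rpow_nonneg hρ.le _)
  have hΛN : 0 ≤ Λ * N := mul_nonneg hΛ0 hN0
  have hopen : IsOpen B := isOpen_ball
  have hcv : Convex ℝ B := convex_ball _ _
  have hb0 : SupB B (u t) N := fun z hz => (norm_jet_le_iff.mp (hN z hz)).1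
  have hb1 : SupB B (fderiv ℝ (u t)) N := fun z hz => (norm_jet_le_iff.mp (hN z hz)).2.1
  have hb2 : SupB B (fderiv ℝ (fderiv ℝ (u t))) N := fun z hz => (norm_jet_le_iff.mp (hN z hz)).2.2
  have hd0 : DifferentiableOn ℝ (u t) B := hu.differentiableOn (by norm_num)
  have hd1 : DifferentiableOn ℝ (fderiv ℝ (u t)) B :=
    (hu.fderiv_of_isOpen hopen (m := 1) (by norm_num)).differentiableOn (by norm_num)
  have hh0 : HolB α B (u t) (3 * N) :=
    (HolB.of_lip hα0 hα1 hb0 (lip_of_fderiv hopen hcv hd0 hb1) hN0).mono (by linarith)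
  have hh1 : HolB α B (fderiv ℝ (u t)) (3 * N) :=
    (HolB.of_lip hα0 hα1 hb1 (lip_of_fderiv hopen hcv hd1 hb2) hN0).mono (by linarith)
  -- constants
  have ca : Cc / ρ ≤ Λ := by
    have := cut_const_le (α := α) hCc hρ hρ1 (β := 1) (by linarith)
    rwa [Real.rpow_one] at this
  have ca' : 2 * Cc / ρ ^ (1 + α) ≤ 2 * Λ := by
    have := cut_const_le (α := α) hCc hρ hρ1 (β := 1 + α) (by linarith)
    rw [mul_div_assoc]; linarith
  have cb : Cc / ρ ^ 2 ≤ Λ := by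
    have := cut_const_le (α := α) hCc hρ hρ1 (β := 2) (by linarith)
    rwa [Real.rpow_two] at this
  have cb' : 2 * Cc / ρ ^ (2 + α) ≤ 2 * Λ := by rw [mul_div_assoc]
  have z1 : ∀ x, x ∉ B → fderiv ℝ ζ x = 0 := fun x hx => (hζ.deriv_eq_zero hx).1
  have z2 : ∀ x, x ∉ B → fderiv ℝ (fderiv ℝ ζ) x = 0 := fun x hx => (hζ.deriv_eq_zero hx).2
  have s1 : SupB univ (fderiv ℝ ζ) Λ := fun x _ => (hζ.d1 x).trans ca
  have s2 : SupB univ (fderiv ℝ (fderiv ℝ ζ)) Λ := fun x _ => (hζ.d2 x).trans cb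
  have l1 : HolB α univ (fderiv ℝ ζ) (2 * Λ) := (hζ.hol1 hCc hρ hα0 hα1).mono ca'
  have l2 : HolB α univ (fderiv ℝ (fderiv ℝ ζ)) (2 * Λ) := (hζ.hol2 hCc hρ hα0 hα1).mono cb'
  have h2Λ : 0 ≤ 2 * Λ := by linarith
  have h3N : 0 ≤ 3 * N := by linarith
  have T1 := cutoff_bil ((ContinuousLinearMap.lsmul ℝ ℝ : ℝ →L[ℝ] (E →L[ℝ] ℝ) →L[ℝ] (E →L[ℝ] ℝ)).flip)
    (fun a b => by simp [norm_smul, mul_comm]) z1 s1 l1 hb0 hh0 hΛ0 h2Λ hN0 h3N
  have T2 := cutoff_bil (ContinuousLinearMap.smulRightL ℝ E (E →L[ℝ] ℝ))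
    (fun a b => by simp) z1 s1 l1 hb1 hh1 hΛ0 h2Λ hN0 h3N
  have T3 := cutoff_bil (ContinuousLinearMap.smulRightL ℝ E (E →L[ℝ] ℝ)).flip
    (fun a b => by simp [mul_comm]) z1 s1 l1 hb1 hh1 hΛ0 h2Λ hN0 h3N
  have T4 := cutoff_bil ((ContinuousLinearMap.lsmul ℝ ℝ : ℝ →L[ℝ] (Bil E) →L[ℝ] (Bil E)).flip)
    (fun a b => by simp [norm_smul, mul_comm]) z2 s2 l2 hb0 hh0 hΛ0 h2Λ hN0 h3N
  have e5 : Λ * (3 * N) + 2 * Λ * N = 5 * (Λ * N) := by ring
  rw [e5] at T1 T2 T3 T4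
  have hsup3 := (T2.1.add T3.1).add T4.1
  have hhol3 := (T2.2.add T3.2).add T4.2
  constructor
  · refine SupB.prodMk' (fun x _ => by simp; positivity) (SupB.prodMk' (T1.1.mono (by nlinarith)) ?_)
    exact hsup3.mono (le_of_eq (by ring))
  · refine HolB.prodMk' ((HolB.const (0 : ℝ)).mono (by positivity))
      (HolB.prodMk' (T1.2.mono (by nlinarith)) ?_)
    exact hhol3.mono (le_of_eq (by ring))

theorem ball_sub_of_closedBall_sub (hsub : closedBall x₀ (r + ρ) ⊆ S) : ball x₀ (r + ρ) ⊆ S :=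
  ball_subset_closedBall.trans hsub

theorem cover_closedBall (hsub : closedBall x₀ (r + ρ) ⊆ S) :
    ∀ x, x ∈ S ∨ x ∈ (closedBall x₀ (r + ρ))ᶜ := fun x => by
  by_cases hx : x ∈ closedBall x₀ (r + ρ)
  · exact Or.inl (hsub hx)
  · exact Or.inr hx

/-- the commutator jet is in `Y(univ)`, controlled by the jet of `u` on `ball x₀ (r+ρ)`. -/
theorem commJ_YB (hζ : Cut ζ x₀ r ρ Cc) (hCc : 1 ≤ Cc) (hρ : 0 < ρ) (hρ1 : ρ ≤ 1) (hα0 : 0 < α)
    (hα1 : α ≤ 1) (hS : IsOpen S) (hsub : closedBall x₀ (r + ρ) ⊆ S) (hu : C21 I S u ut) {N : ℝ}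
    (hN : ∀ t ∈ I, SupB (ball x₀ (r + ρ)) (jet u t) N) (hN0 : 0 ≤ N) :
    YB α I univ (commJ ζ u) (40 * Cc / ρ ^ (2 + α) * N) := by
  have hΛ0 : 0 ≤ Cc / ρ ^ (2 + α) := div_nonneg (by linarith) (Real.rpow_nonneg hρ.le _)
  have hΛN : 0 ≤ Cc / ρ ^ (2 + α) * N := mul_nonneg hΛ0 hN0
  have e : 40 * Cc / ρ ^ (2 + α) * N = 40 * (Cc / ρ ^ (2 + α) * N) := by ring
  rw [e]
  refine ⟨?_, fun t ht => ?_, fun t ht => ?_⟩
  · exact continuousOn_of_cover hS isClosed_closedBall.isOpen_compl (cover_closedBall hsub)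
      (commJ_continuousOn hζ.smooth hu) (continuousOn_zero_off fun q hq =>
        commJ_eq_zero hζ (fun h => hq (ball_subset_closedBall h)))
  · exact (commJ_bounds hζ hCc hρ hρ1 hα0 hα1 ((hu.c2 t ht).mono (ball_sub_of_closedBall_sub hsub))
      (hN t ht) hN0).1.mono (by nlinarith)
  · exact (commJ_bounds hζ hCc hρ hρ1 hα0 hα1 ((hu.c2 t ht).mono (ball_sub_of_closedBall_sub hsub))
      (hN t ht) hN0).2.mono (by nlinarith)

/-- `ζ f ∈ Y(univ)`. -/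
theorem YB.cutoff_mul (hζ : Cut ζ x₀ r ρ Cc) (hCc : 1 ≤ Cc) (hρ : 0 < ρ) (hα0 : 0 < α) (hα1 : α ≤ 1)
    (hS : IsOpen S) (hsub : closedBall x₀ (r + ρ) ⊆ S) {f : ℝ → E → F} {F0 : ℝ}
    (hf : YB α I S f F0) (hF0 : 0 ≤ F0) :
    YB α I univ (fun t x => ζ x • f t x) ((1 + 2 * Cc / ρ ^ α) * F0) := by
  have hZ : 0 ≤ 2 * Cc / ρ ^ α := div_nonneg (by linarith) (Real.rpow_nonneg hρ.le _)
  have hz : ∀ x, x ∉ S → ζ x = 0 := fun x hx =>
    hζ.eq_zero x (fun h => hx (ball_sub_of_closedBall_sub hsub h))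
  refine ⟨?_, fun t ht => ?_, fun t ht => ?_⟩
  · have c0 : ContinuousOn (fun q : ℝ × E => ζ q.2) (I ×ˢ S) :=
      (hζ.smooth.continuous.comp continuous_snd).continuousOn
    exact continuousOn_of_cover hS isClosed_closedBall.isOpen_compl (cover_closedBall hsub)
      (c0.smul hf.cont) (continuousOn_zero_off fun q hq => by
        rw [hζ.eq_zero q.2 (fun h => hq (ball_subset_closedBall h)), zero_smul])
  · exact (SupB.cutoff_smul hz hζ.sup0 (hf.sup t ht) hF0).mono (by nlinarith)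
  · exact (HolB.cutoff_smul hz hζ.sup0 (hζ.hol0 hCc hρ hα0 hα1) (hf.sup t ht) (hf.hol t ht) hF0 hF0
      hZ).mono (le_of_eq (by ring))

theorem jet_cutoff_all (hζ : Cut ζ x₀ r ρ Cc) (hS : IsOpen S) (hsub : closedBall x₀ (r + ρ) ⊆ S)
    {t : ℝ} (hu : ContDiffOn ℝ 2 (u t) S) (x : E) :
    jet (fun t x => ζ x * u t x) t x = ζ x • jet u t x + commJ ζ u t x := by
  by_cases hx : x ∈ S
  · exact jet_cutoff hζ.smooth hS hx hu
  · have hx1 : x ∉ closedBall x₀ (r + ρ) := fun h => hx (hsub h)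
    have hx2 : x ∉ ball x₀ (r + ρ) := fun h => hx1 (ball_subset_closedBall h)
    rw [jet_cutoff_eq_zero isClosed_closedBall
      (fun y hy => hζ.eq_zero y (fun h => hy (ball_subset_closedBall h))) hx1,
      hζ.eq_zero x hx2, commJ_eq_zero hζ hx2, zero_smul, add_zero]

/-- `ζ u ∈ X(univ)`. -/
theorem XB.cutoff_mul (hζ : Cut ζ x₀ r ρ Cc) (hCc : 1 ≤ Cc) (hρ : 0 < ρ) (hρ1 : ρ ≤ 1) (hα0 : 0 < α)
    (hα1 : α ≤ 1) (hS : IsOpen S) (hsub : closedBall x₀ (r + ρ) ⊆ S) (hu : C21 I S u ut) {K : ℝ}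
    (hK : XB α I (ball x₀ (r + ρ)) u ut K) (hK0 : 0 ≤ K) :
    XB α I univ (fun t x => ζ x * u t x) (fun t x => ζ x * ut t x) (40 * Cc / ρ ^ (2 + α) * K) := by
  set B := ball x₀ (r + ρ) with hB
  set Λ := Cc / ρ ^ (2 + α) with hΛ
  have hΛ0 : 0 ≤ Λ := div_nonneg (by linarith) (Real.rpow_nonneg hρ.le _)
  have hΛ1 : 1 ≤ Λ := by
    have := cut_const_le (α := α) hCc hρ hρ1 (β := 0) (by linarith)
    rw [Real.rpow_zero, div_one] at this
    linarith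
  have hΛK : 0 ≤ Λ * K := mul_nonneg hΛ0 hK0
  have hKΛ : K ≤ Λ * K := by nlinarith
  have e : 40 * Cc / ρ ^ (2 + α) * K = 40 * (Λ * K) := by rw [hΛ]; ring
  rw [e]
  have hBS : B ⊆ S := ball_sub_of_closedBall_sub hsub
  have huB : C21 I B u ut := hu.subset subset_rfl hBS
  have hz : ∀ x, x ∉ B → ζ x = 0 := hζ.eq_zero
  have cz : 2 * Cc / ρ ^ α ≤ 2 * Λ := by
    have := cut_const_le (α := α) hCc hρ hρ1 (β := α) (by linarith)
    rw [mul_div_assoc]; linarith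
  have hζh : HolB α univ ζ (2 * Λ) := (hζ.hol0 hCc hρ hα0 hα1).mono cz
  have hjs : ∀ t ∈ I, SupB univ (jet (fun t x => ζ x * u t x) t) (4 * (Λ * K)) := by
    intro t ht
    have h1 := SupB.cutoff_smul hz hζ.sup0 (hK.jet_sup t ht) hK0
    have h2 := (commJ_bounds hζ hCc hρ hρ1 hα0 hα1 (huB.c2 t ht) (hK.jet_sup t ht) hK0).1
    intro x hx
    rw [jet_cutoff_all hζ hS hsub (hu.c2 t ht) x]
    exact ((h1.add h2) x hx).trans (by nlinarith)
  have hjh : ∀ t ∈ I, HolB α univ (jet (fun t x => ζ x * u t x) t) (20 * (Λ * K)) := by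
    intro t ht
    have h1 := HolB.cutoff_smul hz hζ.sup0 hζh (hK.jet_sup t ht)
      (hK.jet_hol hα0 hα1 isOpen_ball (convex_ball _ _) huB t ht) (by linarith) hK0 (by linarith)
    have h2 := (commJ_bounds hζ hCc hρ hρ1 hα0 hα1 (huB.c2 t ht) (hK.jet_sup t ht) hK0).2
    intro x hx y hy
    rw [jet_cutoff_all hζ hS hsub (hu.c2 t ht) x, jet_cutoff_all hζ hS hsub (hu.c2 t ht) y]
    refine ((h1.add h2) x hx y hy).trans ?_
    refine mul_le_mul_of_nonneg_right ?_ (Real.rpow_nonneg (norm_nonneg _) _)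
    nlinarith
  refine ⟨fun t ht x hx => ?_, fun t ht x hx => ?_, fun t ht x hx => ?_, fun t ht => ?_,
    fun t ht x hx y hy => ?_, fun t ht => ?_⟩
  · exact ((norm_jet_le_iff.mp (hjs t ht x hx)).1).trans (by nlinarith)
  · exact ((norm_jet_le_iff.mp (hjs t ht x hx)).2.1).trans (by nlinarith)
  · exact ((norm_jet_le_iff.mp (hjs t ht x hx)).2.2).trans (by nlinarith)
  · exact (SupB.cutoff_smul (g := ut t) hz hζ.sup0 (hK.bt t ht) hK0).mono (by nlinarith)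
  · have h1 := hjh t ht x hx y hy
    have h2 : ‖D2 (fun t x => ζ x * u t x) t x - D2 (fun t x => ζ x * u t x) t y‖
        ≤ ‖jet (fun t x => ζ x * u t x) t x - jet (fun t x => ζ x * u t x) t y‖ :=
      (norm_snd_le (jet (fun t x => ζ x * u t x) t x - jet (fun t x => ζ x * u t x) t y).2).trans
        (norm_snd_le _)
    refine h2.trans (h1.trans ?_)
    refine mul_le_mul_of_nonneg_right ?_ (Real.rpow_nonneg (norm_nonneg _) _)
    nlinarith
  · exact (HolB.cutoff_smul (g := ut t) hz hζ.sup0 hζh (hK.bt t ht) (hK.ht t ht) hK0 hK0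
      (by linarith)).mono (by nlinarith)

/-- `ζ g ∈ C^{2+α}(univ)`. -/
theorem C2aB.cutoff_mul (hζ : Cut ζ x₀ r ρ Cc) (hCc : 1 ≤ Cc) (hρ : 0 < ρ) (hρ1 : ρ ≤ 1)
    (hα0 : 0 < α) (hα1 : α ≤ 1) (hS : IsOpen S) (hsub : closedBall x₀ (r + ρ) ⊆ S) {g : E → ℝ}
    {G0 : ℝ} (hg : ContDiffOn ℝ 2 g S) (hG : C2aB α (ball x₀ (r + ρ)) g G0) (hG0 : 0 ≤ G0) :
    C2aB α univ (fun x => ζ x * g x) (40 * Cc / ρ ^ (2 + α) * G0) := by
  have hu : C21 ({0} : Set ℝ) S (fun _ => g) (fun _ _ => 0) := C21.static hS hg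
  have hX := XB.cutoff_mul hζ hCc hρ hρ1 hα0 hα1 hS hsub hu (XB.static hG hG0) hG0
  have hC := hu.cutoff_extend hζ.smooth hS isClosed_closedBall hsub
    (fun y hy => hζ.eq_zero y (fun h => hy (ball_subset_closedBall h)))
  exact hX.slice hC (mem_singleton 0)

/-- on `ball x₀ r` the product `ζ u` has the same jet and time derivative as `u`. -/
theorem XB.of_cutoff (hζ : Cut ζ x₀ r ρ Cc) {K : ℝ}
    (hK : XB α I univ (fun t x => ζ x * u t x) (fun t x => ζ x * ut t x) K) :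
    XB α I (ball x₀ r) u ut K :=
  (hK.subset subset_rfl (subset_univ _)).congr isOpen_ball
    (fun t _ x hx => by rw [hζ.eq_one x (ball_subset_closedBall hx), one_mul])
    (fun t _ x hx => by rw [hζ.eq_one x (ball_subset_closedBall hx), one_mul])

end Claimed.Agent.R316.B8
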