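import Claimed.Agent.R316.Pack001

/-!
# B8-FORM: linear algebra of bilinear forms and of the leading coefficient

LEAF (proofs only).  `E` = finite dimensional real inner product space, `Bil E = E →L[ℝ] E →L[ℝ] ℝ`,
`sqB ξ = ξ ⊗ ξ` for a covector `ξ`, `trB B = ∑ B(e_i,e_i)` (`e = stdOrthonormalBasis ℝ E`).

Recipes.
* `exists_diag`: the operator `T` with `⟪T v, w⟫ = B v w` (`InnerProductSpace.toDual` / `LinearMap.toContinuousLinearMap`,
  or `(InnerProductSpace.toDual ℝ E).symm ∘ B`) is symmetric; take `LinearMap.IsSymmetric.eigenvectorBasis` and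
  `eigenvalues`; check the identity on pairs of basis vectors (`b.toBasis.ext`, or expand `v = ∑ ⟪b i, v⟫ b i`).
* `nonpos_of_nsd`: `μ i = B (b i) (b i) ≤ 0` and `𝔞 B = ∑ μ i * 𝔞 (sqB _)`.
* `exists_frame`: let `Q` be the symmetric operator `⟪Q v, w⟫ = (𝔞 (v♭ ⊗ w♭) + 𝔞 (w♭ ⊗ v♭)) / 2`, where
  `v♭ ⊗ w♭ = (innerSL ℝ v).smulRight (innerSL ℝ w)`; eigenbasis `b i`, eigenvalues `μ i = 𝔞 (sqB (b i)♭) ∈ [lam, M]`.
  Put `A e_i = √(μ i) • b i` (`e = stdOrthonormalBasis`, same index type `Fin (finrank ℝ E)`), i.e.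
  `A y = ∑ i, (√(μ i) * ⟪e i, y⟫) • b i`, inverse `A⁻¹ x = ∑ i, (⟪b i, x⟫ / √(μ i)) • e i`
  (`ContinuousLinearEquiv.equivOfInverse` / `LinearEquiv.toContinuousLinearEquiv`).
  For symmetric `B = ∑_{jk} B(b_j,b_k) b_j♭ ⊗ b_k♭`:  `𝔞 B = ∑_{jk} B(b_j,b_k) ⟪Q b_j, b_k⟫ = ∑_j μ_j B(b_j,b_j)`.
  `‖A y‖² = ∑ μ_i ⟪e i,y⟫²`.
* `norm_le_of_diag`: polarisation + parallelogram law; `ContinuousLinearMap.opNorm_le_bound₂`-style, reduce to
  `|B v w| ≤ q ‖v‖ ‖w‖` by scaling to unit vectors (or apply the inequality to `s v`, `w / s`).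
-/

set_option autoImplicit false
set_option maxSynthPendingDepth 3
set_option linter.unusedSectionVars false
set_option linter.unusedVariables false

open scoped Topology ContDiff RealInnerProductSpace
open Set Filter Metric Module

namespace Claimed.Agent.R316.B8

section Normed

variable {E : Type*} [NormedAddCommGroup E] [NormedSpace ℝ E]

theorem sqB_apply (ξ : E →L[ℝ] ℝ) (v w : E) : sqB ξ v w = ξ v * ξ w := by
  simp [sqB]

theorem sqB_symm (ξ : E →L[ℝ] ℝ) : IsSymmB (sqB ξ) := by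
  intro v w
  rw [sqB_apply, sqB_apply, mul_comm]

theorem norm_sqB_le (ξ : E →L[ℝ] ℝ) : ‖sqB ξ‖ ≤ ‖ξ‖ ^ 2 := by
  rw [sqB, ContinuousLinearMap.norm_smulRight_apply, sq]

/-- the Hessian is symmetric. -/
theorem D2_symm {S : Set E} (hS : IsOpen S) {u : ℝ → E → ℝ} {t : ℝ} {x : E} (hx : x ∈ S)
    (hu : ContDiffOn ℝ 2 (u t) S) : IsSymmB (D2 u t x) := by
  have h := (hu.contDiffAt (hS.mem_nhds hx)).isSymmSndFDerivAt (by simp)
  intro v w
  exact h v w

theorem polarB (B : Bil E) (hB : IsSymmB B) (v w : E) :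
    4 * B v w = B (v + w) (v + w) - B (v - w) (v - w) := by
  simp only [map_add, map_sub, _root_.add_apply, _root_.sub_apply]
  rw [hB w v]
  ring

theorem norm_le_of_unit (B : Bil E) {C : ℝ} (hC : 0 ≤ C)
    (h : ∀ v w, ‖v‖ = 1 → ‖w‖ = 1 → |B v w| ≤ C) : ‖B‖ ≤ C := by
  refine ContinuousLinearMap.opNorm_le_bound₂ _ hC fun v w => ?_
  by_cases hv : v = 0
  · simp [hv]
  by_cases hw : w = 0
  · simp [hw]
  have hv' : 0 < ‖v‖ := norm_pos_iff.mpr hv
  have hw' : 0 < ‖w‖ := norm_pos_iff.mpr hw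
  have h1 := h (‖v‖⁻¹ • v) (‖w‖⁻¹ • w) (norm_smul_inv_norm hv) (norm_smul_inv_norm hw)
  simp only [map_smul, _root_.smul_apply, smul_eq_mul] at h1
  rw [abs_mul, abs_mul, abs_of_pos (inv_pos.mpr hv'), abs_of_pos (inv_pos.mpr hw')] at h1
  rw [Real.norm_eq_abs]
  have h2 : |B v w| = ‖v‖ * ‖w‖ * (‖w‖⁻¹ * (‖v‖⁻¹ * |B v w|)) := by field_simp
  rw [h2]
  calc ‖v‖ * ‖w‖ * (‖w‖⁻¹ * (‖v‖⁻¹ * |B v w|)) ≤ ‖v‖ * ‖w‖ * C := by gcongr
    _ = C * ‖v‖ * ‖w‖ := by ring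

/-- polarisation in a normed space (constant 2). -/
theorem norm_le_of_diag' (B : Bil E) (hB : IsSymmB B) {q : ℝ} (hq0 : 0 ≤ q)
    (hq : ∀ v, |B v v| ≤ q * ‖v‖ ^ 2) : ‖B‖ ≤ 2 * q := by
  refine norm_le_of_unit B (by positivity) fun v w hv hw => ?_
  have h1 := polarB B hB v w
  have h2 := hq (v + w)
  have h3 := hq (v - w)
  have h4 : ‖v + w‖ ≤ 2 := (norm_add_le _ _).trans (by rw [hv, hw]; norm_num)
  have h5 : ‖v - w‖ ≤ 2 := (norm_sub_le _ _).trans (by rw [hv, hw]; norm_num)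
  have h6 : ‖v + w‖ ^ 2 ≤ 4 := by nlinarith [norm_nonneg (v + w)]
  have h7 : ‖v - w‖ ^ 2 ≤ 4 := by nlinarith [norm_nonneg (v - w)]
  have h8 : |B (v + w) (v + w)| ≤ q * 4 := h2.trans (by gcongr)
  have h9 : |B (v - w) (v - w)| ≤ q * 4 := h3.trans (by gcongr)
  rw [abs_le] at h8 h9 ⊢
  constructor <;> linarith [h8.1, h8.2, h9.1, h9.2]

end Normed

variable {E : Type*} [NormedAddCommGroup E] [InnerProductSpace ℝ E]

/-- the inner product as a bilinear form. -/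
noncomputable def innB : Bil E := innerSL ℝ

theorem innB_apply (v w : E) : (innB : Bil E) v w = ⟪v, w⟫ := innerSL_apply_apply ℝ v w

theorem norm_innB_le : ‖(innB : Bil E)‖ ≤ 1 := by
  refine ContinuousLinearMap.opNorm_le_bound₂ _ zero_le_one fun v w => ?_
  rw [innB_apply, one_mul]
  exact norm_inner_le_norm v w

/-- polarisation in an inner product space (constant 1). -/
theorem norm_le_of_diag (B : Bil E) (hB : IsSymmB B) {q : ℝ} (hq0 : 0 ≤ q)
    (hq : ∀ v, |B v v| ≤ q * ‖v‖ ^ 2) : ‖B‖ ≤ q := by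
  refine norm_le_of_unit B hq0 fun v w hv hw => ?_
  have h1 := polarB B hB v w
  have h2 := hq (v + w)
  have h3 := hq (v - w)
  have h4 := parallelogram_law_with_norm ℝ v w
  rw [hv, hw] at h4
  rw [abs_le] at h2 h3 ⊢
  constructor <;> nlinarith [h2.1, h2.2, h3.1, h3.2]

variable [FiniteDimensional ℝ E]

theorem trB_apply (B : Bil E) :
    trB B = ∑ i, B (stdOrthonormalBasis ℝ E i) (stdOrthonormalBasis ℝ E i) := by
  simp [trB]

/-- expansion of a bilinear form in an orthonormal basis. -/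
theorem bil_expand {ι : Type*} [Fintype ι] (b : OrthonormalBasis ι ℝ E) (B : Bil E) (v w : E) :
    B v w = ∑ j, ∑ k, ⟪b j, v⟫ * ⟪b k, w⟫ * B (b j) (b k) := by
  conv_lhs => rw [← b.sum_repr' v, ← b.sum_repr' w]
  simp only [map_sum, map_smul, _root_.sum_apply, _root_.smul_apply, smul_eq_mul,
    Finset.mul_sum]
  rw [Finset.sum_comm]
  refine Finset.sum_congr rfl fun j _ => Finset.sum_congr rfl fun k _ => ?_
  ring

/-- the trace does not depend on the orthonormal basis. -/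
theorem trB_eq_sum {ι : Type*} [Fintype ι] (b : OrthonormalBasis ι ℝ E) (B : Bil E) :
    trB B = ∑ i, B (b i) (b i) := by
  classical
  rw [trB_apply]
  set e := stdOrthonormalBasis ℝ E with he
  have h1 : ∀ i, B (e i) (e i) = ∑ j, ∑ k, ⟪b j, e i⟫ * ⟪b k, e i⟫ * B (b j) (b k) :=
    fun i => bil_expand b B _ _
  simp_rw [h1]
  rw [Finset.sum_comm]
  refine Finset.sum_congr rfl fun j _ => ?_
  rw [Finset.sum_comm]
  have h2 : ∀ k, ∑ i, ⟪b j, e i⟫ * ⟪b k, e i⟫ * B (b j) (b k) = ⟪b j, b k⟫ * B (b j) (b k) := by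
    intro k
    rw [← Finset.sum_mul, ← e.sum_inner_mul_inner (b j) (b k)]
    congr 1
    refine Finset.sum_congr rfl fun i _ => ?_
    rw [real_inner_comm (e i) (b k)]
  simp_rw [h2]
  rw [Finset.sum_eq_single j]
  · rw [real_inner_self_eq_norm_sq, b.norm_eq_one]; ring
  · intro k _ hk
    rw [b.inner_eq_zero (Ne.symm hk), zero_mul]
  · intro h; exact absurd (Finset.mem_univ j) h

theorem trB_sqB_inner (z : E) : trB (sqB (innerSL ℝ z)) = ‖z‖ ^ 2 := by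
  rw [trB_apply, ← real_inner_self_eq_norm_sq, ← (stdOrthonormalBasis ℝ E).sum_inner_mul_inner z z]
  refine Finset.sum_congr rfl fun i _ => ?_
  rw [sqB_apply, innerSL_apply_apply, real_inner_comm z]

theorem trB_sqB (ξ : E →L[ℝ] ℝ) : trB (sqB ξ) = ‖ξ‖ ^ 2 := by
  set z := (InnerProductSpace.toDual ℝ E).symm ξ with hz
  have h1 : innerSL ℝ z = ξ := by
    ext v
    rw [innerSL_apply_apply, hz, InnerProductSpace.toDual_symm_apply]
  have h2 : ‖z‖ = ‖ξ‖ := by rw [hz, LinearIsometryEquiv.norm_map]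
  rw [← h1, trB_sqB_inner, innerSL_apply_norm]

theorem trB_innB : trB (innB : Bil E) = finrank ℝ E := by
  rw [trB_apply]
  simp [innB_apply]

theorem norm_trB_le : ‖(trB : Bil E →L[ℝ] ℝ)‖ ≤ finrank ℝ E := by
  refine ContinuousLinearMap.opNorm_le_bound _ (by positivity) fun B => ?_
  rw [trB_apply]
  refine (norm_sum_le _ _).trans ?_
  have h1 : ∀ i ∈ (Finset.univ : Finset (Fin (finrank ℝ E))),
      ‖B (stdOrthonormalBasis ℝ E i) (stdOrthonormalBasis ℝ E i)‖ ≤ ‖B‖ := by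
    intro i _
    have := B.le_opNorm₂ (stdOrthonormalBasis ℝ E i) (stdOrthonormalBasis ℝ E i)
    simpa using this
  refine (Finset.sum_le_sum h1).trans ?_
  simp

theorem ofTop_apply (𝔞 : Bil E →L[ℝ] ℝ) (J : Jet E) : ofTop 𝔞 J = 𝔞 J.2.2 := rfl

theorem ofTop_topJ (𝔞 : Bil E →L[ℝ] ℝ) (B : Bil E) : ofTop 𝔞 (topJ B) = 𝔞 B := rfl

theorem norm_ofTop_le (𝔞 : Bil E →L[ℝ] ℝ) : ‖ofTop 𝔞‖ ≤ ‖𝔞‖ := by
  refine ContinuousLinearMap.opNorm_le_bound _ (norm_nonneg _) fun J => ?_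
  rw [ofTop_apply]
  refine (𝔞.le_opNorm _).trans (mul_le_mul_of_nonneg_left ?_ (norm_nonneg _))
  exact (norm_snd_le J.2).trans (norm_snd_le J)

theorem Lop_constOp (𝔞 : Bil E →L[ℝ] ℝ) (u ut : ℝ → E → ℝ) (t : ℝ) (x : E) :
    Lop (constOp 𝔞) u ut t x = ut t x - 𝔞 (D2 u t x) := rfl

/-- the leading part of a functional on jets. -/
noncomputable def topOf (p : Jet E →L[ℝ] ℝ) : Bil E →L[ℝ] ℝ :=
  p ∘L (ContinuousLinearMap.inr ℝ ℝ ((E →L[ℝ] ℝ) × Bil E)) ∘L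
    (ContinuousLinearMap.inr ℝ (E →L[ℝ] ℝ) (Bil E))

theorem topOf_apply (p : Jet E →L[ℝ] ℝ) (B : Bil E) : topOf p B = p (topJ B) := rfl

theorem norm_topOf_le (p : Jet E →L[ℝ] ℝ) : ‖topOf p‖ ≤ ‖p‖ := by
  refine ContinuousLinearMap.opNorm_le_bound _ (norm_nonneg _) fun B => ?_
  rw [topOf_apply]
  refine (p.le_opNorm _).trans (le_of_eq ?_)
  congr 1
  simp [topJ, Prod.norm_def]



/-- the operator representing a bilinear form. -/
noncomputable def opOfB (B : Bil E) : E →ₗ[ℝ] E :=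
  ∑ i, ((B.flip (stdOrthonormalBasis ℝ E i)).smulRight (stdOrthonormalBasis ℝ E i) : E →L[ℝ] E).toLinearMap

theorem opOfB_apply (B : Bil E) (v : E) :
    opOfB B v = ∑ i, B v (stdOrthonormalBasis ℝ E i) • stdOrthonormalBasis ℝ E i := by
  simp [opOfB]

theorem inner_opOfB (B : Bil E) (v w : E) : ⟪opOfB B v, w⟫ = B v w := by
  rw [opOfB_apply, sum_inner]
  conv_rhs => rw [← (stdOrthonormalBasis ℝ E).sum_repr' w]
  rw [map_sum]
  refine Finset.sum_congr rfl fun i _ => ?_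
  rw [real_inner_smul_left, map_smul, smul_eq_mul, mul_comm]

/-- diagonalisation of a symmetric bilinear form. -/
theorem exists_diag (B : Bil E) (hB : IsSymmB B) :
    ∃ (b : OrthonormalBasis (Fin (finrank ℝ E)) ℝ E) (μ : Fin (finrank ℝ E) → ℝ),
      B = ∑ i, μ i • sqB (innerSL ℝ (b i)) ∧ ∀ i, μ i = B (b i) (b i) := by
  have hT : (opOfB B).IsSymmetric := by
    intro v w
    rw [inner_opOfB, real_inner_comm, inner_opOfB, hB]
  set b := hT.eigenvectorBasis rfl with hb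
  set μ := hT.eigenvalues rfl with hμ
  have hTb : ∀ i, opOfB B (b i) = μ i • b i := fun i => hT.apply_eigenvectorBasis rfl i
  refine ⟨b, μ, ?_, fun i => ?_⟩
  · ext v w
    rw [← inner_opOfB, ← b.sum_repr' (opOfB B v), sum_inner]
    simp only [_root_.sum_apply, _root_.smul_apply, sqB_apply, innerSL_apply_apply, smul_eq_mul]
    refine Finset.sum_congr rfl fun i _ => ?_
    rw [real_inner_smul_left, ← hT (b i) v, hTb, real_inner_smul_left]
    ring
  · rw [← inner_opOfB, hTb, real_inner_smul_left, real_inner_self_eq_norm_sq, b.norm_eq_one]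
    ring

/-- a degenerate elliptic functional is `≤ 0` on negative semidefinite symmetric forms. -/
theorem nonpos_of_nsd (𝔞 : Bil E →L[ℝ] ℝ) (h𝔞 : ∀ ξ : E →L[ℝ] ℝ, 0 ≤ 𝔞 (sqB ξ)) (B : Bil E)
    (hB : IsSymmB B) (hneg : ∀ v, B v v ≤ 0) : 𝔞 B ≤ 0 := by
  obtain ⟨b, μ, h1, h2⟩ := exists_diag B hB
  rw [h1, map_sum]
  refine Finset.sum_nonpos fun i _ => ?_
  rw [map_smul, smul_eq_mul]
  exact mul_nonpos_of_nonpos_of_nonneg (by rw [h2]; exact hneg _) (h𝔞 _)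

/-- `v♭ ⊗ w♭`. -/
noncomputable def tensB (v w : E) : Bil E := (innerSL ℝ v).smulRight (innerSL ℝ w)

theorem tensB_apply (v w a b : E) : tensB v w a b = ⟪v, a⟫ * ⟪w, b⟫ := by
  simp [tensB]

/-- the bilinear form `(v,w) ↦ 𝔞 (v♭ ⊗ w♭)`. -/
noncomputable def formOf (𝔞 : Bil E →L[ℝ] ℝ) : Bil E :=
  ((ContinuousLinearMap.compL ℝ (E →L[ℝ] ℝ) (Bil E) ℝ 𝔞) ∘L
    (ContinuousLinearMap.smulRightL ℝ E (E →L[ℝ] ℝ))).bilinearComp (innerSL ℝ) (innerSL ℝ)

theorem formOf_apply (𝔞 : Bil E →L[ℝ] ℝ) (v w : E) : formOf 𝔞 v w = 𝔞 (tensB v w) := by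
  simp [formOf, tensB]

theorem bil_eq_sum_tens {ι : Type*} [Fintype ι] (b : OrthonormalBasis ι ℝ E) (B : Bil E) :
    B = ∑ j, ∑ k, B (b j) (b k) • tensB (b j) (b k) := by
  ext v w
  rw [bil_expand b B v w]
  simp only [_root_.sum_apply, _root_.smul_apply, tensB_apply, smul_eq_mul]
  refine Finset.sum_congr rfl fun j _ => Finset.sum_congr rfl fun k _ => ?_
  ring

/-- **frame lemma**: a uniformly elliptic constant coefficient leading part is the Laplacian in linear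
coordinates `x = A y`, with `√lam ‖y‖ ≤ ‖A y‖ ≤ √M ‖y‖`. -/
theorem exists_frame (𝔞 : Bil E →L[ℝ] ℝ) {lam M : ℝ} (hlam : 0 < lam)
    (hell : ∀ ξ : E →L[ℝ] ℝ, lam * ‖ξ‖ ^ 2 ≤ 𝔞 (sqB ξ)) (hM : ‖𝔞‖ ≤ M) :
    ∃ A : E ≃L[ℝ] E,
      (∀ B : Bil E, IsSymmB B → 𝔞 B = trB (B.bilinearComp (A : E →L[ℝ] E) (A : E →L[ℝ] E))) ∧
      (∀ y, ‖A y‖ ≤ Real.sqrt M * ‖y‖) ∧ (∀ y, Real.sqrt lam * ‖y‖ ≤ ‖A y‖) := by
  classical
  set Q : Bil E := (1 / 2 : ℝ) • (formOf 𝔞 + (formOf 𝔞).flip) with hQ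
  have hQa : ∀ v w, Q v w = (𝔞 (tensB v w) + 𝔞 (tensB w v)) / 2 := by
    intro v w
    simp only [hQ, _root_.smul_apply, _root_.add_apply, ContinuousLinearMap.flip_apply, formOf_apply,
      smul_eq_mul]
    ring
  have hQs : IsSymmB Q := by
    intro v w
    rw [hQa, hQa, add_comm]
  obtain ⟨b, μ, h1, h2⟩ := exists_diag Q hQs
  set e := stdOrthonormalBasis ℝ E with he
  have hμ : ∀ i, μ i = 𝔞 (sqB (innerSL ℝ (b i))) := by
    intro i
    rw [h2, hQa]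
    have : tensB (b i) (b i) = sqB (innerSL ℝ (b i)) := rfl
    rw [this]; ring
  have hμ1 : ∀ i, lam ≤ μ i := by
    intro i
    have := hell (innerSL ℝ (b i))
    rw [innerSL_apply_norm, b.norm_eq_one] at this
    rw [hμ]; linarith
  have hμ2 : ∀ i, μ i ≤ M := by
    intro i
    rw [hμ]
    have h3 := 𝔞.le_opNorm (sqB (innerSL ℝ (b i)))
    have h4 := norm_sqB_le (innerSL ℝ (b i))
    rw [innerSL_apply_norm, b.norm_eq_one] at h4
    have h5 : 𝔞 (sqB (innerSL ℝ (b i))) ≤ ‖𝔞 (sqB (innerSL ℝ (b i)))‖ := le_abs_self _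
    have h6 : ‖𝔞‖ * ‖sqB (innerSL ℝ (b i))‖ ≤ M * 1 :=
      mul_le_mul hM (by simpa using h4) (norm_nonneg _) ((norm_nonneg _).trans hM)
    linarith
  have hμ0 : ∀ i, 0 ≤ μ i := fun i => hlam.le.trans (hμ1 i)
  have hQb : ∀ j k, Q (b j) (b k) = if j = k then μ j else 0 := by
    intro j k
    conv_lhs => rw [h1]
    simp only [_root_.sum_apply, _root_.smul_apply, sqB_apply, innerSL_apply_apply, smul_eq_mul]
    rw [Finset.sum_eq_single j]
    · rw [real_inner_self_eq_norm_sq, b.norm_eq_one]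
      by_cases hjk : j = k
      · subst hjk
        rw [real_inner_self_eq_norm_sq, b.norm_eq_one]; simp
      · rw [b.inner_eq_zero hjk]; simp [hjk]
    · intro i _ hi
      rw [b.inner_eq_zero hi]; ring
    · intro h; exact absurd (Finset.mem_univ j) h
  -- the formula for `𝔞` on symmetric forms
  have h𝔞 : ∀ B : Bil E, IsSymmB B → 𝔞 B = ∑ j, μ j * B (b j) (b j) := by
    intro B hB
    have e1 : 𝔞 B = ∑ j, ∑ k, B (b j) (b k) * 𝔞 (tensB (b j) (b k)) := by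
      conv_lhs => rw [bil_eq_sum_tens b B]
      simp only [map_sum, map_smul, smul_eq_mul]
    have e2 : 𝔞 B = ∑ j, ∑ k, B (b j) (b k) * 𝔞 (tensB (b k) (b j)) := by
      rw [e1, Finset.sum_comm]
      refine Finset.sum_congr rfl fun j _ => Finset.sum_congr rfl fun k _ => ?_
      rw [hB]
    have e3 : 𝔞 B = ∑ j, ∑ k, B (b j) (b k) * Q (b j) (b k) := by
      have : 𝔞 B = ((∑ j, ∑ k, B (b j) (b k) * 𝔞 (tensB (b j) (b k)))
          + ∑ j, ∑ k, B (b j) (b k) * 𝔞 (tensB (b k) (b j))) / 2 := by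
        rw [← e1, ← e2]; ring
      rw [this]
      rw [← Finset.sum_add_distrib, Finset.sum_div]
      refine Finset.sum_congr rfl fun j _ => ?_
      rw [← Finset.sum_add_distrib, Finset.sum_div]
      refine Finset.sum_congr rfl fun k _ => ?_
      rw [hQa]; ring
    rw [e3]
    refine Finset.sum_congr rfl fun j _ => ?_
    simp only [hQb, mul_ite, mul_zero, Finset.sum_ite_eq, Finset.mem_univ, if_true]
    ring
  -- the map `A`
  set A₀ : E →ₗ[ℝ] E :=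
    ∑ i, ((Real.sqrt (μ i)) • ((innerSL ℝ (e i)).smulRight (b i) : E →L[ℝ] E)).toLinearMap with hA₀
  have hA₀a : ∀ y, A₀ y = ∑ i, (Real.sqrt (μ i) * ⟪e i, y⟫) • b i := by
    intro y
    simp [hA₀, smul_smul]
  have hA₀e : ∀ i, A₀ (e i) = Real.sqrt (μ i) • b i := by
    intro i
    rw [hA₀a, Finset.sum_eq_single i]
    · rw [real_inner_self_eq_norm_sq, e.norm_eq_one]; simp
    · intro k _ hk
      rw [e.inner_eq_zero hk]; simp
    · intro h; exact absurd (Finset.mem_univ i) h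
  have hnorm : ∀ y, ‖A₀ y‖ ^ 2 = ∑ i, μ i * ⟪e i, y⟫ ^ 2 := by
    intro y
    rw [← b.sum_sq_norm_inner_right (A₀ y)]
    refine Finset.sum_congr rfl fun i _ => ?_
    rw [hA₀a, b.orthonormal.inner_right_fintype, Real.norm_eq_abs, sq_abs, mul_pow,
      Real.sq_sqrt (hμ0 i)]
  have hny : ∀ y : E, ‖y‖ ^ 2 = ∑ i, ⟪e i, y⟫ ^ 2 := by
    intro y
    rw [← e.sum_sq_norm_inner_right y]
    refine Finset.sum_congr rfl fun i _ => ?_
    rw [Real.norm_eq_abs, sq_abs]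
  have hM0 : 0 ≤ M := (norm_nonneg _).trans hM
  have hup : ∀ y, ‖A₀ y‖ ≤ Real.sqrt M * ‖y‖ := by
    intro y
    refine abs_le_of_sq_le_sq' ?_ (by positivity) |>.2
    rw [mul_pow, Real.sq_sqrt hM0, hnorm, hny, Finset.mul_sum]
    exact Finset.sum_le_sum fun i _ => mul_le_mul_of_nonneg_right (hμ2 i) (sq_nonneg _)
  have hlow : ∀ y, Real.sqrt lam * ‖y‖ ≤ ‖A₀ y‖ := by
    intro y
    refine abs_le_of_sq_le_sq' ?_ (norm_nonneg _) |>.2
    rw [mul_pow, Real.sq_sqrt hlam.le, hnorm, hny, Finset.mul_sum]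
    exact Finset.sum_le_sum fun i _ => mul_le_mul_of_nonneg_right (hμ1 i) (sq_nonneg _)
  have hinj : Function.Injective A₀ := by
    rw [injective_iff_map_eq_zero]
    intro y hy
    have := hlow y
    rw [hy, norm_zero] at this
    have h3 : 0 < Real.sqrt lam := Real.sqrt_pos.mpr hlam
    have h4 : ‖y‖ ≤ 0 := by nlinarith [norm_nonneg y]
    exact norm_le_zero_iff.mp h4
  set A : E ≃L[ℝ] E := (LinearEquiv.ofInjectiveEndo A₀ hinj).toContinuousLinearEquiv with hA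
  have hAa : ∀ y, A y = A₀ y := fun y => rfl
  refine ⟨A, fun B hB => ?_, fun y => by rw [hAa]; exact hup y, fun y => by rw [hAa]; exact hlow y⟩
  rw [h𝔞 B hB, trB_apply]
  refine Finset.sum_congr rfl fun i _ => ?_
  simp only [ContinuousLinearMap.bilinearComp_apply, ContinuousLinearEquiv.coe_coe]
  rw [hAa, hA₀e]
  simp only [map_smul, _root_.smul_apply, smul_eq_mul]
  rw [← mul_assoc, Real.mul_self_sqrt (hμ0 i)]

/-- constant coefficient operators are admissible. -/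
theorem constOp_adm (𝔞 : Bil E →L[ℝ] ℝ) {α γ lam M : ℝ} (I : Set ℝ) (S : Set E)
    (hell : ∀ ξ : E →L[ℝ] ℝ, lam * ‖ξ‖ ^ 2 ≤ 𝔞 (sqB ξ)) (hM : ‖𝔞‖ ≤ M) :
    Adm (constOp 𝔞) α γ lam M I S := by
  have hM0 : 0 ≤ M := (norm_nonneg _).trans hM
  refine ⟨fun t _ x _ ξ => hell ξ, ⟨continuousOn_const, fun t _ x _ => (norm_ofTop_le 𝔞).trans hM,
    fun t _ x _ y _ => ?_⟩, fun t _ s _ x _ B => ?_⟩
  · simp only [constOp, sub_self, norm_zero]
    exact mul_nonneg hM0 (Real.rpow_nonneg (norm_nonneg _) _)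
  · simp only [constOp, sub_self, abs_zero]
    exact mul_nonneg (mul_nonneg hM0 (Real.rpow_nonneg (abs_nonneg _) _)) (norm_nonneg _)

theorem heatOp_adm {α γ : ℝ} (I : Set ℝ) (S : Set E) :
    Adm (heatOp : Op E) α γ 1 (finrank ℝ E) I S :=
  constOp_adm trB I S (fun ξ => by rw [trB_sqB, one_mul]) norm_trB_le

/-- the homotopy `(1-σ) heat + σ P` is admissible with uniform constants. -/
theorem homot_adm {P : Op E} {α γ lam M σ : ℝ} {I : Set ℝ} {S : Set E} (hM : 0 ≤ M)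
    (hP : Adm P α γ lam M I S) (hσ : σ ∈ Icc (0 : ℝ) 1) :
    Adm (homot P σ) α γ (min 1 lam) (M + finrank ℝ E) I S := by
  have hn : (0 : ℝ) ≤ finrank ℝ E := by positivity
  have h1σ : 0 ≤ 1 - σ := by linarith [hσ.2]
  have hσ0 := hσ.1
  have hσ1 := hσ.2
  refine ⟨fun t ht x hx ξ => ?_, ⟨?_, fun t ht x hx => ?_, fun t ht x hx y hy => ?_⟩,
    fun t ht s hs x hx B => ?_⟩
  · have h1 := hP.ell t ht x hx ξ
    simp only [homot, _root_.add_apply, _root_.smul_apply, ofTop_topJ, trB_sqB, smul_eq_mul]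
    have h2 : 0 ≤ ‖ξ‖ ^ 2 := by positivity
    have h3 : min 1 lam * ‖ξ‖ ^ 2 ≤ 1 * ‖ξ‖ ^ 2 := mul_le_mul_of_nonneg_right (min_le_left _ _) h2
    have h4 : min 1 lam * ‖ξ‖ ^ 2 ≤ lam * ‖ξ‖ ^ 2 := mul_le_mul_of_nonneg_right (min_le_right _ _) h2
    nlinarith
  · exact continuousOn_const.add (hP.coef.cont.const_smul σ)
  · simp only [homot]
    have h1 := hP.coef.sup t ht x hx
    have h2 := (norm_ofTop_le (trB : Bil E →L[ℝ] ℝ)).trans norm_trB_le
    calc ‖(1 - σ) • ofTop trB + σ • P t x‖ ≤ ‖(1 - σ) • ofTop (trB : Bil E →L[ℝ] ℝ)‖ + ‖σ • P t x‖ :=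
          norm_add_le _ _
      _ = (1 - σ) * ‖ofTop (trB : Bil E →L[ℝ] ℝ)‖ + σ * ‖P t x‖ := by
          rw [norm_smul, norm_smul, Real.norm_of_nonneg h1σ, Real.norm_of_nonneg hσ0]
      _ ≤ 1 * (finrank ℝ E : ℝ) + 1 * M := by
          gcongr
          · linarith
      _ = M + finrank ℝ E := by ring
  · simp only [homot]
    have h1 := hP.coef.hol t ht x hx y hy
    have hr : 0 ≤ ‖x - y‖ ^ α := Real.rpow_nonneg (norm_nonneg _) _
    have e : (1 - σ) • ofTop (trB : Bil E →L[ℝ] ℝ) + σ • P t x - ((1 - σ) • ofTop trB + σ • P t y)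
        = σ • (P t x - P t y) := by
      rw [smul_sub]; abel
    rw [e, norm_smul, Real.norm_of_nonneg hσ0]
    calc σ * ‖P t x - P t y‖ ≤ 1 * (M * ‖x - y‖ ^ α) := by gcongr
      _ ≤ (M + finrank ℝ E) * ‖x - y‖ ^ α := by nlinarith [mul_nonneg hn hr]
  · have h1 := hP.time t ht s hs x hx B
    simp only [homot, _root_.add_apply, _root_.smul_apply, smul_eq_mul]
    have e : (1 - σ) * ofTop trB (topJ B) + σ * P t x (topJ B)
        - ((1 - σ) * ofTop trB (topJ B) + σ * P s x (topJ B))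
        = σ * (P t x (topJ B) - P s x (topJ B)) := by ring
    rw [e, abs_mul, abs_of_nonneg hσ0]
    have hr : 0 ≤ |t - s| ^ γ * ‖B‖ := mul_nonneg (Real.rpow_nonneg (abs_nonneg _) _) (norm_nonneg _)
    calc σ * |P t x (topJ B) - P s x (topJ B)| ≤ 1 * (M * |t - s| ^ γ * ‖B‖) := by gcongr
      _ ≤ (M + finrank ℝ E) * |t - s| ^ γ * ‖B‖ := by nlinarith [mul_nonneg hn hr]

theorem homot_zero (P : Op E) : homot P 0 = heatOp := by
  funext t x
  simp [homot, heatOp, constOp]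

theorem homot_one (P : Op E) : homot P 1 = P := by
  funext t x
  simp [homot]

/-- `L_σ u - L_σ' u = (σ' - σ) (P - heat)(jet u)`. -/
theorem Lop_homot_sub (P : Op E) (σ σ' : ℝ) (u ut : ℝ → E → ℝ) (t : ℝ) (x : E) :
    Lop (homot P σ) u ut t x - Lop (homot P σ') u ut t x
      = (σ' - σ) * (P t x (jet u t x) - ofTop trB (jet u t x)) := by
  simp only [Lop, homot, _root_.add_apply, _root_.smul_apply, smul_eq_mul]
  ring

end Claimed.Agent.R316.B8
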