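import Claimed.Agent.R316.Pack001
import Claimed.Agent.R316.B8.Form

/-!
# B8-INTERP (export E5): interpolation inequalities and time regularity of `X`

LEAF (proofs only).

Recipes (`g` is `C²` on the open set `S ⊇ closedBall x ρ`; `e` a unit vector; `φ(s) = g(x + s e)`, `|s| ≤ ρ`).
* `interp1`: `φ(ρ) - φ(0) = ρ φ'(0) + ∫_0^ρ (φ'(s) - φ'(0)) ds`, `|φ'(s) - φ'(0)| ≤ B s` (mean value inequality for
  `fderiv ℝ g` on the convex set `ball x ρ'`/segment).  So `|Dg(x) e| ≤ 2A/ρ + Bρ/2`.  `ContinuousLinearMap.opNorm_le_bound`.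
* `interp2`: `φ(ρ) + φ(-ρ) - 2φ(0) = ρ² D²g(x)(e,e) + R`, `|R| ≤ H ρ^{2+α}`
  (e.g. `ψ(s) = φ(s) + φ(-s) - 2φ(0) - s² D²g(x)(e,e)`, `ψ(0) = 0`, `ψ'(s) = (Dg(x+se) - Dg(x-se))e - 2 s D²g(x)(e,e)`
  and `|ψ'(s)| ≤ 2 s H s^α` by the mean value inequality applied to `y ↦ Dg(y) e - D²g(x)(y - x, e)`).
  So `|D²g(x)(e,e)| ≤ 4A/ρ² + Hρ^α`; then `norm_le_of_diag'` (constant 2).  The stated constants are generous.
* `u_time`: mean value inequality on `[s,t] ⊆ Icc 0 T` (`Convex.norm_image_sub_le_of_norm_hasDerivWithin_le`).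
* `D2_time`: apply `interp2` to `g = u t - u s` with `A = K|t-s|`, `H = 2K`, `ρ = |t-s|^{1/(2+α)}`:
  `16 K |t-s| / ρ² + 8 K ρ^α = 24 K |t-s|^{α/(2+α)}` (case `t = s` separately).
* `D1_time`: `interp1` with `A = K|t-s|`, `B = 2K`, `ρ = |t-s|^{1/2}`.
* `interp_jet`: `N0 = U`; `ρ ≤ 1`: `‖D²‖ ≤ 16U/ρ² + 4Hρ^α`, `‖D‖ ≤ 2U/ρ + ρ‖D²‖_0 ≤ 18U/ρ² + 4Hρ^α`.
-/

set_option autoImplicit false
set_option maxSynthPendingDepth 3
set_option linter.unusedSectionVars false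
set_option linter.unusedVariables false

open scoped Topology ContDiff
open Set Filter Metric

namespace Claimed.Agent.R316.B8

variable {E : Type*} [NormedAddCommGroup E] [NormedSpace ℝ E]

theorem mem_closedBall_add_smul {x e : E} {ρ s : ℝ} (he : ‖e‖ = 1) (hs : |s| ≤ ρ) :
    x + s • e ∈ closedBall x ρ := by
  rw [mem_closedBall_iff_norm, add_sub_cancel_left, norm_smul, he, mul_one]
  exact hs

/-- I1: `|Dg(x)| ≤ 2A/ρ + ρB`. -/
theorem interp1 {S : Set E} {g : E → ℝ} {x : E} {ρ A B : ℝ} (hS : IsOpen S) (hg : ContDiffOn ℝ 2 g S)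
    (hρ : 0 < ρ) (hball : closedBall x ρ ⊆ S) (hA : SupB (closedBall x ρ) g A)
    (hB : SupB (closedBall x ρ) (fderiv ℝ (fderiv ℝ g)) B) :
    ‖fderiv ℝ g x‖ ≤ 2 * A / ρ + ρ * B := by
  have hxb : x ∈ closedBall x ρ := mem_closedBall_self hρ.le
  have hA0 : 0 ≤ A := (norm_nonneg _).trans (hA x hxb)
  have hB0 : 0 ≤ B := (norm_nonneg _).trans (hB x hxb)
  have hcv : Convex ℝ (closedBall x ρ) := convex_closedBall x ρ
  have h1 : ∀ z ∈ closedBall x ρ, ‖fderiv ℝ g z - fderiv ℝ g x‖ ≤ B * ρ := by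
    intro z hz
    have := hcv.norm_image_sub_le_of_norm_hasFDerivWithin_le (f := fderiv ℝ g)
      (fun y hy => (cd2_fderiv_differentiableAt hS (hball hy) hg).hasFDerivAt.hasFDerivWithinAt)
      hB hxb hz
    exact this.trans (mul_le_mul_of_nonneg_left (mem_closedBall_iff_norm.mp hz) hB0)
  refine ContinuousLinearMap.opNorm_le_of_unit_norm (by positivity) fun e he => ?_
  have hy : x + ρ • e ∈ closedBall x ρ := mem_closedBall_add_smul he (abs_of_pos hρ).le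
  have h2 := hcv.norm_image_sub_le_of_norm_hasFDerivWithin_le' (f := g) (φ := fderiv ℝ g x)
    (fun y hy => (cd2_differentiableAt hS (hball hy) hg).hasFDerivAt.hasFDerivWithinAt) h1 hxb hy
  rw [add_sub_cancel_left, map_smul, norm_smul, he, mul_one, Real.norm_of_nonneg hρ.le,
    smul_eq_mul] at h2
  have h3 := hA _ hy
  have h4 := hA _ hxb
  rw [Real.norm_eq_abs] at h2 h3 h4 ⊢
  have h5 : ρ * |fderiv ℝ g x e| ≤ 2 * A + B * ρ * ρ := by
    have e0 : ρ * |fderiv ℝ g x e| = |ρ * fderiv ℝ g x e| := by rw [abs_mul, abs_of_pos hρ]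
    rw [e0]
    rw [abs_le] at h2 h3 h4 ⊢
    constructor <;> linarith [h2.1, h2.2, h3.1, h3.2, h4.1, h4.2]
  have h6 : 2 * A / ρ + ρ * B = (2 * A + B * ρ * ρ) / ρ := by field_simp
  rw [h6, le_div_iff₀ hρ]
  linarith

/-- the second difference estimate on unit vectors. -/
theorem interp2_unit {S : Set E} {g : E → ℝ} {x : E} {α ρ A H : ℝ} (hα : 0 < α) (hS : IsOpen S)
    (hg : ContDiffOn ℝ 2 g S) (hρ : 0 < ρ) (hball : closedBall x ρ ⊆ S)
    (hA : SupB (closedBall x ρ) g A) (hH : HolB α (closedBall x ρ) (fderiv ℝ (fderiv ℝ g)) H)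
    (hH0 : 0 ≤ H) {e : E} (he : ‖e‖ = 1) :
    |fderiv ℝ (fderiv ℝ g) x e e| ≤ 4 * A / ρ ^ 2 + 2 * H * ρ ^ α := by
  have hxb : x ∈ closedBall x ρ := mem_closedBall_self hρ.le
  have hcv : Convex ℝ (closedBall x ρ) := convex_closedBall x ρ
  have hρα : 0 < ρ ^ α := Real.rpow_pos_of_pos hρ _
  set Q := fderiv ℝ (fderiv ℝ g) x with hQ
  set q := Q e e with hq
  have h0 : ∀ z ∈ closedBall x ρ, ‖fderiv ℝ (fderiv ℝ g) z - Q‖ ≤ H * ρ ^ α := by
    intro z hz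
    refine (hH z hz x hxb).trans (mul_le_mul_of_nonneg_left ?_ hH0)
    exact Real.rpow_le_rpow (norm_nonneg _) (mem_closedBall_iff_norm.mp hz) hα.le
  have h1 : ∀ z ∈ closedBall x ρ, ‖fderiv ℝ g z - fderiv ℝ g x - Q (z - x)‖ ≤ H * ρ ^ α * ρ := by
    intro z hz
    have := hcv.norm_image_sub_le_of_norm_hasFDerivWithin_le' (f := fderiv ℝ g) (φ := Q)
      (fun y hy => (cd2_fderiv_differentiableAt hS (hball hy) hg).hasFDerivAt.hasFDerivWithinAt)
      h0 hxb hz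
    exact this.trans (mul_le_mul_of_nonneg_left (mem_closedBall_iff_norm.mp hz) (by positivity))
  set ψ : ℝ → ℝ := fun s => g (x + s • e) + g (x + (-s) • e) - s ^ 2 * q with hψ
  set ψ' : ℝ → ℝ := fun s => fderiv ℝ g (x + s • e) e - fderiv ℝ g (x + (-s) • e) e - 2 * s * q
    with hψ'
  have hmem : ∀ s ∈ Icc 0 ρ, x + s • e ∈ closedBall x ρ ∧ x + (-s) • e ∈ closedBall x ρ := by
    intro s hs
    exact ⟨mem_closedBall_add_smul he (by rw [abs_of_nonneg hs.1]; exact hs.2),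
      mem_closedBall_add_smul he (by rw [abs_neg, abs_of_nonneg hs.1]; exact hs.2)⟩
  have hd : ∀ s ∈ Icc 0 ρ, HasDerivWithinAt ψ (ψ' s) (Icc 0 ρ) s := by
    intro s hs
    obtain ⟨m1, m2⟩ := hmem s hs
    have g1 : HasDerivAt (fun s : ℝ => x + s • e) e s := by
      have := ((hasDerivAt_id s).smul_const e).const_add x
      rw [one_smul] at this
      exact this
    have g2 : HasDerivAt (fun s : ℝ => x + (-s) • e) (-e) s := by
      have := (((hasDerivAt_id s).neg).smul_const e).const_add x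
      rw [neg_smul, one_smul] at this
      exact this
    have d1 := (cd2_differentiableAt hS (hball m1) hg).hasFDerivAt.comp_hasDerivAt s g1
    have d2 := (cd2_differentiableAt hS (hball m2) hg).hasFDerivAt.comp_hasDerivAt s g2
    have d3 : HasDerivAt (fun s : ℝ => s ^ 2 * q) (2 * s * q) s := by
      have := (hasDerivAt_pow 2 s).mul_const q
      simpa using this
    have := (d1.add d2).sub d3
    refine (this.congr_deriv ?_).hasDerivWithinAt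
    simp only [hψ', map_neg]; ring
  have hb : ∀ s ∈ Icc 0 ρ, ‖ψ' s‖ ≤ 2 * (H * ρ ^ α * ρ) := by
    intro s hs
    obtain ⟨m1, m2⟩ := hmem s hs
    have a1 := (ContinuousLinearMap.le_opNorm _ e).trans
      (mul_le_mul_of_nonneg_right (h1 _ m1) (norm_nonneg e))
    have a2 := (ContinuousLinearMap.le_opNorm _ e).trans
      (mul_le_mul_of_nonneg_right (h1 _ m2) (norm_nonneg e))
    rw [he, mul_one, add_sub_cancel_left] at a1 a2
    simp only [_root_.sub_apply, map_smul, _root_.smul_apply, smul_eq_mul, Real.norm_eq_abs] at a1 a2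
    rw [Real.norm_eq_abs]
    simp only [hψ']
    rw [abs_le] at a1 a2 ⊢
    constructor <;> linarith [a1.1, a1.2, a2.1, a2.2]
  have h2 := (convex_Icc 0 ρ).norm_image_sub_le_of_norm_hasDerivWithin_le hd hb
    (left_mem_Icc.mpr hρ.le) (right_mem_Icc.mpr hρ.le)
  rw [sub_zero, Real.norm_of_nonneg hρ.le, Real.norm_eq_abs] at h2
  simp only [hψ] at h2
  obtain ⟨m1, m2⟩ := hmem ρ (right_mem_Icc.mpr hρ.le)
  have b1 := hA _ m1
  have b2 := hA _ m2
  have b3 := hA _ hxb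
  simp only [neg_zero, zero_smul, add_zero] at h2
  rw [Real.norm_eq_abs] at b1 b2 b3
  have h5 : ρ ^ 2 * |q| ≤ 4 * A + 2 * (H * ρ ^ α * ρ) * ρ := by
    have e0 : ρ ^ 2 * |q| = |ρ ^ 2 * q| := by rw [abs_mul, abs_of_pos (by positivity : 0 < ρ ^ 2)]
    rw [e0]
    rw [abs_le] at h2 b1 b2 b3 ⊢
    constructor <;> nlinarith [h2.1, h2.2, b1.1, b1.2, b2.1, b2.2, b3.1, b3.2]
  have h6 : 4 * A / ρ ^ 2 + 2 * H * ρ ^ α = (4 * A + 2 * (H * ρ ^ α * ρ) * ρ) / ρ ^ 2 := by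
    field_simp
  rw [h6, le_div_iff₀ (by positivity)]
  linarith

/-- I2: `|D²g(x)| ≤ 16A/ρ² + 4Hρ^α`. -/
theorem interp2 {S : Set E} {g : E → ℝ} {x : E} {α ρ A H : ℝ} (hα : 0 < α) (hS : IsOpen S)
    (hg : ContDiffOn ℝ 2 g S) (hρ : 0 < ρ) (hball : closedBall x ρ ⊆ S)
    (hA : SupB (closedBall x ρ) g A) (hH : HolB α (closedBall x ρ) (fderiv ℝ (fderiv ℝ g)) H)
    (hH0 : 0 ≤ H) :
    ‖fderiv ℝ (fderiv ℝ g) x‖ ≤ 16 * A / ρ ^ 2 + 4 * H * ρ ^ α := by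
  have hxb : x ∈ closedBall x ρ := mem_closedBall_self hρ.le
  have hA0 : 0 ≤ A := (norm_nonneg _).trans (hA x hxb)
  have hρα : 0 < ρ ^ α := Real.rpow_pos_of_pos hρ _
  have hsym : IsSymmB (fderiv ℝ (fderiv ℝ g) x) :=
    D2_symm (u := fun _ => g) (t := 0) hS (hball hxb) hg
  have hq0 : 0 ≤ 4 * A / ρ ^ 2 + 2 * H * ρ ^ α := by positivity
  have h1 := norm_le_of_diag' _ hsym hq0 (fun v => by
    by_cases hv : v = 0
    · simp [hv]
    have hv' : 0 < ‖v‖ := norm_pos_iff.mpr hv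
    have h2 := interp2_unit hα hS hg hρ hball hA hH hH0 (e := ‖v‖⁻¹ • v) (norm_smul_inv_norm hv)
    simp only [map_smul, _root_.smul_apply, smul_eq_mul] at h2
    rw [abs_mul, abs_mul, abs_of_pos (inv_pos.mpr hv')] at h2
    have h3 : |fderiv ℝ (fderiv ℝ g) x v v|
        = ‖v‖ ^ 2 * (‖v‖⁻¹ * (‖v‖⁻¹ * |fderiv ℝ (fderiv ℝ g) x v v|)) := by field_simp
    rw [h3, mul_comm]
    exact mul_le_mul_of_nonneg_right h2 (by positivity))
  refine h1.trans ?_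
  have : 0 ≤ A / ρ ^ 2 := by positivity
  have e1 : 2 * (4 * A / ρ ^ 2 + 2 * H * ρ ^ α) = 8 * (A / ρ ^ 2) + 4 * H * ρ ^ α := by ring
  have e2 : 16 * A / ρ ^ 2 + 4 * H * ρ ^ α = 16 * (A / ρ ^ 2) + 4 * H * ρ ^ α := by ring
  rw [e1, e2]
  linarith

/-- local jet interpolation: from `ball x₀ (r+ρ)` to `ball x₀ r`. -/
theorem interp_jet_ball {g : E → ℝ} {x₀ : E} {α r ρ U H : ℝ} (hα : 0 < α)
    (hg : ContDiffOn ℝ 2 g (ball x₀ (r + 2 * ρ))) (hρ : 0 < ρ) (hρ1 : ρ ≤ 1)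
    (hU : SupB (ball x₀ (r + 2 * ρ)) g U)
    (hH : HolB α (ball x₀ (r + 2 * ρ)) (fderiv ℝ (fderiv ℝ g)) H) (hH0 : 0 ≤ H) :
    SupB (ball x₀ r) (jet (fun _ => g) 0) (18 * U / ρ ^ 2 + 4 * H * ρ ^ α) := by
  intro x hx
  have hρα : 0 < ρ ^ α := Real.rpow_pos_of_pos hρ _
  have hx' : dist x x₀ < r := hx
  have hsub1 : closedBall x ρ ⊆ ball x₀ (r + 2 * ρ) := by
    intro z hz
    have : dist z x ≤ ρ := hz
    rw [mem_ball]
    linarith [dist_triangle z x x₀]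
  have hsub2 : ∀ z ∈ closedBall x ρ, closedBall z ρ ⊆ ball x₀ (r + 2 * ρ) := by
    intro z hz y hy
    have h1 : dist z x ≤ ρ := hz
    have h2 : dist y z ≤ ρ := hy
    rw [mem_ball]
    linarith [dist_triangle y z x₀, dist_triangle z x x₀]
  have hxb : x ∈ closedBall x ρ := mem_closedBall_self hρ.le
  have hU0 : 0 ≤ U := (norm_nonneg _).trans (hU x (hsub1 hxb))
  have hN2 : SupB (closedBall x ρ) (fderiv ℝ (fderiv ℝ g)) (16 * U / ρ ^ 2 + 4 * H * ρ ^ α) :=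
    fun z hz => interp2 hα isOpen_ball hg hρ (hsub2 z hz) (hU.subset (hsub2 z hz))
      (hH.subset (hsub2 z hz)) hH0
  have hN1 := interp1 isOpen_ball hg hρ hsub1 (hU.subset hsub1) hN2
  have hq : 0 ≤ U / ρ ^ 2 := by positivity
  have hq1 : U ≤ U / ρ ^ 2 := by
    rw [le_div_iff₀ (by positivity)]
    have : ρ ^ 2 ≤ 1 := by nlinarith
    nlinarith
  have hq2 : U / ρ ≤ U / ρ ^ 2 := by
    rw [div_le_div_iff₀ hρ (by positivity)]
    nlinarith [mul_nonneg hU0 hρ.le]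
  have hHρ : 0 ≤ H * ρ ^ α := by positivity
  rw [norm_jet_le_iff]
  refine ⟨?_, ?_, ?_⟩
  · have := hU x (hsub1 hxb)
    rw [Real.norm_eq_abs] at this
    have e2 : 18 * U / ρ ^ 2 + 4 * H * ρ ^ α = 18 * (U / ρ ^ 2) + 4 * (H * ρ ^ α) := by ring
    rw [e2]; linarith
  · refine le_trans hN1 ?_
    have e1 : 2 * U / ρ + ρ * (16 * U / ρ ^ 2 + 4 * H * ρ ^ α)
        = 2 * (U / ρ) + ρ * (16 * (U / ρ ^ 2) + 4 * (H * ρ ^ α)) := by ring
    have e2 : 18 * U / ρ ^ 2 + 4 * H * ρ ^ α = 18 * (U / ρ ^ 2) + 4 * (H * ρ ^ α) := by ring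
    rw [e1, e2]
    nlinarith
  · refine le_trans (hN2 x hxb) ?_
    have e1 : 16 * U / ρ ^ 2 + 4 * H * ρ ^ α = 16 * (U / ρ ^ 2) + 4 * (H * ρ ^ α) := by ring
    have e2 : 18 * U / ρ ^ 2 + 4 * H * ρ ^ α = 18 * (U / ρ ^ 2) + 4 * (H * ρ ^ α) := by ring
    rw [e1, e2]; linarith

/-- global jet interpolation: `|u|_0 ≤ U`, `[D²u]_α ≤ H` imply `|jet u|_0 ≤ 18U/ρ² + 4Hρ^α`, `0 < ρ ≤ 1`. -/
theorem interp_jet {g : E → ℝ} {α ρ U H : ℝ} (hα : 0 < α) (hg : ContDiff ℝ 2 g) (hρ : 0 < ρ)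
    (hρ1 : ρ ≤ 1) (hU : SupB univ g U) (hH : HolB α univ (fderiv ℝ (fderiv ℝ g)) H) (hH0 : 0 ≤ H) :
    SupB univ (jet (fun _ => g) 0) (18 * U / ρ ^ 2 + 4 * H * ρ ^ α) := by
  intro x _
  exact interp_jet_ball (x₀ := x) (r := 1) hα hg.contDiffOn hρ hρ1 (hU.subset (subset_univ _))
    (hH.subset (subset_univ _)) hH0 x (mem_ball_self one_pos)



section Time

variable {T K α : ℝ} {u ut : ℝ → E → ℝ}

/-- `u` is `K`-Lipschitz in time. -/
theorem XB.u_time {S : Set E} (hu : C21 (Icc 0 T) S u ut) (hX : XB α (Icc 0 T) S u ut K) :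
    ∀ t ∈ Icc 0 T, ∀ s ∈ Icc 0 T, ∀ x ∈ S, |u t x - u s x| ≤ K * |t - s| := by
  intro t ht s hs x hx
  exact (convex_Icc 0 T).norm_image_sub_le_of_norm_hasDerivWithin_le (f := fun r => u r x)
    (fun r hr => hu.dt r hr x hx) (fun r hr => hX.bt r hr x hx) hs ht

/-- the difference of two time slices. -/
theorem slice_sub_facts {S : Set E} (hS : IsOpen S) (hu : C21 (Icc 0 T) S u ut)
    (hX : XB α (Icc 0 T) S u ut K) {t s : ℝ} (ht : t ∈ Icc 0 T) (hs : s ∈ Icc 0 T) :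
    ContDiffOn ℝ 2 (fun y => u t y - u s y) S ∧
    SupB S (fun y => u t y - u s y) (K * |t - s|) ∧
    (∀ x ∈ S, fderiv ℝ (fun y => u t y - u s y) x = D1 u t x - D1 u s x) ∧
    (∀ x ∈ S, fderiv ℝ (fderiv ℝ (fun y => u t y - u s y)) x = D2 u t x - D2 u s x) := by
  refine ⟨(hu.c2 t ht).sub (hu.c2 s hs), fun x hx => hX.u_time hu t ht s hs x hx, fun x hx => ?_,
    fun x hx => ?_⟩
  · have := D1_lin (u := fun _ => u t) (v := fun _ => u s) (t := 0) 1 (-1) hS hx (hu.c2 t ht)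
      (hu.c2 s hs)
    simp only [one_mul, neg_mul, one_smul, neg_smul, ← sub_eq_add_neg] at this
    exact this
  · have := D2_lin (u := fun _ => u t) (v := fun _ => u s) (t := 0) 1 (-1) hS hx (hu.c2 t ht)
      (hu.c2 s hs)
    simp only [one_mul, neg_mul, one_smul, neg_smul, ← sub_eq_add_neg] at this
    exact this

theorem rpow_time_aux {d : ℝ} (hα : 0 < α) (hd : 0 < d) :
    d / (d ^ (1 / (2 + α))) ^ 2 = d ^ (α / (2 + α)) ∧ (d ^ (1 / (2 + α))) ^ α = d ^ (α / (2 + α)) := by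
  have h2 : (0 : ℝ) < 2 + α := by linarith
  constructor
  · rw [← Real.rpow_natCast, ← Real.rpow_mul hd.le]
    nth_rewrite 1 [← Real.rpow_one d]
    rw [← Real.rpow_sub hd]
    congr 1
    push_cast
    field_simp
    ring
  · rw [← Real.rpow_mul hd.le]
    congr 1
    field_simp

/-- local version of I3 with an explicit radius condition. -/
theorem D2_time_core {S : Set E} (hS : IsOpen S) (hα : 0 < α) (hu : C21 (Icc 0 T) S u ut)
    (hX : XB α (Icc 0 T) S u ut K) {t s : ℝ} (ht : t ∈ Icc 0 T) (hs : s ∈ Icc 0 T) {x : E}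
    (hts : t ≠ s) (hball : closedBall x (|t - s| ^ (1 / (2 + α))) ⊆ S) :
    ‖D2 u t x - D2 u s x‖ ≤ 24 * K * |t - s| ^ (α / (2 + α)) := by
  set d := |t - s| with hd
  have hd0 : 0 < d := abs_pos.mpr (sub_ne_zero.mpr hts)
  set ρ := d ^ (1 / (2 + α)) with hρ
  have hρ0 : 0 < ρ := Real.rpow_pos_of_pos hd0 _
  have hxS : x ∈ S := hball (mem_closedBall_self hρ0.le)
  have hK : 0 ≤ K := (norm_nonneg _).trans (hX.b0 t ht x hxS)
  obtain ⟨f1, f2, f3, f4⟩ := slice_sub_facts hS hu hX ht hs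
  have hH : HolB α (closedBall x ρ) (fderiv ℝ (fderiv ℝ (fun y => u t y - u s y))) (K + K) := by
    intro y hy z hz
    rw [f4 y (hball hy), f4 z (hball hz)]
    exact ((hX.h2 t ht).sub (hX.h2 s hs)) y (hball hy) z (hball hz)
  have h := interp2 hα hS f1 hρ0 hball (f2.subset hball) hH (by linarith)
  rw [f4 x hxS] at h
  obtain ⟨e1, e2⟩ := rpow_time_aux hα hd0
  refine h.trans (le_of_eq ?_)
  rw [e2]
  have : 16 * (K * d) / ρ ^ 2 = 16 * K * (d / ρ ^ 2) := by ring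
  rw [this, e1]
  ring

/-- I3: `D²u` is `α/(2+α)`-Hölder in time. -/
theorem XB.D2_time (hα : 0 < α) (hu : C21 (Icc 0 T) univ u ut) (hX : XB α (Icc 0 T) univ u ut K) :
    ∀ t ∈ Icc 0 T, ∀ s ∈ Icc 0 T, ∀ x, ‖D2 u t x - D2 u s x‖ ≤ 24 * K * |t - s| ^ (α / (2 + α)) := by
  intro t ht s hs x
  have hK : 0 ≤ K := (norm_nonneg _).trans (hX.b0 t ht x (mem_univ _))
  by_cases hts : t = s
  · rw [hts, sub_self, norm_zero]
    exact mul_nonneg (by linarith) (Real.rpow_nonneg (abs_nonneg _) _)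
  · exact D2_time_core isOpen_univ hα hu hX ht hs hts (subset_univ _)

/-- `Du` is `1/2`-Hölder in time. -/
theorem XB.D1_time (hu : C21 (Icc 0 T) univ u ut) (hX : XB α (Icc 0 T) univ u ut K) :
    ∀ t ∈ Icc 0 T, ∀ s ∈ Icc 0 T, ∀ x, ‖D1 u t x - D1 u s x‖ ≤ 4 * K * |t - s| ^ (1 / 2 : ℝ) := by
  intro t ht s hs x
  have hK : 0 ≤ K := (norm_nonneg _).trans (hX.b0 t ht x (mem_univ _))
  by_cases hts : t = s
  · rw [hts, sub_self, norm_zero]
    exact mul_nonneg (by linarith) (Real.rpow_nonneg (abs_nonneg _) _)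
  set d := |t - s| with hd
  have hd0 : 0 < d := abs_pos.mpr (sub_ne_zero.mpr hts)
  set ρ := d ^ (1 / 2 : ℝ) with hρ
  have hρ0 : 0 < ρ := Real.rpow_pos_of_pos hd0 _
  obtain ⟨f1, f2, f3, f4⟩ := slice_sub_facts isOpen_univ hu hX ht hs
  have hB : SupB (closedBall x ρ) (fderiv ℝ (fderiv ℝ (fun y => u t y - u s y))) (K + K) := by
    intro y hy
    rw [f4 y (mem_univ _)]
    exact ((hX.b2 t ht).sub (hX.b2 s hs)) y (mem_univ _)
  have h := interp1 isOpen_univ f1 hρ0 (subset_univ _) (f2.subset (subset_univ _)) hB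
  rw [f3 x (mem_univ _)] at h
  refine h.trans (le_of_eq ?_)
  have e1 : d / ρ = ρ := by
    rw [div_eq_iff hρ0.ne', hρ, ← Real.rpow_add hd0]
    norm_num
  have : 2 * (K * d) / ρ = 2 * K * (d / ρ) := by ring
  rw [this, e1]
  ring

theorem rpow_le_Tm {d Tm θ β : ℝ} (hd0 : 0 ≤ d) (hd : d ≤ Tm) (hTm : 1 ≤ Tm) (hθ : 0 < θ) (hθβ : θ ≤ β)
    (hβ : β ≤ 1) : d ^ β ≤ Tm * d ^ θ := by
  rcases eq_or_lt_of_le hd0 with h | h
  · rw [← h, Real.zero_rpow (by linarith), Real.zero_rpow hθ.ne']; simp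
  · have e : d ^ β = d ^ (β - θ) * d ^ θ := by
      rw [← Real.rpow_add h]; congr 1; ring
    rw [e]
    refine mul_le_mul_of_nonneg_right ?_ (Real.rpow_nonneg hd0 _)
    calc d ^ (β - θ) ≤ Tm ^ (β - θ) := Real.rpow_le_rpow hd0 hd (by linarith)
      _ ≤ Tm ^ (1 : ℝ) := Real.rpow_le_rpow_of_exponent_le hTm (by linarith)
      _ = Tm := Real.rpow_one _

/-- the whole jet is `α/(2+α)`-Hölder in time on a bounded time interval `T ≤ Tm`. -/
theorem XB.jet_time {Tm : ℝ} (hα : 0 < α) (hα1 : α ≤ 1) (hT : T ≤ Tm) (hTm : 1 ≤ Tm)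
    (hu : C21 (Icc 0 T) univ u ut) (hX : XB α (Icc 0 T) univ u ut K) :
    ∀ t ∈ Icc 0 T, ∀ s ∈ Icc 0 T, ∀ x,
      ‖jet u t x - jet u s x‖ ≤ 24 * Tm * K * |t - s| ^ (α / (2 + α)) := by
  intro t ht s hs x
  have hK : 0 ≤ K := (norm_nonneg _).trans (hX.b0 t ht x (mem_univ _))
  set d := |t - s| with hd
  have hd0 : 0 ≤ d := abs_nonneg _
  have hdT : d ≤ Tm := by
    refine le_trans ?_ hT
    rw [hd, abs_le]
    constructor <;> linarith [ht.1, ht.2, hs.1, hs.2]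
  set θ := α / (2 + α) with hθ
  have h2 : (0 : ℝ) < 2 + α := by linarith
  have hθ0 : 0 < θ := by positivity
  have hθ1 : θ ≤ 1 / 2 := by
    rw [hθ, div_le_div_iff₀ h2 (by norm_num)]; linarith
  have hr : 0 ≤ d ^ θ := Real.rpow_nonneg hd0 _
  have a0 := hX.u_time hu t ht s hs x (mem_univ _)
  have a1 := hX.D1_time hu t ht s hs x
  have a2 := hX.D2_time hα hu t ht s hs x
  have b0 : d ≤ Tm * d ^ θ := by
    have := rpow_le_Tm hd0 hdT hTm hθ0 (by linarith : θ ≤ 1) le_rfl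
    rwa [Real.rpow_one] at this
  have b1 : d ^ (1 / 2 : ℝ) ≤ Tm * d ^ θ := rpow_le_Tm hd0 hdT hTm hθ0 hθ1 (by norm_num)
  have hTd : 0 ≤ Tm * d ^ θ := by positivity
  have e : jet u t x - jet u s x = (u t x - u s x, D1 u t x - D1 u s x, D2 u t x - D2 u s x) := rfl
  rw [e, Prod.norm_def, Prod.norm_def]
  refine max_le ?_ (max_le ?_ ?_)
  · rw [Real.norm_eq_abs]
    calc |u t x - u s x| ≤ K * d := a0
      _ ≤ K * (Tm * d ^ θ) := by gcongr
      _ ≤ 24 * Tm * K * d ^ θ := by nlinarith [mul_nonneg hK hTd]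
  · calc ‖D1 u t x - D1 u s x‖ ≤ 4 * K * d ^ (1 / 2 : ℝ) := a1
      _ ≤ 4 * K * (Tm * d ^ θ) := by gcongr
      _ ≤ 24 * Tm * K * d ^ θ := by nlinarith [mul_nonneg hK hTd]
  · calc ‖D2 u t x - D2 u s x‖ ≤ 24 * K * d ^ θ := a2
      _ ≤ 24 * Tm * K * d ^ θ := by nlinarith [mul_nonneg hK hr]

/-- local version of I3: from `ball x₀ (r+δ)` to `ball x₀ r`. -/
theorem XB.D2_time_ball {x₀ : E} {r δ : ℝ} (hα : 0 < α) (hδ : 0 < δ)
    (hu : C21 (Icc 0 T) (ball x₀ (r + δ)) u ut) (hX : XB α (Icc 0 T) (ball x₀ (r + δ)) u ut K) :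
    ∀ t ∈ Icc 0 T, ∀ s ∈ Icc 0 T, ∀ x ∈ ball x₀ r,
      ‖D2 u t x - D2 u s x‖ ≤ (24 + 2 * (2 / δ) ^ α) * K * |t - s| ^ (α / (2 + α)) := by
  intro t ht s hs x hx
  have hx' : dist x x₀ < r := hx
  have hxS : x ∈ ball x₀ (r + δ) := by rw [mem_ball]; linarith
  have hK : 0 ≤ K := (norm_nonneg _).trans (hX.b0 t ht x hxS)
  have hδα : 0 ≤ (2 / δ) ^ α := Real.rpow_nonneg (by positivity) _
  by_cases hts : t = s
  · rw [hts, sub_self, norm_zero]
    exact mul_nonneg (by positivity) (Real.rpow_nonneg (abs_nonneg _) _)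
  set d := |t - s| with hd
  have hd0 : 0 < d := abs_pos.mpr (sub_ne_zero.mpr hts)
  set ρ := d ^ (1 / (2 + α)) with hρ
  have hρ0 : 0 < ρ := Real.rpow_pos_of_pos hd0 _
  have hr : 0 ≤ d ^ (α / (2 + α)) := Real.rpow_nonneg hd0.le _
  rcases le_or_gt ρ (δ / 2) with h | h
  · have hball : closedBall x ρ ⊆ ball x₀ (r + δ) := by
      intro z hz
      have : dist z x ≤ ρ := hz
      rw [mem_ball]
      linarith [dist_triangle z x x₀]
    refine (D2_time_core isOpen_ball hα hu hX ht hs hts hball).trans ?_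
    nlinarith [mul_nonneg (mul_nonneg hδα hK) hr]
  · obtain ⟨_, e2⟩ := rpow_time_aux hα hd0
    have h1 : 1 ≤ (2 / δ) ^ α * d ^ (α / (2 + α)) := by
      rw [← e2, ← Real.mul_rpow (by positivity) hρ0.le]
      refine Real.one_le_rpow ?_ hα.le
      rw [div_mul_eq_mul_div, le_div_iff₀ hδ]
      linarith
    calc ‖D2 u t x - D2 u s x‖ ≤ ‖D2 u t x‖ + ‖D2 u s x‖ := norm_sub_le _ _
      _ ≤ 2 * K := by linarith [hX.b2 t ht x hxS, hX.b2 s hs x hxS]
      _ ≤ 2 * K * ((2 / δ) ^ α * d ^ (α / (2 + α))) := by nlinarith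
      _ ≤ (24 + 2 * (2 / δ) ^ α) * K * d ^ (α / (2 + α)) := by nlinarith [mul_nonneg hK hr]

end Time

end Claimed.Agent.R316.B8
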