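import Claimed.Agent.R316.Pack002
import Claimed.Agent.R316.B8.Interp
import Claimed.Agent.R316.B8.CutProd

/-!
# B8-PERTURB-A (THIS FILE: part (a) `frozen_rhs`): Schauder a priori estimate on a short time interval (freezing the coefficients)

THREE LEAVES (one theorem each; each may use the previous ones and all imported files sorried).
Setting: `I = Icc 0 τ`, `τ ≤ 1`, `P` admissible on `I × univ` (`Adm P α γ lam M I univ`), `u` is `C21`, `u(0) = 0`, `f = Lop P u ut ∈ Y`, `|f|_Y ≤ F0`.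
`N` bounds `|jet u|`, `H` bounds `[D²u(t)]_α`.

**(a) `frozen_rhs`.**  `ζ` cutoff with `Cut ζ x₀ r r Cc` (`= 1` on `closedBall x₀ r`, `0` outside `ball x₀ (2r)`), `𝔞₀ = topOf (P 0 x₀)`, `v = ζ u`.
By `Lop_cutoff` (for the operator `constOp 𝔞₀`) and `Lop_constOp`, pointwise
`Lop (constOp 𝔞₀) v vt = ζ f + ζ g₂ + ζ g₃ - 𝔞₀ ((commJ ζ u).2.2)` where
`g₂ = P t x (topJ (D²u)) - P 0 x₀ (topJ (D²u))`, `g₃ = P t x (u, Du, 0)`   (`jet u = (u,Du,0) + topJ (D²u)`).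
 * on `S' = ball x₀ (2r)`: `|(P t x - P 0 x₀)(topJ B)| ≤ (M ‖x-x₀‖^α + M t^γ) ‖B‖ ≤ θ₁ ‖B‖`, `θ₁ = M (2r)^α + M τ^γ` (`Adm.coef.hol`, `Adm.time`, `norm_topJ`);
   so `|g₂| ≤ θ₁ N`, `[g₂]_{α;S'} ≤ M N + θ₁ H`; `HolB.cutoff_smul` with `Z = 2Cc/r^α` gives `[ζ g₂]_α ≤ θ₁ H + (M + Z θ₁) N`.
 * `|g₃| ≤ M N`, `[g₃]_α ≤ M N + M 3N`; `[ζ g₃]_α ≤ (4 + Z) M N`.
 * `ζ f`: `YB.cutoff_mul`.   * commutator: `commJ_YB` if `r ≤ 1` (in general redo the count), times `‖𝔞₀‖ ≤ M` (`norm_topOf_le`).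
 * continuity: the left side is `Lop` of a `C21` function for a constant operator.
**(b) `short_step`.**  `C₀` from `const_apriori` (`Tm = 1`), `Cc` from `exists_cutoff`.  Choose `r ≤ 1` with `C₀ M (2r)^α ≤ 1/8`, `τ₀ ≤ 1` with `C₀ M τ₀^γ ≤ 1/8`,
`B` from (a).  `const_apriori` for `v = ζ u` (finite `XB` by `XB.cutoff_mul`, `C21.cutoff_mul`) + `XB.of_cutoff`:
`[D²u(t)]_{α; ball x₀ r} ≤ C₀ (A F0 + θ₁ H + B N)`, `A = 1 + 2Cc/r^α`; `HolB.of_balls`: `[D²u(t)]_α ≤ C₀ (A F0 + θ₁ H + B N) + 2N/r^α`.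
`N := 18 U/ρ² + 4 H ρ^α` (`interp_jet`), `U = exp M * F0` (`strip_sup_bound`, `K0 = 0`, `t ≤ 1`).  Choose `ρ ≤ 1` with `(C₀ B + 2/r^α) 4 ρ^α ≤ 1/4`.
**(c) `short_apriori`.**  `absorb` with `Q H = (0 ≤ H ∧ ∀ t ∈ I, HolB α univ (D2 u t) H)`, `θ = 1/2` (start: `H = K`): `[D²u]_α ≤ 2 C F0 =: H*`.
Then `N ≤ 18 exp M F0 + 4 H*` (`ρ = 1`), `u_t = f + P (jet u)`: `|u_t| ≤ F0 + M N`, `[u_t]_α ≤ F0 + M (3N + H*) + M N`.
-/

set_option autoImplicit false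
set_option maxSynthPendingDepth 3
set_option linter.unusedSectionVars false
set_option linter.unusedVariables false

open scoped Topology ContDiff
open Set Filter Metric Module

namespace Claimed.Agent.R316.B8

variable {E : Type*} [NormedAddCommGroup E] [InnerProductSpace ℝ E] [FiniteDimensional ℝ E]

/-- Hölder bounds of `u`, `Du` from a bound of the jet. -/
theorem low_hol {α : ℝ} (hα0 : 0 < α) (hα1 : α ≤ 1) {S : Set E} (hS : IsOpen S) (hc : Convex ℝ S)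
    {u : ℝ → E → ℝ} {t N : ℝ} (hu : ContDiffOn ℝ 2 (u t) S) (hN : SupB S (jet u t) N) (hN0 : 0 ≤ N) :
    HolB α S (u t) (3 * N) ∧ HolB α S (D1 u t) (3 * N) := by
  have hb0 : SupB S (u t) N := fun z hz => (norm_jet_le_iff.mp (hN z hz)).1
  have hb1 : SupB S (fderiv ℝ (u t)) N := fun z hz => (norm_jet_le_iff.mp (hN z hz)).2.1
  have hb2 : SupB S (fderiv ℝ (fderiv ℝ (u t))) N := fun z hz => (norm_jet_le_iff.mp (hN z hz)).2.2
  have hd0 : DifferentiableOn ℝ (u t) S := hu.differentiableOn (by norm_num)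
  have hd1 : DifferentiableOn ℝ (fderiv ℝ (u t)) S :=
    (hu.fderiv_of_isOpen hS (m := 1) (by norm_num)).differentiableOn (by norm_num)
  exact ⟨(HolB.of_lip hα0 hα1 hb0 (lip_of_fderiv hS hc hd0 hb1) hN0).mono (by linarith),
    (HolB.of_lip hα0 hα1 hb1 (lip_of_fderiv hS hc hd1 hb2) hN0).mono (by linarith)⟩

/-- (a) the right hand side of the frozen equation for `ζ u`. -/
theorem frozen_rhs {α γ M r Cc : ℝ} (hα0 : 0 < α) (hα1 : α < 1) (hγ : 0 < γ) (hM : 0 ≤ M)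
    (hr : 0 < r) (hr1 : r ≤ 1) (hCc : 1 ≤ Cc) :
    ∃ B : ℝ, 0 ≤ B ∧ ∀ (τ : ℝ) (P : Op E) (x₀ : E) (ζ : E → ℝ) (u ut : ℝ → E → ℝ) (lam N H F0 : ℝ),
      0 < τ → τ ≤ 1 → Adm P α γ lam M (Icc 0 τ) univ → Cut ζ x₀ r r Cc → C21 (Icc 0 τ) univ u ut →
      (∀ t ∈ Icc 0 τ, SupB univ (jet u t) N) → 0 ≤ H → (∀ t ∈ Icc 0 τ, HolB α univ (D2 u t) H) →
      YB α (Icc 0 τ) univ (Lop P u ut) F0 →
      YB α (Icc 0 τ) univ
        (Lop (constOp (topOf (P 0 x₀))) (fun t x => ζ x * u t x) (fun t x => ζ x * ut t x))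
        ((1 + 2 * Cc / r ^ α) * F0 + (M * (2 * r) ^ α + M * τ ^ γ) * H + B * N) := by
  set Z : ℝ := 2 * Cc / r ^ α with hZ
  set Λ : ℝ := 40 * Cc / r ^ (2 + α) with hΛ
  have hZ0 : 0 ≤ Z := div_nonneg (by linarith) (Real.rpow_nonneg hr.le _)
  have hΛ0 : 0 ≤ Λ := div_nonneg (by linarith) (Real.rpow_nonneg hr.le _)
  refine ⟨M * (5 + 4 * Z + Λ), by positivity, ?_⟩
  intro τ P x₀ ζ u ut lam N H F0 hτ hτ1 hP hζ hu hN hH hHol hf
  set I := Icc (0 : ℝ) τ with hI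
  have h0I : (0 : ℝ) ∈ I := ⟨le_rfl, hτ.le⟩
  have hN0 : 0 ≤ N := (norm_nonneg _).trans (hN 0 h0I x₀ (mem_univ _))
  have hF0 : 0 ≤ F0 := (norm_nonneg _).trans (hf.sup 0 h0I x₀ (mem_univ _))
  set 𝔞₀ := topOf (P 0 x₀) with h𝔞₀
  set θ₁ : ℝ := M * (2 * r) ^ α + M * τ ^ γ with hθ₁
  have hra : 0 ≤ (2 * r) ^ α := Real.rpow_nonneg (by linarith) _
  have hτg : 0 ≤ τ ^ γ := Real.rpow_nonneg hτ.le _
  have hθ0 : 0 ≤ θ₁ := by positivity
  have hθ3 : θ₁ ≤ 3 * M := by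
    have h1 : (2 * r) ^ α ≤ 2 := by
      calc (2 * r) ^ α ≤ (2 : ℝ) ^ α := Real.rpow_le_rpow (by linarith) (by linarith) hα0.le
        _ ≤ (2 : ℝ) ^ (1 : ℝ) := Real.rpow_le_rpow_of_exponent_le (by norm_num) hα1.le
        _ = 2 := Real.rpow_one _
    have h2 : τ ^ γ ≤ 1 := Real.rpow_le_one hτ.le hτ1 hγ.le
    rw [hθ₁]; nlinarith
  have h𝔞 : ‖ofTop 𝔞₀‖ ≤ M :=
    (norm_ofTop_le _).trans ((norm_topOf_le _).trans (hP.coef.sup 0 h0I x₀ (mem_univ _)))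
  have hv : C21 I univ (fun t x => ζ x * u t x) (fun t x => ζ x * ut t x) :=
    hu.cutoff_mul hζ.smooth isOpen_univ
  set A₂ : ℝ → E → Bil E →L[ℝ] ℝ := fun t x => topOf (P t x) - 𝔞₀ with hA₂
  set v₃ : ℝ → E → Jet E := fun t x => (u t x, D1 u t x, 0) with hv₃
  have hid : ∀ t ∈ I, ∀ x, Lop (constOp 𝔞₀) (fun t x => ζ x * u t x) (fun t x => ζ x * ut t x) t x
      = ζ x • Lop P u ut t x + ζ x • A₂ t x (D2 u t x) + ζ x • P t x (v₃ t x)
        - ofTop 𝔞₀ (commJ ζ u t x) := by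
    intro t ht x
    rw [Lop_cutoff (constOp 𝔞₀) hζ.smooth isOpen_univ (mem_univ x) (hu.c2 t ht), Lop_constOp]
    have e : jet u t x = v₃ t x + topJ (D2 u t x) := by
      simp [jet, hv₃, topJ]
    simp only [Lop, hA₂, e, map_add, _root_.sub_apply, topOf_apply, smul_eq_mul, constOp]
    ring
  have hA2sup : ∀ t ∈ I, SupB (ball x₀ (r + r)) (A₂ t) θ₁ := by
    intro t ht x hx
    refine ContinuousLinearMap.opNorm_le_bound _ hθ0 fun B => ?_
    have e : A₂ t x B = (P t x - P t x₀) (topJ B) + (P t x₀ (topJ B) - P 0 x₀ (topJ B)) := by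
      simp only [hA₂, h𝔞₀, _root_.sub_apply, topOf_apply]; ring
    rw [e]
    have h1 : ‖(P t x - P t x₀) (topJ B)‖ ≤ M * (2 * r) ^ α * ‖B‖ := by
      refine ((P t x - P t x₀).le_opNorm _).trans ?_
      rw [norm_topJ]
      refine mul_le_mul_of_nonneg_right ?_ (norm_nonneg _)
      refine (hP.coef.hol t ht x (mem_univ _) x₀ (mem_univ _)).trans ?_
      refine mul_le_mul_of_nonneg_left ?_ hM
      refine Real.rpow_le_rpow (norm_nonneg _) ?_ hα0.le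
      have := mem_ball_iff_norm.mp hx
      linarith
    have h2 : ‖P t x₀ (topJ B) - P 0 x₀ (topJ B)‖ ≤ M * τ ^ γ * ‖B‖ := by
      refine (hP.time t ht 0 h0I x₀ (mem_univ _) B).trans ?_
      refine mul_le_mul_of_nonneg_right ?_ (norm_nonneg _)
      refine mul_le_mul_of_nonneg_left ?_ hM
      rw [sub_zero, abs_of_nonneg ht.1]
      exact Real.rpow_le_rpow ht.1 ht.2 hγ.le
    calc ‖(P t x - P t x₀) (topJ B) + (P t x₀ (topJ B) - P 0 x₀ (topJ B))‖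
        ≤ M * (2 * r) ^ α * ‖B‖ + M * τ ^ γ * ‖B‖ := (norm_add_le _ _).trans (add_le_add h1 h2)
      _ = θ₁ * ‖B‖ := by rw [hθ₁]; ring
  have hA2hol : ∀ t ∈ I, HolB α univ (A₂ t) M := by
    intro t ht x hx y hy
    have hr' : 0 ≤ ‖x - y‖ ^ α := Real.rpow_nonneg (norm_nonneg _) _
    refine ContinuousLinearMap.opNorm_le_bound _ (by positivity) fun B => ?_
    have e : (A₂ t x - A₂ t y) B = (P t x - P t y) (topJ B) := by
      simp only [hA₂, _root_.sub_apply, topOf_apply]; ring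
    rw [e]
    refine ((P t x - P t y).le_opNorm _).trans ?_
    rw [norm_topJ]
    exact mul_le_mul_of_nonneg_right (hP.coef.hol t ht x hx y hy) (norm_nonneg _)
  have hb2 : ∀ t ∈ I, SupB univ (D2 u t) N := fun t ht z hz => (norm_jet_le_iff.mp (hN t ht z hz)).2.2
  have hz : ∀ x, x ∉ ball x₀ (r + r) → ζ x = 0 := hζ.eq_zero
  have hζh : HolB α univ ζ Z := hζ.hol0 hCc hr hα0 hα1.le
  -- the four pieces, for fixed `t`
  have P1 := YB.cutoff_mul hζ hCc hr hα0 hα1.le isOpen_univ (subset_univ _) hf hF0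
  have P4 := commJ_YB hζ hCc hr hr1 hα0 hα1.le isOpen_univ (subset_univ _) hu
    (fun t ht => (hN t ht).subset (subset_univ _)) hN0
  have S2 : ∀ t ∈ I, SupB univ (fun x => ζ x • A₂ t x (D2 u t x)) (θ₁ * N) := fun t ht =>
    SupB.cutoff_smul (g := fun x => A₂ t x (D2 u t x)) hz hζ.sup0
      (SupB.clm_apply (A := A₂ t) (v := D2 u t) (hA2sup t ht) ((hb2 t ht).subset (subset_univ _)) hθ0)
      (by positivity)
  have H2 : ∀ t ∈ I, HolB α univ (fun x => ζ x • A₂ t x (D2 u t x))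
      ((θ₁ * H + M * N) + Z * (θ₁ * N)) := fun t ht =>
    HolB.cutoff_smul (g := fun x => A₂ t x (D2 u t x)) hz hζ.sup0 hζh
      (SupB.clm_apply (A := A₂ t) (v := D2 u t) (hA2sup t ht) ((hb2 t ht).subset (subset_univ _)) hθ0)
      (HolB.clm_apply (A := A₂ t) (v := D2 u t) (hA2sup t ht) ((hA2hol t ht).subset (subset_univ _))
        ((hb2 t ht).subset (subset_univ _)) ((hHol t ht).subset (subset_univ _)))
      (by positivity) (by positivity) hZ0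
  have hv3s : ∀ t ∈ I, SupB univ (v₃ t) N := fun t ht =>
    SupB.prodMk' (fun z hz => (norm_jet_le_iff.mp (hN t ht z hz)).1)
      (SupB.prodMk' (fun z hz => (norm_jet_le_iff.mp (hN t ht z hz)).2.1)
        (fun z _ => by simpa using hN0))
  have hv3h : ∀ t ∈ I, HolB α univ (v₃ t) (3 * N) := fun t ht => by
    obtain ⟨a, b⟩ := low_hol hα0 hα1.le isOpen_univ convex_univ (hu.c2 t ht) (hN t ht) hN0
    exact HolB.prodMk' a (HolB.prodMk' b ((HolB.const (0 : Bil E)).mono (by linarith)))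
  have S3 : ∀ t ∈ I, SupB univ (fun x => ζ x • P t x (v₃ t x)) (1 * (M * N)) := fun t ht =>
    SupB.smul (c := ζ) (g := fun x => P t x (v₃ t x)) hζ.sup0
      (SupB.clm_apply (A := P t) (v := v₃ t) (hP.coef.sup t ht) (hv3s t ht) hM) zero_le_one
  have H3 : ∀ t ∈ I, HolB α univ (fun x => ζ x • P t x (v₃ t x))
      (1 * (M * (3 * N) + M * N) + Z * (M * N)) := fun t ht =>
    HolB.smul (c := ζ) (g := fun x => P t x (v₃ t x)) hζ.sup0 hζh
      (SupB.clm_apply (A := P t) (v := v₃ t) (hP.coef.sup t ht) (hv3s t ht) hM)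
      (HolB.clm_apply (A := P t) (v := v₃ t) (hP.coef.sup t ht) (hP.coef.hol t ht) (hv3s t ht)
        (hv3h t ht))
  have hMN : 0 ≤ M * N := mul_nonneg hM hN0
  have hZMN : 0 ≤ Z * (M * N) := mul_nonneg hZ0 hMN
  have hΛMN : 0 ≤ Λ * (M * N) := mul_nonneg hΛ0 hMN
  have hθH : 0 ≤ θ₁ * H := mul_nonneg hθ0 hH
  have hθN : θ₁ * N ≤ 3 * (M * N) := by nlinarith
  have h4c : ‖ofTop 𝔞₀‖ * (Λ * N) ≤ Λ * (M * N) := by
    have : 0 ≤ Λ * N := mul_nonneg hΛ0 hN0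
    nlinarith
  refine ⟨?_, fun t ht => ?_, fun t ht => ?_⟩
  · exact hv.contt.sub ((ofTop 𝔞₀).continuous.comp_continuousOn (jet_continuousOn hv))
  · have e : Lop (constOp 𝔞₀) (fun t x => ζ x * u t x) (fun t x => ζ x * ut t x) t
        = fun x => ζ x • Lop P u ut t x + ζ x • A₂ t x (D2 u t x) + ζ x • P t x (v₃ t x)
          - ofTop 𝔞₀ (commJ ζ u t x) := funext (hid t ht)
    rw [e]
    refine ((((P1.sup t ht).add (S2 t ht)).add (S3 t ht)).sub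
      ((P4.sup t ht).clm_comp (ofTop 𝔞₀))).mono ?_
    linarith
  · have e : Lop (constOp 𝔞₀) (fun t x => ζ x * u t x) (fun t x => ζ x * ut t x) t
        = fun x => ζ x • Lop P u ut t x + ζ x • A₂ t x (D2 u t x) + ζ x • P t x (v₃ t x)
          - ofTop 𝔞₀ (commJ ζ u t x) := funext (hid t ht)
    rw [e]
    refine ((((P1.hol t ht).add (H2 t ht)).add (H3 t ht)).sub
      ((P4.hol t ht).clm_comp (ofTop 𝔞₀))).mono ?_
    have hZθ : Z * (θ₁ * N) ≤ 3 * (Z * (M * N)) := by nlinarith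
    linarith

end Claimed.Agent.R316.B8
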