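import Claimed.Agent.R316.Pack001

/-!
# B8-CUTOFF: cutoff functions with scale invariant bounds; products with cutoffs

LEAF (proofs only).

Recipes.
* `exists_cutoff`: `η s = Real.smoothTransition (1 - s)` (`= 1` for `s ≤ 0`, `= 0` for `s ≥ 1`, `ContDiff ℝ ∞`), its derivatives of
  order `≤ 3` are bounded by some `C₀` (they are continuous and vanish outside `[0,1]`).  Put
  `σ x = (‖x - x₀‖² - r²) / (ρ (2r + ρ))`, `ζ = η ∘ σ`.  For `‖x - x₀‖ ≤ r + ρ`:
  `‖Dσ‖ = 2‖x-x₀‖/(ρ(2r+ρ)) ≤ 2/ρ`, `‖D²σ‖ ≤ 2/(ρ(2r+ρ)) ≤ 1/ρ² ≤ (2/ρ)²` (here `ρ ≤ r`), `D³σ = 0`.  Use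
  `norm_iteratedFDeriv_comp_le` (`C = C₀`, `D = 2/ρ`) at such `x`; for `‖x - x₀‖ > r + ρ` the function `ζ` vanishes near `x`.
  Pass from `iteratedFDeriv` to nested `fderiv` with `norm_iteratedFDeriv_fderiv`, `norm_fderiv_iteratedFDeriv`,
  `norm_iteratedFDeriv_zero`/`norm_iteratedFDeriv_one`.
* `Cut.hol*`: `HolB.of_lip_scaled` + `lip_of_fderiv` on `univ`.
* `jet_cutoff`: `fderiv_mul` / `HasFDerivAt.mul` twice (`fderiv ℝ (ζ * u t) =ᶠ[𝓝 x] ζ • Du + u • Dζ`).
* `C21.cutoff_extend`: cover `univ = S ∪ Kcᶜ`; on the open set `Kcᶜ` the product vanishes identically.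
-/

set_option autoImplicit false
set_option maxSynthPendingDepth 3
set_option linter.unusedSectionVars false
set_option linter.unusedVariables false

open scoped Topology ContDiff
open Set Filter Metric

namespace Claimed.Agent.R316.B8

/-- `ζ` is a cutoff: `1` on `closedBall x₀ r`, `0` outside `ball x₀ (r+ρ)`, `|D^k ζ| ≤ C/ρ^k`, `k ≤ 3`. -/
structure Cut {E : Type*} [NormedAddCommGroup E] [NormedSpace ℝ E] (ζ : E → ℝ) (x₀ : E) (r ρ C : ℝ) :
    Prop where
  smooth : ContDiff ℝ ∞ ζ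
  nonneg : ∀ x, 0 ≤ ζ x
  le_one : ∀ x, ζ x ≤ 1
  eq_one : ∀ x ∈ closedBall x₀ r, ζ x = 1
  eq_zero : ∀ x, x ∉ ball x₀ (r + ρ) → ζ x = 0
  d1 : ∀ x, ‖fderiv ℝ ζ x‖ ≤ C / ρ
  d2 : ∀ x, ‖fderiv ℝ (fderiv ℝ ζ) x‖ ≤ C / ρ ^ 2
  d3 : ∀ x, ‖fderiv ℝ (fderiv ℝ (fderiv ℝ ζ)) x‖ ≤ C / ρ ^ 3

section Aux

variable {E : Type*} [NormedAddCommGroup E] [NormedSpace ℝ E]
variable {F : Type*} [NormedAddCommGroup F] [NormedSpace ℝ F]

theorem norm_fderiv1_eq (f : E → F) (x : E) : ‖fderiv ℝ f x‖ = ‖iteratedFDeriv ℝ 1 f x‖ := by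
  rw [← norm_iteratedFDeriv_fderiv, norm_iteratedFDeriv_zero]

theorem norm_fderiv2_eq (f : E → F) (x : E) :
    ‖fderiv ℝ (fderiv ℝ f) x‖ = ‖iteratedFDeriv ℝ 2 f x‖ := by
  rw [← norm_iteratedFDeriv_fderiv, ← norm_iteratedFDeriv_fderiv, norm_iteratedFDeriv_zero]

theorem norm_fderiv3_eq (f : E → F) (x : E) :
    ‖fderiv ℝ (fderiv ℝ (fderiv ℝ f)) x‖ = ‖iteratedFDeriv ℝ 3 f x‖ := by
  rw [← norm_iteratedFDeriv_fderiv, ← norm_iteratedFDeriv_fderiv, ← norm_iteratedFDeriv_fderiv,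
    norm_iteratedFDeriv_zero]

theorem fderiv_eventually_zero {f : E → F} {x : E} {c : F} (h : f =ᶠ[𝓝 x] fun _ => c) :
    fderiv ℝ f =ᶠ[𝓝 x] fun _ => 0 := by
  have := h.fderiv (𝕜 := ℝ)
  refine this.trans (Eventually.of_forall fun y => ?_)
  simp

/-- the profile `η s = smoothTransition (1 - s)`. -/
noncomputable def etaC (s : ℝ) : ℝ := Real.smoothTransition (1 - s)

theorem etaC_contDiff : ContDiff ℝ ∞ etaC :=
  Real.smoothTransition.contDiff.comp (contDiff_const.sub contDiff_id)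

theorem etaC_one {s : ℝ} (h : s ≤ 0) : etaC s = 1 := Real.smoothTransition.one_of_one_le (by linarith)

theorem etaC_zero {s : ℝ} (h : 1 ≤ s) : etaC s = 0 := Real.smoothTransition.zero_of_nonpos (by linarith)

theorem etaC_bound : ∃ C : ℝ, 1 ≤ C ∧ ∀ i ≤ 3, ∀ s, ‖iteratedFDeriv ℝ i etaC s‖ ≤ C := by
  have hsupp : HasCompactSupport (fderiv ℝ etaC) := by
    refine HasCompactSupport.intro (isCompact_Icc (a := (0 : ℝ)) (b := 1)) fun s hs => ?_
    rw [mem_Icc, not_and_or, not_le, not_le] at hs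
    rcases hs with hs | hs
    · have : etaC =ᶠ[𝓝 s] fun _ => 1 := by
        filter_upwards [Iio_mem_nhds hs] with y hy using etaC_one (le_of_lt hy)
      exact (fderiv_eventually_zero this).eq_of_nhds
    · have : etaC =ᶠ[𝓝 s] fun _ => 0 := by
        filter_upwards [Ioi_mem_nhds hs] with y hy using etaC_zero (le_of_lt hy)
      exact (fderiv_eventually_zero this).eq_of_nhds
  have hcd : ContDiff ℝ ∞ (fderiv ℝ etaC) := etaC_contDiff.fderiv_right (by simp)
  have hb : ∀ j : ℕ, ∃ C, ∀ s, ‖iteratedFDeriv ℝ j (fderiv ℝ etaC) s‖ ≤ C := fun j =>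
    (hcd.continuous_iteratedFDeriv (by exact_mod_cast le_top)).bounded_above_of_compact_support
      (hsupp.iteratedFDeriv j)
  obtain ⟨C0, h0⟩ := hb 0
  obtain ⟨C1, h1⟩ := hb 1
  obtain ⟨C2, h2⟩ := hb 2
  refine ⟨max 1 (max C0 (max C1 C2)), le_max_left _ _, fun i hi s => ?_⟩
  interval_cases i
  · rw [norm_iteratedFDeriv_zero, etaC, Real.norm_of_nonneg (Real.smoothTransition.nonneg _)]
    exact (Real.smoothTransition.le_one _).trans (le_max_left _ _)
  · rw [← norm_iteratedFDeriv_fderiv]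
    exact (h0 s).trans ((le_max_left _ _).trans (le_max_right _ _))
  · rw [← norm_iteratedFDeriv_fderiv]
    exact (h1 s).trans (((le_max_left _ _).trans (le_max_right _ _)).trans (le_max_right _ _))
  · rw [← norm_iteratedFDeriv_fderiv]
    exact (h2 s).trans (((le_max_right _ _).trans (le_max_right _ _)).trans (le_max_right _ _))

end Aux

section Exist

variable {E : Type*} [NormedAddCommGroup E] [InnerProductSpace ℝ E]

/-- the quadratic `c (‖x - x₀‖² - r²)`. -/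
noncomputable def sigC (c r : ℝ) (x₀ x : E) : ℝ := c * (‖x - x₀‖ ^ 2 - r ^ 2)

theorem sigC_contDiff (c r : ℝ) (x₀ : E) : ContDiff ℝ ∞ (sigC c r x₀) := by
  unfold sigC
  exact contDiff_const.mul (((contDiff_id.sub contDiff_const).norm_sq ℝ).sub contDiff_const)

theorem fderiv_sigC (c r : ℝ) (x₀ : E) :
    fderiv ℝ (sigC c r x₀) = fun x => ((2 * c) • (innerSL ℝ : E →L[ℝ] E →L[ℝ] ℝ)) (x - x₀) := by
  funext x
  have h1 : HasFDerivAt (fun x : E => ‖x - x₀‖ ^ 2) (2 • (innerSL ℝ (x - x₀))) x := by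
    have := (hasStrictFDerivAt_norm_sq (x - x₀)).hasFDerivAt.comp x
      ((hasFDerivAt_id (𝕜 := ℝ) x).sub_const x₀)
    rw [ContinuousLinearMap.comp_id] at this
    exact this
  have h2 := (h1.sub_const (r ^ 2)).const_mul c
  rw [show sigC c r x₀ = fun x => c * (‖x - x₀‖ ^ 2 - r ^ 2) from rfl, h2.fderiv]
  ext v
  simp
  ring

theorem fderiv2_sigC (c r : ℝ) (x₀ : E) :
    fderiv ℝ (fderiv ℝ (sigC c r x₀)) = fun _ => (2 * c) • (innerSL ℝ : E →L[ℝ] E →L[ℝ] ℝ) := by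
  funext x
  rw [fderiv_sigC]
  have := (((2 * c) • (innerSL ℝ : E →L[ℝ] E →L[ℝ] ℝ)).hasFDerivAt (x := x - x₀)).comp x
    ((hasFDerivAt_id (𝕜 := ℝ) x).sub_const x₀)
  rw [ContinuousLinearMap.comp_id] at this
  exact this.fderiv

theorem fderiv3_sigC (c r : ℝ) (x₀ : E) (x : E) :
    fderiv ℝ (fderiv ℝ (fderiv ℝ (sigC c r x₀))) x = 0 := by
  rw [fderiv2_sigC]
  simp

theorem norm_innerSL_le_one' : ‖(innerSL ℝ : E →L[ℝ] E →L[ℝ] ℝ)‖ ≤ 1 := by
  refine ContinuousLinearMap.opNorm_le_bound₂ _ zero_le_one fun v w => ?_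
  rw [innerSL_apply_apply, one_mul]
  exact norm_inner_le_norm v w

/-- existence of cutoffs with a universal constant (`ρ ≤ r`). -/
theorem exists_cutoff : ∃ C : ℝ, 1 ≤ C ∧ ∀ (x₀ : E) (r ρ : ℝ), 0 < ρ → ρ ≤ r →
    ∃ ζ : E → ℝ, Cut ζ x₀ r ρ C := by
  obtain ⟨C0, hC01, hC0⟩ := etaC_bound
  refine ⟨48 * C0, by linarith, fun x₀ r ρ hρ hρr => ?_⟩
  have hr : 0 < r := hρ.trans_le hρr
  set c : ℝ := 1 / (ρ * (2 * r + ρ)) with hc
  have hc0 : 0 < c := by positivity
  set σ := sigC c r x₀ with hσ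
  set ζ : E → ℝ := etaC ∘ σ with hζ
  have hsm : ContDiff ℝ ∞ ζ := etaC_contDiff.comp (sigC_contDiff c r x₀)
  have hzero : ∀ x, x ∉ ball x₀ (r + ρ) → ζ x = 0 := by
    intro x hx
    rw [mem_ball_iff_norm, not_lt] at hx
    refine etaC_zero ?_
    simp only [hσ, sigC, hc]
    rw [div_mul_eq_mul_div, one_mul, le_div_iff₀ (by positivity)]
    nlinarith [norm_nonneg (x - x₀)]
  -- the bound of the iterated derivatives
  have key : ∀ n ≤ 3, ∀ x, ‖iteratedFDeriv ℝ n ζ x‖ ≤ 48 * C0 / ρ ^ n ∨ n = 0 := by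
    intro n hn x
    by_cases hn0 : n = 0
    · exact Or.inr hn0
    left
    by_cases hx : ‖x - x₀‖ ≤ r + ρ
    · have hD : ∀ i, 1 ≤ i → i ≤ n → ‖iteratedFDeriv ℝ i σ x‖ ≤ (2 / ρ) ^ i := by
        intro i hi1 hin
        have hi3 : i ≤ 3 := hin.trans hn
        interval_cases i
        · rw [← norm_fderiv1_eq, hσ, fderiv_sigC, pow_one]
          simp only [_root_.smul_apply]
          rw [norm_smul, innerSL_apply_norm, Real.norm_of_nonneg (by positivity), hc]
          rw [mul_one_div, div_mul_eq_mul_div, div_le_div_iff₀ (by positivity) hρ]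
          nlinarith [norm_nonneg (x - x₀)]
        · rw [← norm_fderiv2_eq, hσ, fderiv2_sigC]
          rw [norm_smul, Real.norm_of_nonneg (by positivity), hc]
          have h1 := norm_innerSL_le_one' (E := E)
          have h2 : 2 * (1 / (ρ * (2 * r + ρ))) ≤ (2 / ρ) ^ 2 := by
            rw [mul_one_div, div_pow, div_le_div_iff₀ (by positivity) (by positivity)]
            nlinarith [mul_pos hρ hρ, mul_pos hρ hr]
          calc 2 * (1 / (ρ * (2 * r + ρ))) * ‖(innerSL ℝ : E →L[ℝ] E →L[ℝ] ℝ)‖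
              ≤ 2 * (1 / (ρ * (2 * r + ρ))) * 1 := by gcongr
            _ ≤ (2 / ρ) ^ 2 := by rw [mul_one]; exact h2
        · rw [← norm_fderiv3_eq, hσ, fderiv3_sigC, norm_zero]
          positivity
      have h := norm_iteratedFDeriv_comp_le (𝕜 := ℝ) (N := ∞) etaC_contDiff (sigC_contDiff c r x₀)
        (n := n) (by exact_mod_cast le_top) x (C := C0) (D := 2 / ρ)
        (fun i hi => hC0 i (hi.trans hn) _) hD
      refine h.trans ?_
      rw [div_pow, ← mul_div_assoc]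
      apply div_le_div_of_nonneg_right _ (by positivity)
      have hC00 : 0 ≤ C0 := by linarith
      interval_cases n
      · exact absurd rfl hn0
      · simp [Nat.factorial]; nlinarith
      · simp [Nat.factorial]; nlinarith
      · simp [Nat.factorial]; nlinarith
    · rw [not_le] at hx
      have h0 : ζ =ᶠ[𝓝 x] fun _ => 0 := by
        have hopen : IsOpen {y : E | r + ρ < ‖y - x₀‖} :=
          isOpen_lt continuous_const (continuous_id.sub continuous_const).norm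
        filter_upwards [hopen.mem_nhds hx] with y hy
        exact hzero y (by rw [mem_ball_iff_norm, not_lt]; exact le_of_lt hy)
      rw [(h0.iteratedFDeriv ℝ n).eq_of_nhds, iteratedFDeriv_const_of_ne hn0]
      simp only [Pi.zero_apply, norm_zero]
      have : 0 ≤ C0 := by linarith
      positivity
  refine ⟨ζ, hsm, fun x => Real.smoothTransition.nonneg _, fun x => Real.smoothTransition.le_one _,
    fun x hx => ?_, hzero, fun x => ?_, fun x => ?_, fun x => ?_⟩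
  · rw [mem_closedBall_iff_norm] at hx
    refine etaC_one ?_
    simp only [hσ, sigC]
    refine mul_nonpos_of_nonneg_of_nonpos hc0.le ?_
    nlinarith [norm_nonneg (x - x₀)]
  · rw [norm_fderiv1_eq]
    have := (key 1 (by norm_num) x).resolve_right (by norm_num)
    rwa [pow_one] at this
  · rw [norm_fderiv2_eq]
    exact (key 2 (by norm_num) x).resolve_right (by norm_num)
  · rw [norm_fderiv3_eq]
    exact (key 3 (by norm_num) x).resolve_right (by norm_num)

/-- a smooth cutoff in time: `0` for `t ≤ a`, `1` for `t ≥ b`. -/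
theorem exists_time_cutoff : ∃ C : ℝ, 1 ≤ C ∧ ∀ (a b : ℝ), a < b →
    ∃ η : ℝ → ℝ, ContDiff ℝ ∞ η ∧ (∀ t, 0 ≤ η t ∧ η t ≤ 1) ∧ (∀ t ≤ a, η t = 0) ∧ (∀ t, b ≤ t → η t = 1) ∧
      ∀ t, |deriv η t| ≤ C / (b - a) := by
  obtain ⟨C0, hC01, hC0⟩ := etaC_bound
  refine ⟨C0, hC01, fun a b hab => ?_⟩
  have hba : 0 < b - a := sub_pos.mpr hab
  set l : ℝ → ℝ := fun t => (b - t) / (b - a) with hl
  have hlc : ContDiff ℝ ∞ l := (contDiff_const.sub contDiff_id).div_const _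
  refine ⟨etaC ∘ l, etaC_contDiff.comp hlc,
    fun t => ⟨Real.smoothTransition.nonneg _, Real.smoothTransition.le_one _⟩, fun t ht => ?_,
    fun t ht => ?_, fun t => ?_⟩
  · refine etaC_zero ?_
    simp only [hl]
    rw [le_div_iff₀ hba]; linarith
  · refine etaC_one ?_
    simp only [hl]
    exact div_nonpos_of_nonpos_of_nonneg (by linarith) hba.le
  · have h1 : HasDerivAt l (-1 / (b - a)) t := by
      have := ((hasDerivAt_id t).const_sub b).div_const (b - a)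
      simpa using this
    have h2 : HasDerivAt etaC (deriv etaC (l t)) (l t) :=
      (etaC_contDiff.differentiable (by simp) _).hasDerivAt
    rw [(h2.comp t h1).deriv, abs_mul, abs_div, abs_neg, abs_one, abs_of_pos hba, mul_one_div]
    apply div_le_div_of_nonneg_right _ hba.le
    have h3 := hC0 1 (by norm_num) (l t)
    rw [← norm_fderiv1_eq, ← norm_deriv_eq_norm_fderiv] at h3
    exact h3

end Exist



variable {E : Type*} [NormedAddCommGroup E] [NormedSpace ℝ E]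

section Bounds

variable {ζ : E → ℝ} {x₀ : E} {r ρ C α : ℝ}

theorem Cut.sup0 (h : Cut ζ x₀ r ρ C) : SupB univ ζ 1 := by
  intro x _
  rw [Real.norm_of_nonneg (h.nonneg x)]
  exact h.le_one x

theorem Cut.diff0 (h : Cut ζ x₀ r ρ C) : Differentiable ℝ ζ := h.smooth.differentiable (by simp)

theorem Cut.smooth1 (h : Cut ζ x₀ r ρ C) : ContDiff ℝ ∞ (fderiv ℝ ζ) := h.smooth.fderiv_right (by simp)

theorem Cut.smooth2 (h : Cut ζ x₀ r ρ C) : ContDiff ℝ ∞ (fderiv ℝ (fderiv ℝ ζ)) :=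
  h.smooth1.fderiv_right (by simp)

theorem Cut.hol0 (h : Cut ζ x₀ r ρ C) (hC : 1 ≤ C) (hρ : 0 < ρ) (hα0 : 0 < α) (hα1 : α ≤ 1) :
    HolB α univ ζ (2 * C / ρ ^ α) :=
  HolB.of_lip_scaled hα0 hα1 hρ (h.sup0.mono hC)
    (lip_of_fderiv isOpen_univ convex_univ h.diff0.differentiableOn (fun x _ => h.d1 x)) (by linarith)

theorem Cut.hol1 (h : Cut ζ x₀ r ρ C) (hC : 1 ≤ C) (hρ : 0 < ρ) (hα0 : 0 < α) (hα1 : α ≤ 1) :
    HolB α univ (fderiv ℝ ζ) (2 * C / ρ ^ (1 + α)) := by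
  have h1 := HolB.of_lip_scaled (g := fderiv ℝ ζ) (S := univ) (A := C / ρ) hα0 hα1 hρ
    (fun x _ => h.d1 x)
    (lip_of_fderiv isOpen_univ convex_univ (h.smooth1.differentiable (by simp)).differentiableOn
      (fun x _ => by
        have := h.d2 x
        rwa [sq, ← div_div] at this)) (by positivity)
  refine h1.mono (le_of_eq ?_)
  rw [Real.rpow_add hρ, Real.rpow_one]
  field_simp

theorem Cut.hol2 (h : Cut ζ x₀ r ρ C) (hC : 1 ≤ C) (hρ : 0 < ρ) (hα0 : 0 < α) (hα1 : α ≤ 1) :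
    HolB α univ (fderiv ℝ (fderiv ℝ ζ)) (2 * C / ρ ^ (2 + α)) := by
  have h1 := HolB.of_lip_scaled (g := fderiv ℝ (fderiv ℝ ζ)) (S := univ) (A := C / ρ ^ 2) hα0 hα1 hρ
    (fun x _ => h.d2 x)
    (lip_of_fderiv isOpen_univ convex_univ (h.smooth2.differentiable (by simp)).differentiableOn
      (fun x _ => by
        have := h.d3 x
        rwa [pow_succ, ← div_div] at this)) (by positivity)
  refine h1.mono (le_of_eq ?_)
  rw [Real.rpow_add hρ, Real.rpow_two]
  field_simp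

/-- the derivatives of a cutoff vanish on `ball x₀ r` and outside `closedBall x₀ (r+ρ)`. -/
theorem Cut.fderiv_eq_zero (h : Cut ζ x₀ r ρ C) {x : E} (hx : x ∈ ball x₀ r ∨ x ∉ closedBall x₀ (r + ρ)) :
    fderiv ℝ ζ x = 0 ∧ fderiv ℝ (fderiv ℝ ζ) x = 0 := by
  have key : ∃ c : ℝ, ζ =ᶠ[𝓝 x] fun _ => c := by
    rcases hx with hx | hx
    · refine ⟨1, ?_⟩
      filter_upwards [isOpen_ball.mem_nhds hx] with y hy using h.eq_one y (ball_subset_closedBall hy)
    · refine ⟨0, ?_⟩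
      filter_upwards [isClosed_closedBall.isOpen_compl.mem_nhds hx] with y hy
      exact h.eq_zero y (fun hy' => hy (ball_subset_closedBall hy'))
  obtain ⟨c, hc⟩ := key
  have h1 := fderiv_eventually_zero hc
  exact ⟨h1.eq_of_nhds, (fderiv_eventually_zero h1).eq_of_nhds⟩

end Bounds

section Product

variable {I : Set ℝ} {S : Set E} {u ut : ℝ → E → ℝ} {ζ : E → ℝ}

/-- the commutator jet: `jet (ζ u) = ζ • jet u + commJ ζ u`. -/
noncomputable def commJ (ζ : E → ℝ) (u : ℝ → E → ℝ) (t : ℝ) (x : E) : Jet E :=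
  (0, u t x • fderiv ℝ ζ x,
    (fderiv ℝ ζ x).smulRight (D1 u t x) + (D1 u t x).smulRight (fderiv ℝ ζ x)
      + u t x • fderiv ℝ (fderiv ℝ ζ) x)

theorem D1_cutoff (hζ : ContDiff ℝ ∞ ζ) (hS : IsOpen S) {t : ℝ} {x : E} (hx : x ∈ S)
    (hu : ContDiffOn ℝ 2 (u t) S) :
    D1 (fun t x => ζ x * u t x) t x = ζ x • D1 u t x + u t x • fderiv ℝ ζ x :=
  ((hζ.differentiable (by simp) x).hasFDerivAt.mul (cd2_differentiableAt hS hx hu).hasFDerivAt).fderiv

theorem D2_cutoff (hζ : ContDiff ℝ ∞ ζ) (hS : IsOpen S) {t : ℝ} {x : E} (hx : x ∈ S)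
    (hu : ContDiffOn ℝ 2 (u t) S) :
    D2 (fun t x => ζ x * u t x) t x = ζ x • D2 u t x + ((fderiv ℝ ζ x).smulRight (D1 u t x)
      + (D1 u t x).smulRight (fderiv ℝ ζ x) + u t x • fderiv ℝ (fderiv ℝ ζ) x) := by
  have h1 : fderiv ℝ (fun x => ζ x * u t x)
      =ᶠ[𝓝 x] fun y => ζ y • fderiv ℝ (u t) y + u t y • fderiv ℝ ζ y := by
    filter_upwards [hS.mem_nhds hx] with y hy
    exact D1_cutoff hζ hS hy hu
  have hζ1 : ContDiff ℝ ∞ (fderiv ℝ ζ) := hζ.fderiv_right (by simp)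
  have h2 := ((hζ.differentiable (by simp) x).hasFDerivAt.smul
    (cd2_fderiv_differentiableAt hS hx hu).hasFDerivAt).add
    ((cd2_differentiableAt hS hx hu).hasFDerivAt.smul (hζ1.differentiable (by simp) x).hasFDerivAt)
  have h3 : D2 (fun t x => ζ x * u t x) t x = _ := h1.fderiv_eq.trans h2.fderiv
  rw [h3]
  simp only [D1, D2]
  abel

theorem jet_cutoff (hζ : ContDiff ℝ ∞ ζ) (hS : IsOpen S) {t : ℝ} {x : E} (hx : x ∈ S)
    (hu : ContDiffOn ℝ 2 (u t) S) :
    jet (fun t x => ζ x * u t x) t x = ζ x • jet u t x + commJ ζ u t x := by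
  simp only [jet, commJ, D1_cutoff hζ hS hx hu, D2_cutoff hζ hS hx hu, Prod.smul_mk, Prod.mk_add_mk,
    smul_eq_mul, add_zero]

/-- `L (ζ u) = ζ L u - P (commJ ζ u)`. -/
theorem Lop_cutoff (P : Op E) (hζ : ContDiff ℝ ∞ ζ) (hS : IsOpen S) {t : ℝ} {x : E} (hx : x ∈ S)
    (hu : ContDiffOn ℝ 2 (u t) S) :
    Lop P (fun t x => ζ x * u t x) (fun t x => ζ x * ut t x) t x
      = ζ x * Lop P u ut t x - P t x (commJ ζ u t x) := by
  simp only [Lop, jet_cutoff hζ hS hx hu, map_add, map_smul, smul_eq_mul]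
  ring

theorem commJ_continuousOn (hζ : ContDiff ℝ ∞ ζ) (hu : C21 I S u ut) :
    ContinuousOn (fun q : ℝ × E => commJ ζ u q.1 q.2) (I ×ˢ S) := by
  have hζ1 : ContDiff ℝ ∞ (fderiv ℝ ζ) := hζ.fderiv_right (by simp)
  have hζ2 : ContDiff ℝ ∞ (fderiv ℝ (fderiv ℝ ζ)) := hζ1.fderiv_right (by simp)
  have c1 : ContinuousOn (fun q : ℝ × E => fderiv ℝ ζ q.2) (I ×ˢ S) :=
    (hζ1.continuous.comp continuous_snd).continuousOn
  have c2 : ContinuousOn (fun q : ℝ × E => fderiv ℝ (fderiv ℝ ζ) q.2) (I ×ˢ S) :=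
    (hζ2.continuous.comp continuous_snd).continuousOn
  have hsr : ∀ {a b : ℝ × E → E →L[ℝ] ℝ}, ContinuousOn a (I ×ˢ S) → ContinuousOn b (I ×ˢ S) →
      ContinuousOn (fun q => (a q).smulRight (b q)) (I ×ˢ S) := by
    intro a b ha hb
    have := ((ContinuousLinearMap.smulRightL ℝ E (E →L[ℝ] ℝ)).continuous.comp_continuousOn ha).clm_apply hb
    exact this
  exact continuousOn_const.prodMk ((hu.cont0.smul c1).prodMk
    (((hsr c1 hu.cont1).add (hsr hu.cont1 c1)).add (hu.cont0.smul c2)))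

theorem jet_cutoff_continuousOn (hζ : ContDiff ℝ ∞ ζ) (hS : IsOpen S) (hu : C21 I S u ut) :
    ContinuousOn (fun q : ℝ × E => jet (fun t x => ζ x * u t x) q.1 q.2) (I ×ˢ S) := by
  have c0 : ContinuousOn (fun q : ℝ × E => ζ q.2) (I ×ˢ S) :=
    (hζ.continuous.comp continuous_snd).continuousOn
  exact ((c0.smul (jet_continuousOn hu)).add (commJ_continuousOn hζ hu)).congr fun q hq =>
    jet_cutoff hζ hS hq.2 (hu.c2 _ hq.1)

theorem C21.cutoff_mul (hζ : ContDiff ℝ ∞ ζ) (hS : IsOpen S) (hu : C21 I S u ut) :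
    C21 I S (fun t x => ζ x * u t x) (fun t x => ζ x * ut t x) := by
  have c0 : ContinuousOn (fun q : ℝ × E => ζ q.2) (I ×ˢ S) :=
    (hζ.continuous.comp continuous_snd).continuousOn
  have hj := jet_cutoff_continuousOn hζ hS hu
  refine ⟨fun t ht => (hζ.of_le (by norm_cast)).contDiffOn.mul (hu.c2 t ht),
    fun t ht x hx => (hu.dt t ht x hx).const_mul (ζ x), c0.mul hu.cont0, ?_, ?_, c0.mul hu.contt⟩
  · exact (continuous_fst.comp continuous_snd).comp_continuousOn hj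
  · exact (continuous_snd.comp continuous_snd).comp_continuousOn hj

/-- outside `Kc` the jet of `ζ u` vanishes. -/
theorem jet_cutoff_eq_zero {Kc : Set E} (hK : IsClosed Kc) (hsupp : ∀ x, x ∉ Kc → ζ x = 0) {t : ℝ}
    {x : E} (hx : x ∉ Kc) : jet (fun t x => ζ x * u t x) t x = 0 := by
  have h1 := jet_congr (u := fun t x => ζ x * u t x) (v := fun _ _ => (0 : ℝ)) (t := t)
    hK.isOpen_compl hx (fun y hy => by simp [hsupp y hy])
  rw [h1, jet_of_time (fun _ => (0 : ℝ))]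
  rfl

theorem continuousOn_of_cover {G : Type*} [TopologicalSpace G] {f : ℝ × E → G} {U V : Set E}
    (hU : IsOpen U) (hV : IsOpen V) (hUV : ∀ x, x ∈ U ∨ x ∈ V) (h1 : ContinuousOn f (I ×ˢ U))
    (h2 : ContinuousOn f (I ×ˢ V)) : ContinuousOn f (I ×ˢ univ) := by
  intro q hq
  have aux : ∀ W : Set E, IsOpen W → q.2 ∈ W → ContinuousOn f (I ×ˢ W) →
      ContinuousWithinAt f (I ×ˢ univ) q := by
    intro W hW hqW hf
    refine (hf q ⟨hq.1, hqW⟩).mono_of_mem_nhdsWithin ?_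
    have h3 : (univ : Set ℝ) ×ˢ W ∈ 𝓝 q := (isOpen_univ.prod hW).mem_nhds ⟨mem_univ _, hqW⟩
    filter_upwards [self_mem_nhdsWithin, mem_nhdsWithin_of_mem_nhds h3] with p hp1 hp2
    exact ⟨hp1.1, hp2.2⟩
  rcases hUV q.2 with h | h
  · exact aux U hU h h1
  · exact aux V hV h h2

theorem continuousOn_zero_off {G : Type*} [TopologicalSpace G] [Zero G] {f : ℝ × E → G} {Kc : Set E}
    (hf : ∀ q : ℝ × E, q.2 ∉ Kc → f q = 0) : ContinuousOn f (I ×ˢ Kcᶜ) :=
  continuousOn_const.congr (f := fun _ => (0 : G)) fun q hq => hf q hq.2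

/-- extension by zero of `ζ u` when `ζ` vanishes outside a closed subset `Kc` of the open set `S`. -/
theorem C21.cutoff_extend (hζ : ContDiff ℝ ∞ ζ) (hS : IsOpen S) {Kc : Set E} (hK : IsClosed Kc)
    (hKS : Kc ⊆ S) (hsupp : ∀ x, x ∉ Kc → ζ x = 0) (hu : C21 I S u ut) :
    C21 I univ (fun t x => ζ x * u t x) (fun t x => ζ x * ut t x) := by
  have h1 := hu.cutoff_mul hζ hS
  have hcov : ∀ x, x ∈ S ∨ x ∈ Kcᶜ := fun x => by
    by_cases hx : x ∈ Kc
    · exact Or.inl (hKS hx)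
    · exact Or.inr hx
  have hV := hK.isOpen_compl
  refine ⟨fun t ht => ?_, fun t ht x _ => ?_, ?_, ?_, ?_, ?_⟩
  · rw [contDiffOn_univ, contDiff_iff_contDiffAt]
    intro x
    rcases hcov x with hx | hx
    · exact (h1.c2 t ht).contDiffAt (hS.mem_nhds hx)
    · have : (fun x => ζ x * u t x) =ᶠ[𝓝 x] fun _ => 0 := by
        filter_upwards [hV.mem_nhds hx] with y hy
        simp [hsupp y hy]
      exact contDiffAt_const.congr_of_eventuallyEq this
  · rcases hcov x with hx | hx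
    · exact h1.dt t ht x hx
    · simp only [hsupp x hx, zero_mul]
      exact hasDerivWithinAt_const _ _ _
  · exact continuousOn_of_cover hS hV hcov h1.cont0 (continuousOn_zero_off fun q hq => by simp [hsupp q.2 hq])
  · exact continuousOn_of_cover hS hV hcov h1.cont1 (continuousOn_zero_off fun q hq =>
      congrArg (fun J : Jet E => J.2.1) (jet_cutoff_eq_zero hK hsupp hq))
  · exact continuousOn_of_cover hS hV hcov h1.cont2 (continuousOn_zero_off fun q hq =>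
      congrArg (fun J : Jet E => J.2.2) (jet_cutoff_eq_zero hK hsupp hq))
  · exact continuousOn_of_cover hS hV hcov h1.contt (continuousOn_zero_off fun q hq => by simp [hsupp q.2 hq])

theorem jet_time_mul (η : ℝ → ℝ) (t : ℝ) (x : E) :
    jet (fun t x => η t * u t x) t x = η t • jet u t x := by
  have h1 : fderiv ℝ (fun x => η t * u t x) = η t • fderiv ℝ (u t) :=
    fderiv_const_smul_field (𝕜 := ℝ) (f := u t) (η t)
  have h2 : fderiv ℝ (η t • fderiv ℝ (u t)) = η t • fderiv ℝ (fderiv ℝ (u t)) :=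
    fderiv_const_smul_field (𝕜 := ℝ) (f := fderiv ℝ (u t)) (η t)
  simp only [jet, D1, D2, h1, h2, Prod.smul_mk, smul_eq_mul, Pi.smul_apply]

/-- product with a function of time. -/
theorem C21.time_mul {η η' : ℝ → ℝ} (hη : ∀ t ∈ I, HasDerivWithinAt η (η' t) I t)
    (hc : ContinuousOn η' I) (hS : IsOpen S) (hu : C21 I S u ut) :
    C21 I S (fun t x => η t * u t x) (fun t x => η t * ut t x + η' t * u t x) := by
  have hfst : ContinuousOn (fun q : ℝ × E => q.1) (I ×ˢ S) := continuous_fst.continuousOn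
  have hm : MapsTo (fun q : ℝ × E => q.1) (I ×ˢ S) I := fun q hq => hq.1
  have hηc : ContinuousOn η I := fun t ht => (hη t ht).continuousWithinAt
  have c0 : ContinuousOn (fun q : ℝ × E => η q.1) (I ×ˢ S) := hηc.comp hfst hm
  have c0' : ContinuousOn (fun q : ℝ × E => η' q.1) (I ×ˢ S) := hc.comp hfst hm
  refine ⟨fun t ht => contDiffOn_const.mul (hu.c2 t ht), fun t ht x hx => ?_, c0.mul hu.cont0, ?_, ?_,
    (c0.mul hu.contt).add (c0'.mul hu.cont0)⟩
  · have := (hη t ht).mul (hu.dt t ht x hx)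
    refine this.congr_deriv ?_
    ring
  · exact (c0.smul hu.cont1).congr fun q _ =>
      congrArg (fun J : Jet E => J.2.1) (jet_time_mul (u := u) η q.1 q.2)
  · exact (c0.smul hu.cont2).congr fun q _ =>
      congrArg (fun J : Jet E => J.2.2) (jet_time_mul (u := u) η q.1 q.2)

end Product

end Claimed.Agent.R316.B8
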