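import Mathlib

/-!
# B8-ITER: the iteration lemma (Giaquinta), in predicate form

LEAF (1 theorem, pure real analysis, no imports from the package).

`Q r K` stands for "the norm on the ball of radius `r` is `≤ K`".
Recipe.  `lam = (3/4)^{1/κ}` (so `lam^κ = 3/4`), `d = r1 - r0`, `ρ_i = r0 + (1 - lam^i) d` (`ρ_0 = r0`, `ρ_i < r1`, `ρ_{i+1} - ρ_i = (1-lam) lam^i d`),
`A_i = A / ((1-lam) lam^i d)^κ = A (1-lam)^{-κ} d^{-κ} (4/3)^i`.  Let `Kb` with `Q r1 Kb`, so `Q ρ_k Kb` for all `k` (`hmono_r`).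
Downward induction (`j = k, k-1, …, 0`): `Q ρ_j (Kb / 2^{k-j} + ∑_{j ≤ i < k} A_i / 2^{i-j})`.  At `j = 0`:
`Q r0 (Kb / 2^k + A (1-lam)^{-κ} d^{-κ} ∑_{i<k} (2/3)^i) `, and `∑ (2/3)^i ≤ 3`.  `k → ∞` with `hclosed` + `hmonoK`.  `C = 3 (1-lam)^{-κ}`.
-/

set_option autoImplicit false

open Set Filter

namespace Claimed.Agent.R316.B8

theorem iter_lemma {κ : ℝ} (hκ : 0 < κ) :
    ∃ C : ℝ, 0 ≤ C ∧ ∀ (Q : ℝ → ℝ → Prop) (r0 r1 A : ℝ), r0 < r1 → 0 ≤ A →
      (∀ r K K', K ≤ K' → Q r K → Q r K') →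
      (∀ r K, (∀ ε > 0, Q r (K + ε)) → Q r K) →
      (∀ r s K, r ≤ s → Q s K → Q r K) →
      (∀ r s K, r0 ≤ r → r < s → s ≤ r1 → Q s K → Q r (K / 2 + A / (s - r) ^ κ)) →
      (∃ K, Q r1 K) → Q r0 (C * A / (r1 - r0) ^ κ) := by
  set lam : ℝ := (3 / 4 : ℝ) ^ (1 / κ) with hlam
  have hlam0 : 0 < lam := Real.rpow_pos_of_pos (by norm_num) _
  have hlam1 : lam < 1 := Real.rpow_lt_one (by norm_num) (by norm_num) (by positivity)
  have hlamκ : lam ^ κ = 3 / 4 := by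
    rw [hlam, ← Real.rpow_mul (by norm_num)]
    have : 1 / κ * κ = 1 := by field_simp
    rw [this, Real.rpow_one]
  have h1l : 0 < 1 - lam := by linarith
  refine ⟨3 / (1 - lam) ^ κ, by positivity, ?_⟩
  intro Q r0 r1 A hr hA hmonoK hclosed hmonor hstep ⟨Kb, hKb⟩
  set d := r1 - r0 with hd
  have hd0 : 0 < d := sub_pos.mpr hr
  set D : ℝ := ((1 - lam) * d) ^ κ with hD
  have hD0 : 0 < D := Real.rpow_pos_of_pos (by positivity) _
  set ρ : ℕ → ℝ := fun i => r0 + (1 - lam ^ i) * d with hρ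
  have hpow0 : ∀ i : ℕ, 0 < lam ^ i := fun i => pow_pos hlam0 i
  have hpow1 : ∀ i : ℕ, lam ^ i ≤ 1 := fun i => pow_le_one₀ hlam0.le hlam1.le
  have hρ0 : ∀ i, r0 ≤ ρ i := fun i => by
    simp only [hρ]; nlinarith [hpow1 i]
  have hρ1 : ∀ i, ρ i ≤ r1 := fun i => by
    simp only [hρ]; nlinarith [hpow0 i]
  have hdiff : ∀ i, ρ (i + 1) - ρ i = (1 - lam) * d * lam ^ i := fun i => by
    simp only [hρ, pow_succ]; ring
  have hlt : ∀ i, ρ i < ρ (i + 1) := fun i => by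
    have : 0 < ρ (i + 1) - ρ i := by rw [hdiff]; have := hpow0 i; positivity
    linarith
  have hAi : ∀ i : ℕ, A / (ρ (i + 1) - ρ i) ^ κ = A / D * (4 / 3) ^ i := fun i => by
    rw [hdiff, Real.mul_rpow (by positivity) (hpow0 i).le]
    have : (lam ^ i) ^ κ = (3 / 4) ^ i := by
      rw [← Real.rpow_natCast, ← Real.rpow_mul hlam0.le, mul_comm, Real.rpow_mul hlam0.le, hlamκ,
        Real.rpow_natCast]
    rw [this]
    have h34 : ((3 : ℝ) / 4) ^ i * (4 / 3) ^ i = 1 := by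
      rw [← mul_pow]; norm_num
    have h34' : (0 : ℝ) < (3 / 4) ^ i := by positivity
    rw [← hD, div_eq_iff (by positivity)]
    calc A = A / D * D * ((3 / 4) ^ i * (4 / 3) ^ i) := by rw [h34]; field_simp
      _ = A / D * (4 / 3) ^ i * (D * (3 / 4) ^ i) := by ring
  have key : ∀ n : ℕ, ∀ j : ℕ, ∀ K : ℝ, Q (ρ (j + n)) K →
      Q (ρ j) (K / 2 ^ n + A / D * (4 / 3) ^ j * (3 * (1 - (2 / 3) ^ n))) := by
    intro n
    induction n with
    | zero =>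
      intro j K hK
      simpa using hK
    | succ n ih =>
      intro j K hK
      have h1 := ih (j + 1) K (by rw [show j + 1 + n = j + (n + 1) by ring]; exact hK)
      have h2 := hstep (ρ j) (ρ (j + 1)) _ (hρ0 j) (hlt j) (hρ1 (j + 1)) h1
      rw [hAi] at h2
      refine hmonoK _ _ _ (le_of_eq ?_) h2
      rw [pow_succ, pow_succ, pow_succ]
      field_simp
      ring
  have hAD : 0 ≤ A / D := by positivity
  have e : 3 / (1 - lam) ^ κ * A / d ^ κ = 3 * (A / D) := by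
    rw [hD, Real.mul_rpow h1l.le hd0.le]
    field_simp
  rw [e]
  refine hclosed _ _ fun ε hε => ?_
  obtain ⟨n, hn⟩ := exists_pow_lt_of_lt_one (show 0 < ε / (|Kb| + 1) by positivity)
    (show (1 / 2 : ℝ) < 1 by norm_num)
  have h1 := key n 0 Kb (by rw [zero_add]; exact hmonor _ _ _ (hρ1 n) hKb)
  have hρ00 : ρ 0 = r0 := by simp [hρ]
  rw [hρ00] at h1
  refine hmonoK _ _ _ ?_ h1
  have h2 : Kb / 2 ^ n ≤ ε := by
    have h3 : Kb / 2 ^ n = Kb * (1 / 2) ^ n := by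
      rw [one_div, inv_pow]; rfl
    rw [h3]
    have h4 : (0 : ℝ) < (1 / 2) ^ n := by positivity
    have h5 : (|Kb| + 1) * (1 / 2) ^ n ≤ ε := by
      rw [lt_div_iff₀ (by positivity)] at hn
      linarith
    nlinarith [le_abs_self Kb]
  have h6 : (0 : ℝ) ≤ (2 / 3) ^ n := by positivity
  simp only [pow_zero, mul_one]
  nlinarith
end Claimed.Agent.R316.B8
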