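import Claimed.Agent.R316.Pack028
import Claimed.Agent.R316.B8.Iter

/-!
# B8-LOCAL-EXT (THIS FILE: `extend_adm`), part of export E4: local Schauder estimate on `[0,T] × ball x₀ R → [0,T] × ball x₀ (R/2)`, up to `t = 0`

THREE LEAVES: `extend_adm` (`LocalExt.lean`), `local_step` (`LocalStep.lean`), `schauder_local` (`Local.lean`).
All imported files may be used sorried.  `0 < R ≤ 1`.

**`extend_adm`.**  `η` with `Cut η x₀ (3R/4) (R/8) Cc` (`exists_cutoff`), `P' t x = η x • P t x + (1 - η x) • ofTop trB`.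
`ell`: convex combination (`trB_sqB`, `ofTop_topJ`); outside `ball x₀ (7R/8)` it is the heat operator.  `coef`: `|P'| ≤ M + m`; `[η P]_α ≤ M + Z M` (`HolB.cutoff_smul`, `S' = ball x₀ (7R/8)`),
`[(1-η) tr]_α ≤ Z m`, `Z = 2Cc/(R/8)^α`; continuity on `I ×ˢ univ`: cover by `ball x₀ R` and `(closedBall x₀ (7R/8))ᶜ`.  `time`: factor `η ≤ 1`.
**`local_step`.**  `M'`, `P'` from `extend_adm`; `Cg` from `schauder_global` for `(α, γ, min 1 lam, M', Tm)`; `Cc` from `exists_cutoff`.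
Given `R/2 ≤ r < s ≤ 3R/4`, `ρ = (s - r)/3` (`ρ ≤ r`, `ρ ≤ 1`), `ζ` with `Cut ζ x₀ r ρ Cc`, `v = ζ u`, `vt = ζ ut` (`C21.cutoff_extend`, `Kc = closedBall x₀ (r+ρ) ⊆ ball x₀ R`).
 * `Lop P' v vt t x = ζ x * f t x - P' t x (commJ ζ u t x)` for ALL `x` (inside `ball x₀ (3R/4)`: `Lop_cutoff` and `P' = P`; outside `closedBall x₀ (r+ρ)`: both sides vanish,
   `jet_cutoff_eq_zero`, `Cut.deriv_eq_zero`).
 * `|ζ f|_Y ≤ (1 + 2Cc/ρ^α) F0` (`YB.cutoff_mul`), `|P' (commJ)|_Y ≤ 2 M' 40 Cc ρ^{-2-α} N'` (`YB.clm_apply`, `commJ_YB`), `|ζ u(0)|_{2+α} ≤ 40 Cc ρ^{-2-α} G0` (`C2aB.cutoff_mul`).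
 * `N' = 18 U0/ρ'² + 4 K ρ'^α` bounds `jet u` on `ball x₀ (r+ρ)` for every `ρ' ≤ ρ` (`interp_jet_ball`, `r + ρ + 2ρ' ≤ s`).
 * `schauder_global` (finite norm by `XB.cutoff_mul`), `XB.of_cutoff`: `XB (ball x₀ r) u (Cg [(1 + 2Cc/ρ^α) F0 + 80 M' Cc ρ^{-2-α} N' + 40 Cc ρ^{-2-α} G0])`.
 * choose `ρ'^α = ρ^{2+α} / D`, `D = 640 Cg M' Cc + 1`: the `K` term is `≤ K/2`, and `1/ρ'² = (D/ρ^{2+α})^{2/α}`.  `κ = (2+α)(1+2/α)`; `ρ ≤ 1` so every negative power of `ρ` is `≤ ρ^{-κ} = 3^κ (s-r)^{-κ}`.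
**`schauder_local`.**  `iter_lemma` with `Q r K = XB α (Icc 0 T) (ball x₀ r) u ut K`, `r0 = R/2`, `r1 = 3R/4`, `A = C (F0+G0+U0)` (`XB.mono`, `XB.of_forall_pos`, `XB.subset`).
-/

set_option autoImplicit false
set_option maxSynthPendingDepth 3
set_option linter.unusedSectionVars false
set_option linter.unusedVariables false

open scoped Topology ContDiff
open Set Filter Metric Module

namespace Claimed.Agent.R316.B8

variable {E : Type*} [NormedAddCommGroup E] [InnerProductSpace ℝ E] [FiniteDimensional ℝ E]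

section Ext

/-- extension of an admissible operator from `ball x₀ R` to the whole space, unchanged on `ball x₀ (3R/4)`. -/
theorem extend_adm {α γ lam M R : ℝ} (hα0 : 0 < α) (hα1 : α < 1) (hM : 0 ≤ M) (hR : 0 < R) :
    ∃ M' : ℝ, 0 ≤ M' ∧ ∀ (I : Set ℝ) (x₀ : E) (P : Op E), Adm P α γ lam M I (ball x₀ R) →
      ∃ P' : Op E, Adm P' α γ (min 1 lam) M' I univ ∧
        ∀ t, ∀ x ∈ ball x₀ (3 * R / 4), P' t x = P t x := by
  obtain ⟨Cc, hCc, hcut⟩ := exists_cutoff (E := E)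
  set m : ℝ := ((finrank ℝ E : ℕ) : ℝ) with hm
  have hm0 : 0 ≤ m := by positivity
  have hρ : 0 < R / 8 := by positivity
  set Z : ℝ := 2 * Cc / (R / 8) ^ α with hZ
  have hZ0 : 0 ≤ Z := by positivity
  refine ⟨M + Z * M + Z * m + m, by positivity, fun I x₀ P hP => ?_⟩
  obtain ⟨η, hη⟩ := hcut x₀ (3 * R / 4) (R / 8) hρ (by linarith)
  have hc : ‖ofTop (trB : Bil E →L[ℝ] ℝ)‖ ≤ m := (norm_ofTop_le _).trans norm_trB_le
  have hsub : ball x₀ (3 * R / 4 + R / 8) ⊆ ball x₀ R := ball_subset_ball (by linarith)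
  have hη0 : ∀ x, x ∉ ball x₀ R → η x = 0 := fun x hx => hη.eq_zero x (fun h => hx (hsub h))
  have hηh := hη.hol0 hCc hρ hα0 hα1.le
  refine ⟨fun t x => η x • P t x + (1 - η x) • ofTop trB, ⟨fun t ht x _ ξ => ?_,
    ⟨?_, fun t ht => ?_, fun t ht => ?_⟩, fun t ht s hs x _ B => ?_⟩, fun t x hx => ?_⟩
  · simp only [_root_.add_apply, _root_.smul_apply, ofTop_topJ, trB_sqB, smul_eq_mul]
    have h2 : 0 ≤ ‖ξ‖ ^ 2 := by positivity
    have h3 : min 1 lam * ‖ξ‖ ^ 2 ≤ 1 * ‖ξ‖ ^ 2 := mul_le_mul_of_nonneg_right (min_le_left _ _) h2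
    have h4 : min 1 lam * ‖ξ‖ ^ 2 ≤ lam * ‖ξ‖ ^ 2 := mul_le_mul_of_nonneg_right (min_le_right _ _) h2
    by_cases hx : x ∈ ball x₀ R
    · have h1 := hP.ell t ht x hx ξ
      have h5 := hη.nonneg x
      have h6 := hη.le_one x
      nlinarith
    · rw [hη0 x hx]; linarith
  · refine continuousOn_of_cover (U := ball x₀ R) (V := (closedBall x₀ (3 * R / 4 + R / 8))ᶜ)
      isOpen_ball isClosed_closedBall.isOpen_compl (fun x => ?_) ?_ ?_
    · by_cases hx : x ∈ closedBall x₀ (3 * R / 4 + R / 8)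
      · exact Or.inl (closedBall_subset_ball (by linarith) hx)
      · exact Or.inr hx
    · have h1 : ContinuousOn (fun q : ℝ × E => η q.2) (I ×ˢ ball x₀ R) :=
        (hη.smooth.continuous.comp continuous_snd).continuousOn
      exact (h1.smul hP.coef.cont).add ((continuousOn_const.sub h1).smul continuousOn_const)
    · refine continuousOn_const.congr (f := fun _ => ofTop (trB : Bil E →L[ℝ] ℝ)) fun q hq => ?_
      have : η q.2 = 0 := hη.eq_zero q.2 (fun h => hq.2 (ball_subset_closedBall h))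
      simp [this]
  · have h1 := SupB.cutoff_smul (S' := ball x₀ R) (g := P t) (ζ := η) hη0 hη.sup0
      (hP.coef.sup t ht) hM
    intro x hx
    have h2 := h1 x hx
    have h5 := hη.nonneg x
    have h6 := hη.le_one x
    calc ‖η x • P t x + (1 - η x) • ofTop (trB : Bil E →L[ℝ] ℝ)‖
        ≤ ‖η x • P t x‖ + ‖(1 - η x) • ofTop (trB : Bil E →L[ℝ] ℝ)‖ := norm_add_le _ _
      _ ≤ M + 1 * m := by
          rw [norm_smul (1 - η x), Real.norm_of_nonneg (by linarith)]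
          gcongr
          linarith
      _ ≤ M + Z * M + Z * m + m := by nlinarith [mul_nonneg hZ0 hM, mul_nonneg hZ0 hm0]
  · have h1 := HolB.cutoff_smul (S' := ball x₀ R) (g := P t) (ζ := η) (α := α) hη0 hη.sup0 hηh
      (hP.coef.sup t ht) (hP.coef.hol t ht) hM hM hZ0
    intro x hx y hy
    have h2 := h1 x hx y hy
    have h3 := hηh x hx y hy
    have hr : 0 ≤ ‖x - y‖ ^ α := Real.rpow_nonneg (norm_nonneg _) _
    have e : η x • P t x + (1 - η x) • ofTop (trB : Bil E →L[ℝ] ℝ)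
        - (η y • P t y + (1 - η y) • ofTop trB)
        = (η x • P t x - η y • P t y) - (η x - η y) • ofTop trB := by
      module
    rw [e]
    calc ‖(η x • P t x - η y • P t y) - (η x - η y) • ofTop (trB : Bil E →L[ℝ] ℝ)‖
        ≤ ‖η x • P t x - η y • P t y‖ + ‖(η x - η y) • ofTop (trB : Bil E →L[ℝ] ℝ)‖ := norm_sub_le _ _
      _ ≤ (M + Z * M) * ‖x - y‖ ^ α + (Z * ‖x - y‖ ^ α) * m := by
          rw [norm_smul (η x - η y)]
          gcongr
      _ ≤ (M + Z * M + Z * m + m) * ‖x - y‖ ^ α := by nlinarith [mul_nonneg hm0 hr]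
  · simp only [_root_.add_apply, _root_.smul_apply, smul_eq_mul]
    have e : η x * P t x (topJ B) + (1 - η x) * ofTop trB (topJ B)
        - (η x * P s x (topJ B) + (1 - η x) * ofTop trB (topJ B))
        = η x * (P t x (topJ B) - P s x (topJ B)) := by ring
    rw [e, abs_mul, abs_of_nonneg (hη.nonneg x)]
    have hr : 0 ≤ |t - s| ^ γ * ‖B‖ := mul_nonneg (Real.rpow_nonneg (abs_nonneg _) _) (norm_nonneg _)
    have hK : 0 ≤ Z * M + Z * m + m := by positivity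
    by_cases hx : x ∈ ball x₀ R
    · have h1 := hP.time t ht s hs x hx B
      calc η x * |P t x (topJ B) - P s x (topJ B)| ≤ 1 * (M * |t - s| ^ γ * ‖B‖) := by
            gcongr
            exact hη.le_one x
        _ ≤ (M + Z * M + Z * m + m) * |t - s| ^ γ * ‖B‖ := by nlinarith [mul_nonneg hK hr]
    · rw [hη0 x hx, zero_mul]
      have : 0 ≤ M + Z * M + Z * m + m := by positivity
      nlinarith [mul_nonneg this hr]
  · have : η x = 1 := hη.eq_one x (ball_subset_closedBall hx)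
    simp [this]

end Ext

end Claimed.Agent.R316.B8
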