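import Claimed.Agent.R316.Pack001
import Claimed.Agent.R316.B8.Form

/-!
# B8-MAXP (export E1): maximum principle on the strip `[0,T] × E`, sup bound, uniqueness

LEAF (proofs only).  Uses `Basic.lean` (jets, `C21` algebra) and `Form.lean` (`nonpos_of_nsd`, `D2_symm`).

Recipes.
* `touch`: `x₀` is a local max of the `C²` function `w t₀` on the open set `S`: `IsLocalMax.fderiv_eq_zero`; for
  `D² w (v,v) ≤ 0` restrict to the line `s ↦ w t₀ (x₀ + s v)` (second derivative test: if `φ(s) ≤ φ(0)`, `φ'(0)=0`,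
  `φ''(0) > 0` then contradiction, e.g. `isLocalMin_of_deriv_deriv_pos` or Taylor by hand:
  `φ(s) - φ(0) = ∫_0^s (s-r) φ''(r) dr`).  `wt ≥ 0`: the difference quotients `(w t x₀ - w t₀ x₀)/(t - t₀)`, `t < t₀`, are
  `≥ 0` and converge to `wt t₀ x₀` along `𝓝[Icc 0 T ∩ Iio t₀] t₀` (nontrivial since `0 < t₀`)
  (`HasDerivWithinAt.mono`, `hasDerivWithinAt_iff_tendsto_slope`, `ge_of_tendsto`).
* `strip_max`: fix `ε > 0`, `ν = 2M+1`, `φ t x = exp(ν t) (1 + ‖x‖²)`, `w = u - ε φ`.  `jet φ = exp(ν t)(1+‖x‖², 2⟪x,·⟫, 2 innB)`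
  has norm `≤ 2 exp(ν t)(1+‖x‖²)`, so `Lop P φ φt ≥ exp(ν t)(1+‖x‖²)(ν - 2M) > 0` and `Lop P w wt < 0`.
  CLAIM `w < 0` on the strip.  Otherwise `A = {(t,x) ∈ [0,T] × closedBall 0 R | w ≥ 0}` (`R` with `ε(1+R²) > K`) is compact
  and nonempty; take a point `(t₀,x₀) ∈ A` with minimal `t` (`IsCompact.exists_isMinOn` for `Prod.fst`).  `t₀ > 0` because
  `w(0,·) ≤ -ε`.  For `t < t₀`: `w(t,·) < 0` everywhere; by continuity in `t`: `w(t₀,·) ≤ 0`, hence `w(t₀,x₀) = 0` is the max of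
  `w(t₀,·)` and of `t ↦ w(t,x₀)` on `[0,t₀]`.  `touch` gives `jet w = topJ (D² w)`, `D² w ≤ 0`, `wt ≥ 0`, so
  `Lop P w wt = wt - P (topJ D²w) ≥ 0` by `nonpos_of_nsd` applied to `topOf (P t₀ x₀)`: contradiction.  Let `ε → 0`.
  (The sign of the zeroth order coefficient plays no role because the touching value is `0`.)
* `strip_sup_bound`: apply `strip_max` to `± u - ψ`, `ψ t = exp(M t)(K0 + t F0)`:
  `Lop P ψ ψ' = ψ' - P(ψ,0,0) ≥ ψ' - M ψ = exp(M t) F0 ≥ F0`.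
-/

set_option autoImplicit false
set_option maxSynthPendingDepth 3
set_option linter.unusedSectionVars false
set_option linter.unusedVariables false

open scoped Topology ContDiff RealInnerProductSpace
open Set Filter Metric

namespace Claimed.Agent.R316.B8

variable {E : Type*} [NormedAddCommGroup E] [InnerProductSpace ℝ E] [FiniteDimensional ℝ E]

/-- second derivative test along a line. -/
theorem snd_deriv_nonpos_of_localMax {F : Type*} [NormedAddCommGroup F] [NormedSpace ℝ F]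
    {S : Set F} (hS : IsOpen S) {g : F → ℝ} {x₀ : F} (hx₀ : x₀ ∈ S)
    (hg : ContDiffOn ℝ 2 g S) (hx : ∀ x ∈ S, g x ≤ g x₀) (v : F) :
    fderiv ℝ (fderiv ℝ g) x₀ v v ≤ 0 := by
  by_contra hpos
  rw [not_le] at hpos
  set γ : ℝ → F := fun s => x₀ + s • v with hγ
  have hγc : Continuous γ := by fun_prop
  have hγ0 : γ 0 = x₀ := by simp [hγ]
  have hU : γ ⁻¹' S ∈ 𝓝 (0 : ℝ) := (hS.preimage hγc).mem_nhds (by rw [mem_preimage, hγ0]; exact hx₀)
  have hγd : ∀ s, HasDerivAt γ v s := by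
    intro s
    have := ((hasDerivAt_id s).smul_const v).const_add x₀
    rw [one_smul] at this
    exact this
  set φ : ℝ → ℝ := fun s => g (γ s) with hφ
  have hφd : ∀ s ∈ γ ⁻¹' S, HasDerivAt φ (fderiv ℝ g (γ s) v) s := fun s hs =>
    (cd2_differentiableAt hS hs hg).hasFDerivAt.comp_hasDerivAt s (hγd s)
  have hd1 : deriv φ =ᶠ[𝓝 0] fun s => fderiv ℝ g (γ s) v := by
    filter_upwards [hU] with s hs using (hφd s hs).deriv
  have hd2 : HasDerivAt (fun s => fderiv ℝ g (γ s) v) (fderiv ℝ (fderiv ℝ g) x₀ v v) 0 := by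
    have h1 : HasFDerivAt (fderiv ℝ g) (fderiv ℝ (fderiv ℝ g) x₀) (γ 0) := by
      rw [hγ0]; exact (cd2_fderiv_differentiableAt hS hx₀ hg).hasFDerivAt
    have h2 := h1.comp_hasDerivAt 0 (hγd 0)
    exact ((ContinuousLinearMap.apply ℝ ℝ v).hasFDerivAt.comp_hasDerivAt 0 h2)
  have hdd : deriv (deriv φ) 0 = fderiv ℝ (fderiv ℝ g) x₀ v v := by
    rw [hd1.deriv_eq]; exact hd2.deriv
  have hmax : IsLocalMax φ 0 := by
    filter_upwards [hU] with s hs
    simp only [hφ, hγ0]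
    exact hx _ hs
  have hd0 : deriv φ 0 = 0 := hmax.deriv_eq_zero
  have hc : ContinuousAt φ 0 := (hφd 0 (mem_of_mem_nhds hU)).continuousAt
  have hmin : IsLocalMin φ 0 := isLocalMin_of_deriv_deriv_pos (by rw [hdd]; exact hpos) hd0 hc
  have hconst : φ =ᶠ[𝓝 0] fun _ => φ 0 := by
    filter_upwards [hmax, hmin] with s h1 h2 using le_antisymm h1 h2
  have h3 : deriv φ =ᶠ[𝓝 0] fun _ => 0 := by
    have := hconst.deriv
    simpa using this
  have h4 : deriv (deriv φ) 0 = 0 := by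
    rw [h3.deriv_eq]; simp
  rw [hdd] at h4
  linarith

/-- first and second order conditions at a space-time touching point. -/
theorem touch {T t₀ : ℝ} {S : Set E} {x₀ : E} {w wt : ℝ → E → ℝ} (hS : IsOpen S)
    (hw : C21 (Icc 0 T) S w wt) (ht₀ : t₀ ∈ Ioc 0 T) (hx₀ : x₀ ∈ S)
    (hx : ∀ x ∈ S, w t₀ x ≤ w t₀ x₀) (ht : ∀ t ∈ Icc 0 t₀, w t x₀ ≤ w t₀ x₀) :
    0 ≤ wt t₀ x₀ ∧ D1 w t₀ x₀ = 0 ∧ ∀ v, D2 w t₀ x₀ v v ≤ 0 := by
  have ht₀' : t₀ ∈ Icc 0 T := ⟨ht₀.1.le, ht₀.2⟩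
  refine ⟨?_, ?_, fun v => snd_deriv_nonpos_of_localMax hS hx₀ (hw.c2 t₀ ht₀') hx v⟩
  · have h1 : HasDerivWithinAt (fun s => w s x₀) (wt t₀ x₀) (Icc 0 t₀) t₀ :=
      (hw.dt t₀ ht₀' x₀ hx₀).mono (Icc_subset_Icc_right ht₀.2)
    rw [hasDerivWithinAt_iff_tendsto_slope] at h1
    have hne : (𝓝[Icc 0 t₀ \ {t₀}] t₀).NeBot := by
      rw [← mem_closure_iff_nhdsWithin_neBot, Icc_sdiff_right, closure_Ico ht₀.1.ne]
      exact ⟨ht₀.1.le, le_rfl⟩
    refine ge_of_tendsto h1 ?_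
    filter_upwards [self_mem_nhdsWithin] with t htm
    have h2 : t ∈ Icc 0 t₀ := htm.1
    have h3 : t ≠ t₀ := htm.2
    have h4 : t - t₀ < 0 := sub_neg.mpr (lt_of_le_of_ne h2.2 h3)
    rw [slope_def_field]
    exact div_nonneg_of_nonpos (sub_nonpos.mpr (ht t h2)) h4.le
  · have hmax : IsLocalMax (w t₀) x₀ := by
      filter_upwards [hS.mem_nhds hx₀] with x hx' using hx x hx'
    exact hmax.fderiv_eq_zero

/-- consequence for a degenerate elliptic operator: at a touching point `jet w = (w, 0, D²w)`,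
`w_t ≥ 0`, `P (0,0,D²w) ≤ 0`, hence `L w ≥ - c w`. -/
theorem touch_op {T t₀ M : ℝ} {S : Set E} {x₀ : E} {w wt : ℝ → E → ℝ} {P : Op E} (hS : IsOpen S)
    (hP : Bdd P M (Icc 0 T) S) (hw : C21 (Icc 0 T) S w wt) (ht₀ : t₀ ∈ Ioc 0 T) (hx₀ : x₀ ∈ S)
    (hx : ∀ x ∈ S, w t₀ x ≤ w t₀ x₀) (ht : ∀ t ∈ Icc 0 t₀, w t x₀ ≤ w t₀ x₀) :
    - P t₀ x₀ (w t₀ x₀, 0, 0) ≤ Lop P w wt t₀ x₀ := by
  have ht₀' : t₀ ∈ Icc 0 T := ⟨ht₀.1.le, ht₀.2⟩
  obtain ⟨h1, h2, h3⟩ := touch hS hw ht₀ hx₀ hx ht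
  have h4 : topOf (P t₀ x₀) (D2 w t₀ x₀) ≤ 0 :=
    nonpos_of_nsd _ (fun ξ => hP.nonneg t₀ ht₀' x₀ hx₀ ξ) _ (D2_symm hS hx₀ (hw.c2 t₀ ht₀')) h3
  rw [topOf_apply] at h4
  have e : jet w t₀ x₀ = (w t₀ x₀, 0, 0) + topJ (D2 w t₀ x₀) := by
    simp [jet, h2, topJ]
  rw [Lop, e, map_add]
  linarith

theorem Lop_lin (P : Op E) (a b : ℝ) {S : Set E} (hS : IsOpen S) {u ut v vt : ℝ → E → ℝ} {t : ℝ}
    {x : E} (hx : x ∈ S) (hu : ContDiffOn ℝ 2 (u t) S) (hv : ContDiffOn ℝ 2 (v t) S) :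
    Lop P (fun t x => a * u t x + b * v t x) (fun t x => a * ut t x + b * vt t x) t x
      = a * Lop P u ut t x + b * Lop P v vt t x := by
  simp only [Lop, jet_lin a b hS hx hu hv, map_add, map_smul, smul_eq_mul]; ring

/-- the barrier `exp(ν t)(1 + ‖x‖²)`. -/
noncomputable def bar (ν : ℝ) (t : ℝ) (x : E) : ℝ := Real.exp (ν * t) * (1 + ‖x‖ ^ 2)

theorem bar_pos (ν t : ℝ) (x : E) : 0 < bar ν t x := by unfold bar; positivity

theorem hasFDerivAt_bar (ν t : ℝ) (x : E) :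
    HasFDerivAt (bar ν t) ((2 * Real.exp (ν * t)) • innerSL ℝ x) x := by
  have h1 : HasFDerivAt (fun x : E => ‖x‖ ^ 2) (2 • (innerSL ℝ x)) x :=
    (hasStrictFDerivAt_norm_sq x).hasFDerivAt
  have h2 := (h1.const_add 1).const_mul (Real.exp (ν * t))
  refine h2.congr_fderiv ?_
  ext v
  simp
  ring

theorem D1_bar (ν t : ℝ) (x : E) : D1 (bar ν) t x = (2 * Real.exp (ν * t)) • innerSL ℝ x :=
  (hasFDerivAt_bar ν t x).fderiv

theorem D2_bar (ν t : ℝ) (x : E) : D2 (bar ν) t x = (2 * Real.exp (ν * t)) • (innB : Bil E) := by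
  have h1 : fderiv ℝ (bar ν t) = fun x : E => ((2 * Real.exp (ν * t)) • (innB : Bil E)) x := by
    funext y
    rw [(hasFDerivAt_bar ν t y).fderiv]
    rfl
  unfold D2
  rw [h1]
  exact ((2 * Real.exp (ν * t)) • (innB : Bil E)).hasFDerivAt.fderiv

theorem bar_C21 (ν : ℝ) (I : Set ℝ) :
    C21 I (univ : Set E) (bar ν) (fun t x => ν * bar ν t x) := by
  have hc0 : Continuous (fun q : ℝ × E => bar ν q.1 q.2) := by
    unfold bar; fun_prop
  refine ⟨fun t _ => ?_, fun t _ x _ => ?_, hc0.continuousOn, ?_, ?_,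
    (continuous_const.mul hc0).continuousOn⟩
  · unfold bar
    exact (contDiff_const.mul (contDiff_const.add (contDiff_norm_sq ℝ))).contDiffOn
  · have h1 : HasDerivAt (fun s : ℝ => Real.exp (ν * s)) (Real.exp (ν * t) * (ν * 1)) t :=
      ((hasDerivAt_id t).const_mul ν).exp
    have h2 := h1.mul_const (1 + ‖x‖ ^ 2)
    refine (h2.congr_deriv ?_).hasDerivWithinAt
    unfold bar; ring
  · have : (fun q : ℝ × E => D1 (bar ν) q.1 q.2)
        = fun q : ℝ × E => (2 * Real.exp (ν * q.1)) • innerSL ℝ q.2 := by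
      funext q; exact D1_bar ν q.1 q.2
    rw [this]
    have h1 : Continuous (fun q : ℝ × E => (innerSL ℝ q.2 : E →L[ℝ] ℝ)) :=
      (innerSL ℝ : E →L[ℝ] E →L[ℝ] ℝ).continuous.comp continuous_snd
    have h2 : Continuous (fun q : ℝ × E => 2 * Real.exp (ν * q.1)) := by fun_prop
    exact (h2.smul h1).continuousOn
  · have : (fun q : ℝ × E => D2 (bar ν) q.1 q.2)
        = fun q : ℝ × E => (2 * Real.exp (ν * q.1)) • (innB : Bil E) := by
      funext q; exact D2_bar ν q.1 q.2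
    rw [this]
    have h2 : Continuous (fun q : ℝ × E => 2 * Real.exp (ν * q.1)) := by fun_prop
    exact (h2.smul continuous_const).continuousOn

theorem norm_jet_bar_le (ν t : ℝ) (x : E) : ‖jet (bar ν) t x‖ ≤ 2 * bar ν t x := by
  have he : 0 < Real.exp (ν * t) := Real.exp_pos _
  have hb := bar_pos ν t x
  rw [norm_jet_le_iff, D1_bar, D2_bar]
  refine ⟨?_, ?_, ?_⟩
  · rw [abs_of_pos hb]; linarith
  · rw [norm_smul, innerSL_apply_norm, Real.norm_of_nonneg (by positivity)]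
    unfold bar
    nlinarith [sq_nonneg (‖x‖ - 1), norm_nonneg x]
  · rw [norm_smul, Real.norm_of_nonneg (by positivity)]
    unfold bar
    have := norm_innB_le (E := E)
    nlinarith [sq_nonneg ‖x‖, norm_nonneg (innB : Bil E)]



/-- **E1, maximum principle on the strip** for bounded-above subsolutions. -/
theorem strip_max {T M : ℝ} {P : Op E} {u ut : ℝ → E → ℝ}
    (hP : Bdd P M (Icc 0 T) univ) (hu : C21 (Icc 0 T) univ u ut)
    (hb : ∃ K, ∀ t ∈ Icc 0 T, ∀ x, u t x ≤ K)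
    (hL : ∀ t ∈ Icc 0 T, ∀ x, Lop P u ut t x ≤ 0) (h0 : ∀ x, u 0 x ≤ 0) :
    ∀ t ∈ Icc 0 T, ∀ x, u t x ≤ 0 := by
  obtain ⟨K, hK⟩ := hb
  set ν := 2 * M + 1 with hν
  have key : ∀ ε > 0, ∀ t ∈ Icc 0 T, ∀ x, u t x - ε * bar ν t x < 0 := by
    intro ε hε
    by_contra hcon
    simp only [not_forall, not_lt] at hcon
    obtain ⟨t₁, ht₁, x₁, hw₁⟩ := hcon
    have hM0 : 0 ≤ M := (norm_nonneg _).trans (hP.le t₁ ht₁ x₁ (mem_univ _))
    set w : ℝ → E → ℝ := fun t x => 1 * u t x + (-ε) * bar ν t x with hwdef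
    set wt : ℝ → E → ℝ := fun t x => 1 * ut t x + (-ε) * (ν * bar ν t x) with hwtdef
    have hwe : ∀ t x, w t x = u t x - ε * bar ν t x := fun t x => by simp only [hwdef]; ring
    have hw : C21 (Icc 0 T) univ w wt := C21.lin 1 (-ε) isOpen_univ hu (bar_C21 ν _)
    have hLw : ∀ t ∈ Icc 0 T, ∀ x, Lop P w wt t x < 0 := by
      intro t ht x
      rw [hwdef, hwtdef, Lop_lin P 1 (-ε) isOpen_univ (mem_univ x) (hu.c2 t ht)
        ((bar_C21 ν (Icc 0 T)).c2 t ht)]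
      have h1 := hL t ht x
      have h2 : bar ν t x ≤ Lop P (bar ν) (fun t x => ν * bar ν t x) t x := by
        rw [Lop]
        have h3 := (P t x).le_opNorm (jet (bar ν) t x)
        have h4 := hP.le t ht x (mem_univ _)
        have h5 := norm_jet_bar_le ν t x
        have h6 : P t x (jet (bar ν) t x) ≤ M * (2 * bar ν t x) :=
          (le_abs_self _).trans (h3.trans (mul_le_mul h4 h5 (norm_nonneg _) hM0))
        rw [hν]
        nlinarith
      nlinarith [bar_pos ν t x]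
    set R := K / ε with hR
    have hin : ∀ t ∈ Icc 0 T, ∀ x, 0 ≤ w t x → x ∈ closedBall (0 : E) R := by
      intro t ht x hwx
      rw [hwe] at hwx
      have h1 := hK t ht x
      have h2 : 1 ≤ Real.exp (ν * t) := Real.one_le_exp (mul_nonneg (by rw [hν]; linarith) ht.1)
      have h3 : ‖x‖ ≤ bar ν t x := by
        unfold bar
        nlinarith [sq_nonneg (‖x‖ - 1), norm_nonneg x, sq_nonneg ‖x‖]
      rw [mem_closedBall_zero_iff, hR, le_div_iff₀ hε]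
      nlinarith
    set Sq : Set (ℝ × E) := Icc 0 T ×ˢ closedBall (0 : E) R with hSq
    have hSqc : IsCompact Sq := isCompact_Icc.prod (isCompact_closedBall _ _)
    have hwc : ContinuousOn (fun q : ℝ × E => w q.1 q.2) Sq :=
      hw.cont0.mono (prod_mono subset_rfl (subset_univ _))
    set A : Set (ℝ × E) := Sq ∩ (fun q : ℝ × E => w q.1 q.2) ⁻¹' Ici 0 with hA
    have hAcl : IsClosed A := hwc.preimage_isClosed_of_isClosed hSqc.isClosed isClosed_Ici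
    have hAc : IsCompact A := hSqc.of_isClosed_subset hAcl inter_subset_left
    have hmem : ∀ t ∈ Icc 0 T, ∀ x, 0 ≤ w t x → (t, x) ∈ A := fun t ht x hwx =>
      ⟨⟨ht, hin t ht x hwx⟩, hwx⟩
    have hAne : A.Nonempty := ⟨(t₁, x₁), hmem t₁ ht₁ x₁ (by rw [hwe]; exact hw₁)⟩
    obtain ⟨q₀, hq₀, hmin⟩ := hAc.exists_isMinOn hAne continuous_fst.continuousOn
    obtain ⟨t₀, x₀⟩ := q₀
    have ht₀ : t₀ ∈ Icc 0 T := hq₀.1.1
    have hw₀ : 0 ≤ w t₀ x₀ := hq₀.2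
    have hneg : ∀ t ∈ Icc 0 T, t < t₀ → ∀ x, w t x < 0 := by
      intro t ht htt x
      by_contra hc
      rw [not_lt] at hc
      have : t₀ ≤ t := hmin (hmem t ht x hc)
      linarith
    have ht₀pos : 0 < t₀ := by
      rcases eq_or_lt_of_le ht₀.1 with h | h
      · exfalso
        rw [← h, hwe] at hw₀
        have := h0 x₀
        nlinarith [bar_pos ν 0 x₀]
      · exact h
    have hle : ∀ x, w t₀ x ≤ 0 := by
      intro x
      have h1 : ContinuousWithinAt (fun s => w s x) (Icc 0 T) t₀ :=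
        (hw.dt t₀ ht₀ x (mem_univ _)).continuousWithinAt
      have h2 : Tendsto (fun s => w s x) (𝓝[Ico 0 t₀] t₀) (𝓝 (w t₀ x)) :=
        h1.mono (fun s hs => ⟨hs.1, hs.2.le.trans ht₀.2⟩)
      have hne : (𝓝[Ico 0 t₀] t₀).NeBot := by
        rw [← mem_closure_iff_nhdsWithin_neBot, closure_Ico ht₀pos.ne]
        exact ⟨ht₀pos.le, le_rfl⟩
      refine le_of_tendsto h2 ?_
      filter_upwards [self_mem_nhdsWithin] with s hs
      exact (hneg s ⟨hs.1, hs.2.le.trans ht₀.2⟩ hs.2 x).le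
    have hw0 : w t₀ x₀ = 0 := le_antisymm (hle x₀) hw₀
    have h3 := touch_op isOpen_univ hP hw ⟨ht₀pos, ht₀.2⟩ (mem_univ x₀)
      (fun x _ => by rw [hw0]; exact hle x)
      (fun t ht => by
        rw [hw0]
        rcases eq_or_lt_of_le ht.2 with h | h
        · rw [h, hw0]
        · exact (hneg t ⟨ht.1, ht.2.trans ht₀.2⟩ h x₀).le)
    rw [hw0] at h3
    have h4 : ((0 : ℝ), (0 : E →L[ℝ] ℝ), (0 : Bil E)) = (0 : Jet E) := rfl
    rw [h4, map_zero, neg_zero] at h3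
    exact absurd (hLw t₀ ht₀ x₀) (not_lt.mpr h3)
  intro t ht x
  by_contra h
  rw [not_le] at h
  have h1 := key (u t x / bar ν t x) (div_pos h (bar_pos ν t x)) t ht x
  rw [div_mul_cancel₀ _ (bar_pos ν t x).ne'] at h1
  linarith

/-- **E1, comparison**. -/
theorem strip_compare {T M : ℝ} {P : Op E} {u ut v vt : ℝ → E → ℝ}
    (hP : Bdd P M (Icc 0 T) univ) (hu : C21 (Icc 0 T) univ u ut) (hv : C21 (Icc 0 T) univ v vt)
    (hb : ∃ K, ∀ t ∈ Icc 0 T, ∀ x, u t x - v t x ≤ K)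
    (hL : ∀ t ∈ Icc 0 T, ∀ x, Lop P u ut t x ≤ Lop P v vt t x) (h0 : ∀ x, u 0 x ≤ v 0 x) :
    ∀ t ∈ Icc 0 T, ∀ x, u t x ≤ v t x := by
  have h := strip_max hP (hu.sub isOpen_univ hv) hb (fun t ht x => by
    rw [Lop_sub P isOpen_univ (mem_univ x) (hu.c2 t ht) (hv.c2 t ht)]
    linarith [hL t ht x]) (fun x => by linarith [h0 x])
  intro t ht x
  linarith [h t ht x]

/-- **E1, sup bound**. -/
theorem strip_sup_bound {T M K0 F0 : ℝ} {P : Op E} {u ut : ℝ → E → ℝ}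
    (hP : Bdd P M (Icc 0 T) univ) (hu : C21 (Icc 0 T) univ u ut)
    (hb : ∃ K, ∀ t ∈ Icc 0 T, ∀ x, |u t x| ≤ K)
    (hL : ∀ t ∈ Icc 0 T, ∀ x, |Lop P u ut t x| ≤ F0) (h0 : ∀ x, |u 0 x| ≤ K0) :
    ∀ t ∈ Icc 0 T, ∀ x, |u t x| ≤ Real.exp (M * t) * (K0 + t * F0) := by
  intro t₁ ht₁ x₁
  obtain ⟨K, hK⟩ := hb
  have hM0 : 0 ≤ M := (norm_nonneg _).trans (hP.le t₁ ht₁ x₁ (mem_univ _))
  have hF0 : 0 ≤ F0 := (abs_nonneg _).trans (hL t₁ ht₁ x₁)
  have hK0 : 0 ≤ K0 := (abs_nonneg _).trans (h0 x₁)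
  set ψ : ℝ → ℝ := fun t => Real.exp (M * t) * (K0 + t * F0) with hψ
  set ψ' : ℝ → ℝ := fun t => M * ψ t + Real.exp (M * t) * F0 with hψ'
  have hψd : ∀ t, HasDerivAt ψ (ψ' t) t := by
    intro t
    have h1 : HasDerivAt (fun s : ℝ => Real.exp (M * s)) (Real.exp (M * t) * (M * 1)) t :=
      ((hasDerivAt_id t).const_mul M).exp
    have h2 : HasDerivAt (fun s : ℝ => K0 + s * F0) (1 * F0) t :=
      ((hasDerivAt_id t).mul_const F0).const_add K0
    refine (h1.mul h2).congr_deriv ?_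
    simp only [hψ', hψ]; ring
  have hψ'c : Continuous ψ' := by
    simp only [hψ', hψ]; fun_prop
  have hΨ : C21 (Icc 0 T) (univ : Set E) (fun t _ => ψ t) (fun t _ => ψ' t) :=
    C21.of_time (fun t _ => (hψd t).hasDerivWithinAt) hψ'c.continuousOn
  have hψ0 : ∀ t ∈ Icc 0 T, 0 ≤ ψ t := fun t ht => by
    simp only [hψ]
    have := ht.1
    positivity
  have hLψ : ∀ t ∈ Icc 0 T, ∀ x : E, F0 ≤ Lop P (fun t _ => ψ t) (fun t _ => ψ' t) t x := by
    intro t ht x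
    rw [Lop, jet_of_time]
    have h3 := (P t x).le_opNorm ((ψ t, 0, 0) : Jet E)
    have h4 := hP.le t ht x (mem_univ _)
    have h5 : ‖((ψ t, 0, 0) : Jet E)‖ = ψ t := by
      simp [Prod.norm_def, abs_of_nonneg (hψ0 t ht), hψ0 t ht]
    rw [h5] at h3
    have h6 : P t x ((ψ t, 0, 0) : Jet E) ≤ M * ψ t :=
      (le_abs_self _).trans (h3.trans (mul_le_mul_of_nonneg_right h4 (hψ0 t ht)))
    have h7 : 1 ≤ Real.exp (M * t) := Real.one_le_exp (mul_nonneg hM0 ht.1)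
    simp only [hψ']
    nlinarith
  have hψ00 : ψ 0 = K0 := by simp [hψ]
  have hup : ∀ a : ℝ, |a| = 1 → ∀ t ∈ Icc 0 T, ∀ x, a * u t x + (-1) * ψ t ≤ 0 := by
    intro a ha
    refine strip_max hP (C21.lin a (-1) isOpen_univ hu hΨ) ⟨K, fun t ht x => ?_⟩ (fun t ht x => ?_)
      (fun x => ?_)
    · have h1 : a * u t x ≤ |a * u t x| := le_abs_self _
      rw [abs_mul, ha, one_mul] at h1
      linarith [hK t ht x, hψ0 t ht]
    · rw [Lop_lin P a (-1) isOpen_univ (mem_univ x) (hu.c2 t ht) (hΨ.c2 t ht)]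
      have h1 : a * Lop P u ut t x ≤ |a * Lop P u ut t x| := le_abs_self _
      rw [abs_mul, ha, one_mul] at h1
      linarith [hL t ht x, hLψ t ht x]
    · have h1 : a * u 0 x ≤ |a * u 0 x| := le_abs_self _
      rw [abs_mul, ha, one_mul] at h1
      rw [hψ00]
      linarith [h0 x]
  have h1 := hup 1 (by simp) t₁ ht₁ x₁
  have h2 := hup (-1) (by simp) t₁ ht₁ x₁
  rw [abs_le]
  constructor <;> linarith

/-- **E1, uniqueness** of bounded solutions of the Cauchy problem. -/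
theorem strip_unique {T M : ℝ} {P : Op E} {u ut v vt : ℝ → E → ℝ}
    (hP : Bdd P M (Icc 0 T) univ) (hu : C21 (Icc 0 T) univ u ut) (hv : C21 (Icc 0 T) univ v vt)
    (hbu : ∃ K, ∀ t ∈ Icc 0 T, ∀ x, |u t x| ≤ K) (hbv : ∃ K, ∀ t ∈ Icc 0 T, ∀ x, |v t x| ≤ K)
    (hL : ∀ t ∈ Icc 0 T, ∀ x, Lop P u ut t x = Lop P v vt t x) (h0 : ∀ x, u 0 x = v 0 x) :
    ∀ t ∈ Icc 0 T, ∀ x, u t x = v t x := by
  obtain ⟨K₁, hK₁⟩ := hbu
  obtain ⟨K₂, hK₂⟩ := hbv
  have h1 := strip_compare hP hu hv ⟨K₁ + K₂, fun t ht x => by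
    have a := abs_le.mp (hK₁ t ht x)
    have b := abs_le.mp (hK₂ t ht x)
    linarith [a.2, b.1]⟩ (fun t ht x => (hL t ht x).le) (fun x => (h0 x).le)
  have h2 := strip_compare hP hv hu ⟨K₁ + K₂, fun t ht x => by
    have a := abs_le.mp (hK₁ t ht x)
    have b := abs_le.mp (hK₂ t ht x)
    linarith [a.1, b.2]⟩ (fun t ht x => (hL t ht x).ge) (fun x => (h0 x).ge)
  exact fun t ht x => le_antisymm (h1 t ht x) (h2 t ht x)

/-- uniqueness also identifies the time derivatives (`0 < T`). -/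
theorem strip_unique_dt {T : ℝ} (hT : 0 < T) {S : Set E} {u ut v vt : ℝ → E → ℝ}
    (hu : C21 (Icc 0 T) S u ut) (hv : C21 (Icc 0 T) S v vt)
    (h : ∀ t ∈ Icc 0 T, ∀ x ∈ S, u t x = v t x) : ∀ t ∈ Icc 0 T, ∀ x ∈ S, ut t x = vt t x := by
  intro t ht x hx
  have h1 := hu.dt t ht x hx
  have h2 : HasDerivWithinAt (fun s => u s x) (vt t x) (Icc 0 T) t :=
    (hv.dt t ht x hx).congr (fun s hs => h s hs x hx) (h t ht x hx)
  exact (uniqueDiffOn_Icc hT t ht).eq_deriv _ h1 h2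

end Claimed.Agent.R316.B8
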